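import Crest.Agent.N337.Par.Y

/-!
# Row 337 (helper7): numbers that are small beyond a tier

`Sm u k e r` : `0 ≤ r ≤ Y u k ^ e / Y u (k + 1)`.  `sm! k` proves `r ≤ s u i (^ j)` for `i ≤ k` and
`r` a sum of products (polynomial in tiers `≤ k`) × (small beyond `k`); atoms come from hypotheses
`Sm u k' e r` (`k ≤ k'`), `s u k'` (`k < k'`), quotients `c / Y u k'`.
-/

set_option autoImplicit false

namespace Crest.Agent.N337.Par

variable {u k k' e e' i j : ℕ} {r r' c : ℝ}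

/-- small beyond the tier `k`. -/
def Sm (u k e : ℕ) (r : ℝ) : Prop := 0 ≤ r ∧ r ≤ (Y u k : ℝ) ^ e * s u (k + 1)

lemma Sm.of_le (h0 : 0 ≤ r) (h : r ≤ s u k') (hk : k < k') : Sm u k 0 r :=
  ⟨h0, by rw [pow_zero, one_mul]; exact h.trans (s_anti hk)⟩
lemma Sm.s (hk : k < k') : Sm u k 0 (s u k') := .of_le (s_pos _ _).le le_rfl hk
lemma Sm.zero : Sm u k 0 0 := .of_le le_rfl (s_pos u _).le k.lt_succ_self
lemma Sm.mono (h : Sm u k e r) (he : e ≤ e') : Sm u k e' r :=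
  ⟨h.1, h.2.trans (mul_le_mul_of_nonneg_right
    (pow_le_pow_right₀ (by exact_mod_cast one_le_Y u k) he) (s_pos _ _).le)⟩
lemma Sm.anti (h : Sm u k e r) (h0 : 0 ≤ r') (h' : r' ≤ r) : Sm u k e r' := ⟨h0, h'.trans h.2⟩
lemma Sm.le (h : Sm u k e r) (he : e + j ≤ 1000000) (hi : i ≤ k) : r ≤ Par.s u i ^ j :=
  h.2.trans (Rb.sm (e := e) ⟨by positivity, le_rfl⟩ he k.lt_succ_self hi)
lemma Sm.le1 (h : Sm u k e r) (he : e + 1 ≤ 1000000) (hi : i ≤ k) : r ≤ Par.s u i := by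
  simpa using h.le he hi
lemma Sm.down (h : Sm u k' e r) (he : e + 1 ≤ 1000000) (hk : k < k') : Sm u k 0 r :=
  .of_le h.1 (h.le1 he le_rfl) hk
lemma Sm.mul (hc : Rb u k e c) (h : Sm u k e' r) : Sm u k (e + e') (c * r) :=
  ⟨mul_nonneg hc.1 h.1, by
    rw [pow_add, mul_assoc]; exact mul_le_mul hc.2 h.2 h.1 (by positivity)⟩
lemma Sm.mul' (hc : Rb u k e c) (h : Sm u k e' r) : Sm u k (e + e') (r * c) :=
  mul_comm c r ▸ .mul hc h
lemma Sm.add (hu : 100 ≤ u) (h : Sm u k e r) (h' : Sm u k e' r') :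
    Sm u k (max e e' + 1) (r + r') := by
  have h1 := (h.mono (le_max_left e e')).2
  have h2 := (h'.mono (le_max_right e e')).2
  have h3 : (2 : ℝ) ≤ Y u k := by exact_mod_cast two_le_Y hu k
  have h4 := mul_le_mul_of_nonneg_left h3
    (mul_nonneg (pow_nonneg (Yr_pos u k).le (max e e')) (s_pos u (k + 1)).le)
  exact ⟨add_nonneg h.1 h'.1, by rw [pow_succ]; linarith⟩
lemma Sm.div (hc : Rb u k e c) (h : (Y u k' : ℝ) ≤ r) (hk : k < k') : Sm u k e (c / r) :=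
  ⟨div_nonneg hc.1 ((Yr_pos _ _).le.trans h), by
    rw [div_eq_mul_inv]
    exact mul_le_mul hc.2 ((inv_anti₀ (Yr_pos _ _) h).trans (s_anti hk))
      (inv_nonneg.2 ((Yr_pos _ _).le.trans h)) (by positivity)⟩
lemma Sm.divn {d : ℕ} (hc : Rb u k e c) (h : Y u k' ≤ d) (hk : k < k') : Sm u k e (c / d) :=
  .div hc (by exact_mod_cast h) hk
lemma Sm.divY (hc : Rb u k e c) (hk : k < k') : Sm u k e (c / Y u k') := .div hc le_rfl hk
lemma Sm.sqrt (h : Sm u (k + 1) e r) (he : e + 2 ≤ 1000000) : Sm u k 0 (√r) :=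
  .of_le (Real.sqrt_nonneg _) (Real.sqrt_le_iff.2 ⟨(s_pos _ _).le, h.le he le_rfl⟩) k.lt_succ_self
lemma Sm.rb (h : Sm u k e r) (he : e ≤ 1000000) : Rb u k' 0 r :=
  ⟨h.1, by simpa using h.le (j := 0) he le_rfl⟩
lemma Sm.num (hu : 100 ≤ u) (h : Sm u k e r) (he : e + 1 ≤ 1000000) : r ≤ 1 / 10 ^ 30 :=
  (h.le1 he le_rfl).trans (s_le_num hu k)

/-- bound of a small expression. -/
macro "s_bd" : tactic => `(tactic| repeat' first
  | with_reducible assumption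
  | (with_reducible apply Sm.down; with_reducible assumption; (· norm_num); omega)
  | (with_reducible apply Sm.s; omega)
  | with_reducible exact Sm.zero
  | (with_reducible apply Sm.add; assumption)
  | (with_reducible apply Sm.mul; (· r_bd))
  | (with_reducible apply Sm.mul'; (· r_bd))
  | (with_reducible apply Sm.divY; (· r_bd); omega)
  | (with_reducible apply Sm.divn; (· r_bd); assumption; omega)
  | (with_reducible apply Sm.div; (· r_bd); assumption; omega))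

/-- `sm! k` proves `r ≤ s u i`, `r ≤ s u i ^ j`, `r ≤ 1 / 10 ^ 30` for `r` small beyond `k ≥ i`. -/
macro "sm! " k:term : tactic => `(tactic| first
  | (with_reducible apply Sm.le1 (k := $k); (· s_bd); (· norm_num); omega)
  | (with_reducible apply Sm.le (k := $k); (· s_bd); (· norm_num); omega)
  | (with_reducible apply Sm.num (k := $k); assumption; (· s_bd); norm_num))

example (hu : 100 ≤ u) {a d : ℕ} {q C : ℝ} (ha : a ≤ Y u 3) (hC : Rb u 0 1 C) (hq : Sm u (k + 7) 5 q)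
    (hd : Y u (k + 9) ≤ d) :
    (3 * C * (a + 1) ^ 5 + 7) * (q * a + 2 * s u (k + 6) + C / d) ≤ s u (k + 4) ^ 2 := by
  sm! (k + 5)

/-- logarithms of higher tiers. -/
lemma lg_pb (hu : 100 ≤ u) (hk : 1 ≤ k) (hk' : k' ≤ k + 1000) : Pb u k 2 (u * D ^ k') := by
  have h2 : D ^ 1000 ≤ Y u k := by
    rw [Y_def]
    calc D ^ 1000 ≤ (2 ^ 20) ^ 1000 := Nat.pow_le_pow_left (by rw [D_eq]; norm_num) _
      _ = 2 ^ (20 * 1000) := (pow_mul _ _ _).symm
      _ ≤ _ := Nat.pow_le_pow_right two_pos (le_trans (le_trans (by rw [D_eq]; norm_num)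
        (Nat.le_self_pow (by omega) D)) (Nat.le_mul_of_pos_left _ (by omega)))
  calc u * D ^ k' ≤ u * D ^ (k + 1000) := Nat.mul_le_mul_left _ (Nat.pow_le_pow_right D_pos hk')
    _ = u * D ^ k * D ^ 1000 := by rw [pow_add, mul_assoc]
    _ ≤ _ := by rw [pow_two]; exact Nat.mul_le_mul (lg_lt u k).le h2

lemma log_pb {a : ℕ} (hu : 100 ≤ u) (hk : 1 ≤ k) (h : a ≤ Y u k') (hk' : k' ≤ k + 1000) :
    Pb u k 2 (Nat.log 2 a) :=
  ((Nat.log_mono_right h).trans_eq (log_Y u k')).trans (lg_pb hu hk hk')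

/-- exponentially small numbers. -/
lemma exp_le_s (h : ((u * D ^ k : ℕ) : ℝ) ≤ r) : Real.exp (-r) ≤ s u k := by
  rw [Real.exp_neg]
  refine inv_anti₀ (Yr_pos _ _) (le_trans ?_ (Real.exp_le_exp.2 h))
  rw [Y_def, ← mul_one ((u * D ^ k : ℕ) : ℝ), Real.exp_nat_mul, Nat.cast_pow]
  exact pow_le_pow_left₀ (by norm_num) (by push_cast; linarith [Real.add_one_le_exp (1 : ℝ)]) _

lemma exp_Y_le (hu : 100 ≤ u) (hk : 2 ≤ k) (hk' : k' ≤ k + 999) :
    Real.exp (-(Y u k : ℝ)) ≤ s u k' :=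
  exp_le_s (Nat.cast_le.2 ((lg_pb (k := k - 1) hu (by omega) (by omega)).up (by norm_num) (by omega)))

end Crest.Agent.N337.Par
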