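import Crest.Agent.N337.Par.Y
import Crest.Agent.N337.I.Slow
import Crest.Agent.N337.E.TDefs

/-!
# Row 337 (helper79): the parameter table of the scales

Constants (`c…`, all `≤ Y u 0` under `Bg`), leaf numbers (tiers `0 … 6`), scale numbers `x u m i`.
`Y u 10 ≤ B ≤ Y u 11`, `B` = number of windows.
-/

set_option autoImplicit false

namespace Crest.Agent.N337.Par

open Crest.Agent.N337.Free

/-- tier `i` of the scale `m` (`x u m 48 = x u (m + 1) 0`). -/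
abbrev x (u m i : ℕ) : ℕ := Y u (48 * m + 11 + i)
/-- its inverse. -/
noncomputable abbrev sx (u m i : ℕ) : ℝ := s u (48 * m + 11 + i)

/-! ### constants -/

/-- `a1 = r = n1 = jl`. -/
@[irreducible] def cE : ℕ := D ^ 100
/-- depth of the ladders. -/
@[irreducible] def cK : ℕ := D ^ 70
@[irreducible] def ck0 : ℕ := D ^ 49
lemma cE_eq : cE = D ^ 100 := by unfold cE; rfl
lemma cK_eq : cK = D ^ 70 := by unfold cK; rfl
lemma ck0_eq : ck0 = D ^ 49 := by unfold ck0; rfl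
/-- `= Rung.tm (ck0 + 27) cK`. -/
def ctm : ℕ := ck0 + 27 + 81 * cK + 176
def ca : ℕ := 4 * cE
def cN : ℕ := 27 * ((ctm + 1) * ca) + 2 * cE
def cN0 : ℕ := 10000 * cN
/-- base of the codes (`Eg.Q`, `Cx.K`). -/
def cQ : ℕ := cE + 1
/-- `Tr.qf`, also the arity of G1 at the levels `≥ 1`. -/
def cqf : ℕ := cN0 + (cE + 1) * cN + (cE + 1) + (cN0 + 27 * cE)
def cc : ℕ := 12 * (2 * cqf + 2) + 14
def cCm : ℕ := (2 * cc + 4) ^ (cN0 + (cE + 1) * cN + (cE + 1))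
def cLam : ℕ := cc * (4 * cCm + 2) + 1 + (4 * (2 * cc + 2) ^ cN + 1)
/-- arity of G1 at level `0`. -/
def ca0 : ℕ := 2 * (ctm + 2) * cE
def csm : ℕ := 2 * ctm + 5
/-- `Sx = cS * sep`. -/
def cS : ℕ := (cLam + 1) ^ (3 * ctm + 40)

/-- the constants are below the lowest tier. -/
structure Bg (n u : ℕ) : Prop where
  hu : 100 ≤ u
  hn : n ≤ Y u 0
  E : cE ≤ Y u 0
  K : cK ≤ Y u 0
  k0 : ck0 ≤ Y u 0
  tm : ctm ≤ Y u 0
  a : ca ≤ Y u 0
  N : cN ≤ Y u 0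
  N0 : cN0 ≤ Y u 0
  Q : (2 * cQ) ^ 256 ≤ Y u 0
  qf : cqf ≤ Y u 0
  c : cc ≤ Y u 0
  Cm : cCm ≤ Y u 0
  Lam : cLam ≤ Y u 0
  a0 : ca0 ≤ Y u 0
  sm : csm ≤ Y u 0
  S : cS ≤ Y u 0
  mg : (2 * cc + 2) ^ cN ≤ Y u 0
  p3 : 3 ^ cqf ≤ Y u 0
  tS : G1.tS ≤ Y u 0
  A : 11 * (3 ^ ca0 * (2 * G1.tS + 0) + G1.tS) + 6 ≤ Y u 0
  p2 : 2 ^ (csm + 1) ≤ Y u 0
  fac : (D ^ 200 + 1).factorial ≤ Y u 0
  kS : Rb u 0 1 |G1.kS|
  Cg : Rb u 0 1 (G1.Cg (8 * n ^ 2))
  lg : cE * (csm + 2) + cE ≤ u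

theorem ev_Bg (n : ℕ) : ∀ᶠ u in Filter.atTop, Bg n u := by
  filter_upwards [Filter.eventually_ge_atTop 100, ev_le n, ev_le cE, ev_le cK, ev_le ck0, ev_le ctm,
    ev_le ca, ev_le cN, ev_le cN0, ev_le ((2 * cQ) ^ 256), ev_le cqf, ev_le cc, ev_le cCm,
    ev_le cLam, ev_le ca0, ev_le csm, ev_le cS, ev_le ((2 * cc + 2) ^ cN), ev_le (3 ^ cqf),
    ev_le G1.tS, ev_le (11 * (3 ^ ca0 * (2 * G1.tS + 0) + G1.tS) + 6), ev_le (2 ^ (csm + 1)),
    ev_le (D ^ 200 + 1).factorial, ev_Rb (abs_nonneg G1.kS),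
    ev_Rb (show 0 ≤ G1.Cg (8 * n ^ 2) by unfold G1.Cg; positivity),
    Filter.eventually_ge_atTop (cE * (csm + 2) + cE)]
  intro u h1 h2 h3 h4 h5 h6 h7 h8 h9 h10 h11 h12 h13 h14 h15 h16 h17 h18 h19 h20 h21 h22 h23 h24 h25
    h26
  exact ⟨h1, h2, h3, h4, h5, h6, h7, h8, h9, h10, h11, h12, h13, h14, h15, h16, h17, h18, h19, h20,
    h21, h22, h23, h24, h25, h26⟩

lemma fac_le {n u j : ℕ} (h : Bg n u) (hj : j ≤ 200) : (D ^ j + 1).factorial ≤ Y u 0 :=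
  (Nat.factorial_le (Nat.succ_le_succ (Nat.pow_le_pow_right D_pos hj))).trans h.fac

lemma Dp_le_cE {j : ℕ} (hj : j ≤ 100) : D ^ j ≤ cE := cE_eq ▸ Nat.pow_le_pow_right D_pos hj

/-! ### the leaves

`A = f = Y 0`, `j1 = Y 1`, `j = W = m = Y 2`, `r3 = dl = η 0 = l Y 2 ^ 3`, `r0 = l Y 3`,
`l1 = Y 4 ^ 10` (`τ = Y 4 ^ 9`, `k = Y 4`), `γ0 = s 6`. -/

/-- windows of a unit. -/
def ll (u : ℕ) : ℕ := csm * Y u 4 ^ 10
def η0 (u : ℕ) : ℕ := ll u * Y u 2 ^ 3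
def r0 (u : ℕ) : ℕ := ll u * Y u 3

variable {n u : ℕ}

lemma pb_ll (h : Bg n u) : Pb u 4 11 (ll u) := by
  have := h.sm
  exact (Pb.mul (.of_le this (by omega)) (Pb.pow (.tier le_rfl))).mono (by norm_num)
lemma pb_η0 (h : Bg n u) : Pb u 4 14 (η0 u) := (pb_ll h).mul (Pb.pow (.tier (by omega)))
lemma pb_r0 (h : Bg n u) : Pb u 4 12 (r0 u) := (pb_ll h).mul (.tier (by omega))
lemma ll_le (h : Bg n u) : ll u ≤ Y u 5 := (pb_ll h).up (by norm_num) (by omega)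
lemma η0_le (h : Bg n u) : η0 u ≤ Y u 5 := (pb_η0 h).up (by norm_num) (by omega)
lemma r0_le (h : Bg n u) : r0 u ≤ Y u 5 := (pb_r0 h).up (by norm_num) (by omega)
lemma ll_pos (u : ℕ) : 1 ≤ ll u := Nat.mul_pos (by unfold csm; omega) (pow_pos (Y_pos _ _) _)

/-- the leaf numbers (`Dw` steps per window). -/
def lf (h : Bg n u) (Dw : ℕ) : I.Lf where
  D := Dw
  l := ll u
  n1 := cE
  j1 := Y u 1
  l1 := Y u 4 ^ 10
  A := Y u 0
  r0 := r0 u
  r3 := η0 u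
  sm := csm
  dl := η0 u
  hA := by
    have hu := h.hu
    have h1 := h.sm
    have h2 : Y u 2 ^ 3 + csm * Y u 2 ^ 3 + Y u 0 ≤ Y u 3 := by tier! 2
    have h3 := Nat.mul_le_mul_left (ll u) h2
    have h4 := Nat.mul_le_mul_right (Y u 0) (ll_pos u)
    unfold η0 r0
    nlinarith
  hl := le_rfl

/-! ### the scales -/

/-- the rung numbers; `sp` = tier of the separation (`12`; `6` for the internal trees of G4). -/
def num (h : Bg n u) (Dw sp : ℕ) (hs : sp ≤ 12 := by omega) : I.Num where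
  toLf := lf h Dw
  ρ m := x u m 0
  rad m t := (cLam + 1) ^ (3 * t) * x u m 12
  sep m := x u m sp
  H m := x u m 20
  Sx m := cS * x u m 12
  nl m l := 2 * cE * x u m 0 ^ (ck0 - 1 - l)
  a := ca
  a1 := cE
  r := cE
  k0 := ck0
  tm := ctm
  Lam := cLam
  N := cN
  σ m := x u m 13
  q m := x u m 3 + 1
  rad_step m t := le_of_eq (by ring)
  sep_le m := by rw [mul_zero, pow_zero, one_mul]; exact Y_mono (by omega)
  Sx_ge m := by
    rw [← mul_assoc, ← pow_add]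
    exact Nat.mul_le_mul_right _ (Nat.pow_le_pow_right (by omega) (by omega))
  a_ge := by unfold ca; omega
  N_ge := by unfold cN; omega
  k0_pos := ck0_eq ▸ one_le_Dp 49
  r0_le := (r0_le h).trans (Y_mono (by omega))
  σ_pos _ := Y_pos _ _

/-- radii of the dirty balls of scale `m`: `Rr u m (i + 1) = (Λ + 1) Rr u m i ≤ Sx`, `i ≤ 36`. -/
def Rr (u m i : ℕ) : ℕ := (cLam + 1) ^ (3 * (ctm + 1) + i) * x u m 12

/-- the engine. -/
def eg (u Dw mt : ℕ) : Tr.Eg where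
  mt := mt
  n1 := cE
  r0 := 2 * r0 u
  Q := cQ
  c := cc
  N0 := cN0
  D := Dw
  A m := x u m 7
  Ns m := x u m 8
  jl _ := cE
  Sg m := x u m 13
  W m := x u m 15
  Rs m := x u m 18
  Rl m := x u m 16
  lo m := x u m 1
  rr m := x u m 2
  kp m := x u m 14

/-- the scales of G1 (level `m + 1` = junk of scale `m`). -/
def gs (u mt : ℕ) : G1.Scales where
  mt := mt
  a m := if m = 0 then ca0 else cqf
  σ m := if m = 0 then 0 else x u (m - 1) 13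
  η m := if m = 0 then η0 u else x u (m - 1) 15

/-- exponents of the tube: `2 ^ kT u mt kt l = x u l 6` below the top, `kt` at the top. -/
def kT (u mt kt l : ℕ) : ℕ := if l < mt then u * D ^ (48 * l + 11 + 6) else kt
def kT' (u l : ℕ) : ℕ := u * D ^ (48 * l + 11 + 17)

lemma two_kT {mt kt l : ℕ} (h : l < mt) : 2 ^ kT u mt kt l = x u l 6 := by
  rw [kT, if_pos h, x, Y_def]
lemma two_kT' (u l : ℕ) : 2 ^ kT' u l = x u l 17 := by rw [kT', x, Y_def]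

/-- Green bounds from tube data of level `l` (ENG at distance `dd`, G4 at distance `x u l 5`). -/
noncomputable def gam (u l : ℕ) : ℝ := if l = 0 then s u 6 else sx u (l - 1) 10
def dd (u l : ℕ) : ℕ := if l = 0 then x u 0 0 else x u (l - 1) 16
/-- probability that a cell of scale `m` fails. -/
noncomputable def eps (u m : ℕ) : ℝ := sx u (m + 1) 1

/-! ### sizes -/

section sizes
variable (h : Bg n u) (Dw sp : ℕ) (hs : sp ≤ 12)
include h

lemma rad_le {m t : ℕ} (ht : t ≤ ctm + 13) : (num h Dw sp hs).rad m t ≤ cS * x u m 12 :=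
  Nat.mul_le_mul_right _ (Nat.pow_le_pow_right (by omega) (by omega))

lemma Rr_le {m i : ℕ} (hi : i ≤ 37) : Rr u m i ≤ cS * x u m 12 :=
  Nat.mul_le_mul_right _ (Nat.pow_le_pow_right (by omega) (by omega))

lemma pb_Sx (m : ℕ) : Pb u (48 * m + 11 + 12) 2 (cS * x u m 12) :=
  (Pb.of_le h.S (by omega)).mul (.tier le_rfl)

lemma Sx_le (m : ℕ) : cS * x u m 12 ≤ x u m 13 := (pb_Sx h m).up (by norm_num) (by omega)

lemma lw_le {τ : ℕ} (ht : τ ≤ ctm + 13) (m : ℕ) : (num h Dw sp hs).lw τ m ≤ Y u (48 * m) := by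
  have hu := h.hu
  induction m with
  | zero => exact Nat.zero_le _
  | succ m ih =>
    have h1 := (rad_le h Dw sp hs (m := m) ht).trans (Sx_le h m)
    have h2 : τ ≤ Y u 1 := ht.trans (by have := h.tm; tier! 0)
    have h3 : (num h Dw sp hs).a ≤ Y u 0 := h.a
    rw [I.Num.lw]
    tier! (48 * m + 24)

lemma loc_le {L T : ℕ} [NeZero L] [NeZero T] (z0 : Tor 3 L) (m : ℕ) :
    (I.sys n T (num h Dw sp hs) z0).loc m ≤ 2 * x u m 0 := by
  have hu := h.hu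
  induction m with
  | zero => exact Nat.le_mul_of_pos_left _ two_pos
  | succ m ih =>
    have h1 : 2 * x u m 0 ≤ x u (m + 1) 0 := by tier! (48 * m + 11)
    change x u (m + 1) 0 + _ ≤ _
    omega

lemma pb_loc {L T : ℕ} [NeZero L] [NeZero T] (z0 : Tor 3 L) (m : ℕ) :
    Pb u (48 * m + 11) 2 ((I.sys n T (num h Dw sp hs) z0).loc m) :=
  (loc_le h Dw sp hs z0 m).trans ((Pb.num h.hu (by norm_num)).mul (.tier le_rfl))

/-- the hypothesis `hρ` of the slow lemmas. -/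
lemma hρ {τ : ℕ} (ht : τ ≤ ctm + 13) (m : ℕ) :
    (τ + 1) * (num h Dw sp hs).a * (2 * (num h Dw sp hs).rad m τ + 1) +
      3 * τ * (num h Dw sp hs).H m ≤ (num h Dw sp hs).ρ (m + 1) := by
  have hu := h.hu
  have h1 := (rad_le h Dw sp hs (m := m) ht).trans (Sx_le h m)
  have h2 : τ ≤ Y u 1 := ht.trans (by have := h.tm; tier! 0)
  have h3 : (num h Dw sp hs).a ≤ Y u 0 := h.a
  change _ + 3 * τ * x u m 20 ≤ x u (m + 1) 0
  tier! (48 * m + 31)

/-- the hypothesis `hJ` of the slow lemmas. -/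
lemma hJ {τ : ℕ} (ht : τ ≤ ctm + 13) : 2 * τ * (num h Dw sp hs).j1 ≤ (num h Dw sp hs).r0 := by
  have hu := h.hu
  have h2 : τ ≤ Y u 1 := ht.trans (by have := h.tm; tier! 0)
  have h3 : 2 * τ * Y u 1 ≤ Y u 3 := by tier! 2
  exact h3.trans (Nat.le_mul_of_pos_left _ (ll_pos u))

end sizes

end Crest.Agent.N337.Par
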