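import Crest.Agent.N337.Par.Lev
import Crest.Agent.N337.Par.Defs

/-!
# Row 337 (helper80): slowness and box moves of the levels on the tiers
-/

set_option autoImplicit false

namespace Crest.Agent.N337.Par

open Finset Crest.Agent.N337.A Crest.Agent.N337.M Crest.Agent.N337.Top Crest.Agent.N337.Free

variable {L n u w j k l B Dw : ℕ} [NeZero L] [NeZero n] {β : ℝ} {sy : List (Sl L n × Sl L n × ℝ)}
  {r : Rt} {z : Tor 3 L}

omit [NeZero n] in
lemma Bg.u4 (h : Bg n u) : 4000 ≤ u := by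
  have h1 := Dp_le_cE (j := 1) (by norm_num)
  have h2 := D_ge
  have h3 := h.lg
  rw [pow_one] at h1
  omega

omit [NeZero n] in
lemma Bg.kw (h : Bg n u) (hB : ⌊β⌋₊ + 1 ≤ Y u 11) (hk : 12 ≤ k) :
    2 * n ^ 2 * (⌊β⌋₊ + 1) ≤ Y u k := by
  have hu := h.hu
  have hn := h.hn
  generalize ⌊β⌋₊ + 1 = b at hB
  tier! 11

omit [NeZero n] in
/-- sharp form of `lw_le`. -/
lemma lw_le' (h : Bg n u) (Dw : ℕ) {sp : ℕ} (hs : sp ≤ 12) {τ : ℕ} (ht : τ ≤ ctm + 13) (m : ℕ) :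
    (num h Dw sp hs).lw τ m ≤ Y u (48 * m - 23) := by
  have hu := h.hu
  cases m with
  | zero => exact Nat.zero_le _
  | succ m =>
    have h0 := lw_le h Dw sp hs ht m
    have h1 := (rad_le h Dw sp hs (m := m) ht).trans (Sx_le h m)
    have h2 : τ ≤ Y u 1 := ht.trans (by have := h.tm; tier! 0)
    have h3 : (num h Dw sp hs).a ≤ Y u 0 := h.a
    rw [I.Num.lw]
    tier! (48 * m + 24)

omit [NeZero n] in
/-- the speed of the pins in the classes of scale `m`. -/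
lemma speed_le (h : Bg n u) (Dw : ℕ) {sp : ℕ} (hs : sp ≤ 12) {τ m : ℕ} (ht : τ ≤ ctm + 13)
    (hB : B ≤ Y u 11) (hk : 48 * m - 23 < k ∧ 11 < k) :
    B * (2 * τ * (num h Dw sp hs).j1 + (num h Dw sp hs).lw τ m) ≤ Y u k := by
  have hu := h.hu
  have h1 := lw_le' h Dw hs ht m
  have h2 : τ ≤ Y u 1 := ht.trans (by have := h.tm; tier! 0)
  change B * (2 * τ * Y u 1 + _) ≤ _
  tier! (k - 1)

/-- numerics of a box move: support `Y u a`, error `s u b / 10`, field `1 / Y u c`. -/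
theorem numA_tier (h : Bg n u) (hβ : 0 ≤ β) (hB : ⌊β⌋₊ + 1 ≤ Y u 11) (hs : Sym sy) {a b c : ℕ}
    (hk : 12 ≤ k) (ha : a ≤ k + 99) (hb : b ≤ k + 99) (hc : c ≤ k + 99) (hw : Y u (k + 1) ≤ w) :
    (GT β w sy).NumA (Y u a) (Y u c) (s u b / 10) (Y u k) (Db n β u k (Y u c)) := by
  have hu := h.hu
  have hn := h.hn
  have h1 := vt_pb hu (h.kw hB hk) 4
  have h2 := s_pos u b
  have h3 := s_le_num hu b
  have := numA_word hβ hs (N := Y u a) (Tn := Y u c) (lg := Y u k) (v0 := Y u k) (Tf := Y u c)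
    (δ := s u b / 20) (w := w) (one_le_Y _ _) (by exact_mod_cast one_le_Y _ _) le_rfl
    (by positivity) (by linarith) ?_ (le_trans (by tier! k) (hw.trans (Nat.le_succ w)))
  · rwa [show 2 * (s u b / 20) = s u b / 10 by ring] at this
  · have h4 : 128000 * Y u a ^ 2 * Y u c * Y u b ≤ Y u (k + 100) := by tier! (k + 99)
    have h5 : (128000 * (Y u a : ℝ) ^ 2 * Y u c) * Y u b ≤ Real.exp (Y u k) :=
      le_trans (by exact_mod_cast h4) (Y_le_exp' h.u4 le_rfl)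
    have h6 := mul_le_mul_of_nonneg_left h5 h2.le
    rw [mul_left_comm, s_mul] at h6
    linarith

/-- **`Dlv` from its probabilistic fields.** -/
theorem dlv_of (h : Bg n u) (hβ : 0 ≤ β) (hB : ⌊β⌋₊ + 1 ≤ Y u 11) (hs : Sym sy)
    (hT : TT β w sy = B * Dw) (hB' : B ≤ Y u 11) (hl : 2 * l ≤ L) (hw : Y u (tb j + 1) ≤ w)
    (tI : r.tI (j + 1) ≤ ctm) (tQ : r.tQ (j + 1) ≤ ctm)
    (one : (j + 1) % 3 = 1 → r.tI (j + 1) ≤ r.tP (j + 1))
    {P : M.Par (Sl L n)} (hP : P = lev n β u r z l) {Q : I.Num} (hQ : Q = num h Dw 12)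
    (stepU : (j + 1) % 3 = 0 → ∀ i, (GT β w sy).StepU ((P.lev (insT Q z β w sy) (GT β w sy)).y (j + 1))
      (fun _ => cyl (P.Co (j + 1) i)) (P.In (insT Q z β w sy) (j + 1))
      ((insT Q z β w sy).Cl ((j + 1) / 3) (P.tP (j + 1)) ∅ 0) (P.e (j + 1) / 10))
    (exc : (j + 1) % 3 = 2 → (P.lev (insT Q z β w sy) (GT β w sy)).LP (GT β w sy) j →
      (GT β w sy).Stg (yw ((P.lev (insT Q z β w sy) (GT β w sy)).y (j + 1)))
        ((P.lev (insT Q z β w sy) (GT β w sy)).y (j + 1)) (P.In (insT Q z β w sy) (j + 1))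
        (P.Pre (insT Q z β w sy) (GT β w sy) (j + 1)) (P.σ (j + 1)) c1 10 (P.e (j + 1)))
    (lad : (P.lev (insT Q z β w sy) (GT β w sy)).LP (GT β w sy) j →
      ∀ W, (P.lev (insT Q z β w sy) (GT β w sy)).AdmW j W →
        (GT β w sy).LadH W ((P.lev (insT Q z β w sy) (GT β w sy)).y j)
          (P.Pre (insT Q z β w sy) (GT β w sy) (j + 1)) (P.Post (insT Q z β w sy) (j + 1)) 2)
    (stepH : (GT β w sy).StepH (yw ((P.lev (insT Q z β w sy) (GT β w sy)).y (j + 1)))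
      ((P.lev (insT Q z β w sy) (GT β w sy)).y j) (P.Pre (insT Q z β w sy) (GT β w sy) (j + 1))
      ((insT Q z β w sy).Cl ((j + 1) / 3) (P.tQ (j + 1)) ∅ 0) (P.e (j + 1) / 10)) :
    P.Dlv (insT Q z β w sy) (GT β w sy) j := by
  have hu := h.hu
  have e1 := tb_eq j
  have e2 := tb_eq (j + 1)
  have hk := h.kw hB (show 12 ≤ tb j by omega)
  refine ⟨hP ▸ (s_pos _ _).le, fun s t ht hc => ?_, fun h0 => ?_, fun h0 => ?_, fun h0 => ?_,
    fun h0 => ?_, stepU, hP ▸ one, exc, lad, stepH⟩ <;> subst hP hQ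
  · refine I.sl_of_cl' (B := B) (τ := ctm) _ (ok_GT hβ w hs) rfl hT (ll_pos u)
      (by change ck0 + 27 ≤ _; unfold ctm; omega) (ht.elim (· ▸ tI) (· ▸ tQ))
      (hρ h Dw 12 _ (by omega)) (hJ h Dw 12 _ (by omega))
      (speed_le h Dw le_rfl (k := tb j) (by omega) hB' (by omega)) hc
  · change (GT β w sy).NumA _ (Tf u j) _ _ _
    rw [Tf_ne h0]
    exact numA_tier h hβ hB hs (k := tb j) (by omega) (by omega) (by omega) (by omega) hw
  · have a1 := Db_pb hu hk (k' := tb j + 6) (by omega)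
    have a2 : 4 * (1 + 24 * Db n β u (tb j) (Y u (tb j + 6))) ≤ Y u (tb (j + 1) + 1) := by
      refine le_trans ?_ (Y_mono (show tb j + 7 ≤ _ by omega))
      tier! (tb j + 6)
    have := geo_word (β := β) (w := w) hs (z := z) (q := Y u (tb (j + 1) + 1) / 4) (wd := 1)
      (D := Db n β u (tb j) (Y u (tb j + 6))) hl le_rfl (by omega)
    rwa [four_mul_div hu] at this
  · change (GT β w sy).NumA _ (Tf u (j + 1)) _ _ _
    rw [Tf_ne (by omega)]
    exact numA_tier h hβ hB hs (k := tb j) (by omega) (by omega) (by omega) (by omega) hw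
  · have a1 := Db_pb hu hk (k' := tb (j + 1) + 6) (by omega)
    have a0 : Db n β u (tb j) (Y u (tb (j + 1) + 6)) ≤ Y u (48 * ((j + 1) / 3) + 2) :=
      a1.up (by norm_num) (by omega)
    have a2 : 4 * (Y u (48 * ((j + 1) / 3) + 2) + 24 * Db n β u (tb j) (Y u (tb (j + 1) + 6))) ≤
        Y u (48 * ((j + 1) / 3) + 3) := by tier! (48 * ((j + 1) / 3) + 2)
    have := geo_word (β := β) (w := w) hs (z := z) (q := Y u (48 * ((j + 1) / 3) + 3) / 4)
      (wd := Y u (48 * ((j + 1) / 3) + 2)) (D := Db n β u (tb j) (Y u (tb (j + 1) + 6))) hl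
      (one_le_Y _ _) (by omega)
    rwa [four_mul_div hu] at this

omit [NeZero n] in
/-- the number of living cells of scale `m` over `Y u (48 m + 52)` slots (`I.alvH`). -/
lemma nD_le (h : Bg n u) {T sp : ℕ} [NeZero T] (hs : sp ≤ 12) (z : Tor 3 L) (m : ℕ) :
    Y u (48 * m + 52) * (2 * ((I.sys n T (num h Dw sp hs) z).loc m + 1) + 1) ^ 3 ≤
      Y u (48 * m + 53) := by
  have hu := h.hu
  have a : (I.sys n T (num h Dw sp hs) z).loc m ≤ Y u (48 * m + 12) :=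
    (pb_loc h Dw sp hs z m).up (by norm_num) (by omega)
  tier! (48 * m + 52)

omit [NeZero n] in
/-- `StD.num`. -/
lemma std_num (hu : 100 ≤ u) {nD m : ℕ} (h : nD ≤ Y u (48 * m + 53)) :
    3 * nD * eps u m ≤ s u (48 * m + 56) / 10 := by
  have : (30 * nD : ℝ) * s u (48 * (m + 1) + 11 + 1) ≤ s u (48 * m + 56) := by rtier! (48 * m + 56)
  unfold eps
  linarith

omit [NeZero n] in
/-- the grid of scale `k < j / 3` divides the period and the width of the corridors. -/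
lemma grid_dvd (hu : 100 ≤ u) (hk : k < j / 3) :
    x u k 13 ∣ Y u (48 * (j / 3) + 3) / 4 ∧ x u k 13 ∣ Y u (48 * (j / 3) + 2) := by
  refine ⟨?_, Y_dvd (by omega)⟩
  refine (Y_dvd (show _ ≤ 48 * (j / 3) + 2 by omega)).trans (Nat.dvd_div_of_mul_dvd ?_)
  obtain ⟨d, hd⟩ : ∃ d, D = d + 2 := ⟨D - 2, by have := D_ge; omega⟩
  rw [show 48 * (j / 3) + 3 = 48 * (j / 3) + 2 + 1 from rfl, Y_succ u (48 * (j / 3) + 2), hd,
    pow_add, pow_two, ← mul_assoc]
  exact Nat.mul_dvd_mul (Dvd.dvd.mul_left ⟨_, (four_mul_div hu _).symm⟩ _) dvd_rfl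

end Crest.Agent.N337.Par
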