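import Crest.Agent.N337.Par.G4
import Crest.Agent.N337.Par.Defs
import Crest.Agent.N337.G4.On
import Crest.Agent.N337.G4.Final
import Crest.Agent.N337.A.Lat

/-!
# Row 337 (helper42): the numbers of G4 for the objects of `Par/Defs`
-/

set_option autoImplicit false
set_option linter.unusedSectionVars false

namespace Crest.Agent.N337.Par

open Finset Crest.Agent.N337.Free Crest.Agent.N337.Rg Crest.Agent.N337.Tr G4

/-- the fronts. -/
abbrev gp5 (u : ℕ) : Rs.Gp := gp4 u cN cc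

/-- the paths: speed and junk range `x l 1`, covers `x l 13`, rates `x l 2`. -/
def np5 (u mt vol : ℕ) : Sp.Np :=
  np4 u mt vol (fun l => x u l 1) (fun l => x u l 1) (fun l => x u l 13) fun l => x u l 2

variable {n u : ℕ} (h : Bg n u) {L T : ℕ} [NeZero L] [NeZero T] (z0 : Tor 3 L) (Dw sp : ℕ)
  (hs : sp ≤ 12) {mt m B d : ℕ}
include h

lemma a1_ok : 2 * D ^ 48 ≤ cE + 1 ∧ 2 * (cE + 1) ≤ Y u 0 := by
  refine ⟨?_, le_trans (Nat.le_self_pow (by norm_num) _) h.Q⟩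
  have h1 := Dp_le_cE (j := 49) (by norm_num)
  have h2 := Nat.mul_le_mul_left (D ^ 48) D_ge
  rw [pow_succ] at h1
  generalize D ^ 48 = a at *
  omega

lemma locN_le (l : ℕ) : Ld.locN (num h Dw sp hs) l ≤ 2 * x u l 0 :=
  (On.loc_sys (n := n) (T := 1) (z0 := (0 : Tor 3 1)) l).ge.trans (loc_le h Dw sp hs 0 l)

lemma pb_locN (l : ℕ) : Pb u (48 * l + 11) 2 (Ld.locN (num h Dw sp hs) l) :=
  (locN_le h Dw sp hs l).trans ((Pb.num h.hu (by norm_num)).mul (.tier le_rfl))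

/-- trees of any of the systems. -/
theorem nt5 (h5 : 5 ≤ sp) (m : ℕ) : Rs.NT (I.sys n T (num h Dw sp hs) z0) (pz4 u) m :=
  nt4 h.hu (fun _ _ => rfl) (a1_ok h) (fun _ => rfl) fun _ _ => Y_mono (by omega)

/-- the internal system (`sp = 5, 6, 7`). -/
theorem h4 (h5 : 5 ≤ sp) (h7 : sp ≤ 7) (hm : 1 ≤ mt) (hL : x u mt 0 ≤ L) :
    H4 u (I.sys n T (num h Dw sp hs) z0) (eg u Dw mt) cN cc := by
  have hu := h.hu
  have hE := h.E
  refine ⟨hu, fun _ _ => rfl, a1_ok h, fun _ => rfl, fun l _ => ⟨Y_mono (by omega), ?_⟩,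
    ⟨le_rfl, ?_, h.c⟩, ?_, fun l _ => Y_mono (by omega), fun l _ => ?_, fun l _ => le_rfl,
    fun l _ => ⟨Y_mono (by omega), le_rfl⟩, fun l _ => Y_mono (by omega), fun l hl => ?_, hm⟩
  · refine (Y_mono (k' := 48 * l + 11 + 7) (by omega)).trans ?_
    have h1 : 0 < cE := (one_le_Dp 0).trans (Dp_le_cE (by norm_num))
    change _ ≤ 4 * x u l 7 * (x u l 8 * cE)
    exact (Nat.le_mul_of_pos_left _ (by norm_num)).trans
      (Nat.le_mul_of_pos_right _ (Nat.mul_pos (Y_pos _ _) h1))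
  · change 1 ≤ cc
    unfold cc; omega
  · change cN + cE ≤ cN0 + (cE + 1) * cN + (cE + 1) + (cN0 + 27 * cE)
    unfold cN0; omega
  · change Pb u _ _ (4 * x u l 7 * (x u l 8 * cE))
    apply Pb.mono
    · p_bd
    · norm_num
  · have hl' : l < mt := hl
    refine lt_of_lt_of_le (b := x u (l + 1) 0) ?_ ((Y_mono (by omega)).trans hL)
    change 2 * (2 * x u l 18 + x u l 15) < _
    tier! (48 * l + 29)

theorem np5_ok (vol : ℕ) : Sp.NP (eg u Dw mt) (gp5 u) (pz4 u) (np5 u mt vol) n vol :=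
  np4_ok (G := eg u Dw mt) h.hu (fac_le h (by norm_num)) h.hn h.N h.mg (fun _ _ => le_rfl)
    (fun _ _ => Y_mono (by omega)) (fun _ _ => le_rfl) fun _ _ => le_rfl

omit h in
lemma Lam_ge : 4 * (2 * cc + 2) ^ cN + 1 ≤ cLam := Nat.le_add_left _ _

lemma sep5 (l : ℕ) : (gp5 u).sg l + Ld.locN (num h Dw 12 le_rfl) l ≤ x u l 12 := by
  have hu := h.hu
  have h1 := (pb_locN h Dw 12 le_rfl l).up (by norm_num) (Nat.lt_succ_self _)
  simp only [gp4]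
  tier! (48 * l + 22)

lemma Sx5 (l : ℕ) : (2 * cc + 2) ^ cN * (cS * x u l 12 + (gp5 u).sg l) ≤ (gp5 u).Rm l := by
  have hu := h.hu
  have h1 := h.mg
  have h2 := Sx_le h l
  simp only [gp4]
  generalize (2 * cc + 2) ^ cN = a at *
  generalize cS * x u l 12 = b at *
  tier! (48 * l + 24)

lemma H5 (l : ℕ) : (cN + 1) * (2 * (gp5 u).Rm l + (gp5 u).W l + 2 * (gp5 u).dc l + (gp5 u).sg l +
    Ld.locN (num h Dw 12 le_rfl) l) ≤ x u l 20 := by
  have hu := h.hu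
  have h1 := (pb_locN h Dw 12 le_rfl l).up (by norm_num) (Nat.lt_succ_self _)
  have h2 := h.N
  simp only [gp4]
  tier! (48 * l + 30)

theorem no5 (hB : B ≤ Y u 11) (hd : d ≤ 176) (vol : ℕ) :
    On.NO (num h Dw 12 le_rfl) mt (gp5 u) (np5 u mt vol) B d := by
  have hu := h.hu
  have ht := h.tm
  refine ⟨ll_pos u, ?_, hρ h Dw 12 le_rfl (Nat.le_add_right _ _),
    hJ h Dw 12 le_rfl (Nat.le_add_right _ _), le_rfl, Lam_ge, fun l _ => ?_, fun l _ => ?_,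
    fun l _ => ?_, fun l _ => (rad_le h Dw 12 le_rfl (Nat.le_add_right _ _)).trans (Sx_le h l),
    fun l _ => sep5 h Dw l, fun l _ => Sx5 h l, fun l _ => H5 h Dw l⟩
  · change ck0 + 27 + d ≤ ctm
    unfold ctm; omega
  · have h1 := pb_locN h Dw 12 le_rfl l
    change _ ≤ x u l 1
    tier! (48 * l + 11)
  · have h1 := lw_le h Dw 12 le_rfl (Nat.le_add_right ctm 13) l
    change B * (2 * ctm * Y u 1 + (num h Dw 12 le_rfl).lw ctm l) ≤ x u l 1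
    tier! (48 * l + 11)
  · change Y u (48 * l + 31) + 3 * ctm * x u l 20 ≤ x u (l + 1) 0
    tier! (48 * l + 31)

theorem ni5 (m : ℕ) : Rs.NI (I.sys n T (num h Dw 12 le_rfl) z0) (gp5 u) m :=
  ⟨le_rfl, Lam_ge, fun l _ => On.loc_sys (n := n) (T := T) (P0 := num h Dw 12 le_rfl) (z0 := z0) l ▸ sep5 h Dw l, fun l _ => Sx5 h l,
    fun l _ => On.loc_sys (n := n) (T := T) (P0 := num h Dw 12 le_rfl) (z0 := z0) l ▸ H5 h Dw l⟩

/-- geometric margins. -/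
lemma margin {R0 R1 : ℕ} (h0 : x u m 12 ≤ R0) (h1 : (cLam + 1) * R0 ≤ R1) :
    2 * ((2 * cc + 2) ^ cN * (R0 + (gp5 u).sg m)) + (gp5 u).sg m + Ld.locN (num h Dw 12 le_rfl) m ≤ R1 := by
  have h2 := sep5 h Dw m
  have h3 := Nat.mul_le_mul_right R0 Lam_ge
  have h4 := Nat.mul_le_mul_left ((2 * cc + 2) ^ cN) (show R0 + (gp5 u).sg m ≤ 2 * R0 by omega)
  nlinarith

theorem tp5 {nc R0 R1 vol : ℕ} (hm : m < mt) (hn : nc ≤ cN) (h0 : x u m 12 ≤ R0)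
    (h0' : R0 ≤ x u m 13) (h1 : (cLam + 1) * R0 ≤ R1) :
    On.Tp (num h Dw 12 le_rfl) mt (gp5 u) (np5 u mt vol) m nc R0 R1 :=
  ⟨hm, hn, h0', margin h Dw h0 h1⟩

/-- the hypothesis `hR` of `Rs.f1`. -/
theorem hR5 {R0 R1 : ℕ} (h0 : x u m 12 ≤ R0) (h0' : R0 ≤ x u m 13) (h1 : (cLam + 1) * R0 ≤ R1) :
    ∃ R, (2 * (gp5 u).c + 2) ^ (gp5 u).N * (R0 + (gp5 u).sg m) ≤ R ∧ R ≤ (gp5 u).Rm m ∧
      2 * R + (gp5 u).sg m + (I.sys n T (num h Dw 12 le_rfl) z0).loc m ≤ R1 := by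
  have hu := h.hu
  have h2 := h.mg
  refine ⟨_, le_rfl, ?_, On.loc_sys (n := n) (T := T) (P0 := num h Dw 12 le_rfl) (z0 := z0) m ▸ margin h Dw h0 h1⟩
  simp only [gp4]
  generalize (2 * cc + 2) ^ cN = a at *
  tier! (48 * m + 24)

/-- the error of `Rs.n1`. -/
lemma n1_le (m : ℕ) : ((2 * x u (m + 1) 0 + 1 : ℕ) : ℝ) ^ 3 * (pz4 u).ε m ≤ sx u (m + 1) 0 := by
  have hu := h.hu
  simp only [pz4]
  rtier! (48 * m + 59)

/-- the rates of the word. -/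
lemma Kw_le5 {β : ℝ} (hB : ⌊β⌋₊ + 1 ≤ Y u 11) (l : ℕ) : A.Kw n β (x u l 1 + 2) ≤ x u l 2 := by
  have hu := h.hu
  have hn := h.hn
  unfold A.Kw
  tier! (48 * l + 12)

end Crest.Agent.N337.Par
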