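import Crest.Agent.N337.Par.QG
import Crest.Agent.N337.G4.Que

/-!
# Row 337 (helper4): `Gl.Nu`, `Tb.Nu` and the numbers `Qu.QN` of the quenched bounds on the tiers
-/

set_option autoImplicit false
set_option linter.unusedSectionVars false

namespace Crest.Agent.N337.Par

open Finset Crest.Agent.N337.Free Rg Tr Gl G1 G4

variable {n u i mt kt Dw L T : ℕ} [NeZero L] [NeZero T] {α κ : Type} [SemilatticeSup α] [Preorder κ]
  {S : Sys (Tor 3 L) α κ} {P : Scales}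

/-- **the numbers of the child models.** -/
theorem GH.nu (h : Bg n u) (H : GH u i P) {W : Wd T} {t x0 : ℕ} (ok : P.Ok L) (ht : t ≤ ctm + 2)
    (hx : x0 ≤ Y u 0) (fine : 2 * (W.Bd.card + L ^ 3 * Y u 2 + 1) ≤ W.w) :
    Gl.Nu W L (lf h Dw) P t x0 (Y u 2) := by
  have hu := h.hu
  have a0 := h.a0
  have l1 := ll_pos u
  have t0 : t ≤ Y u 1 := ht.trans (by have := h.tm; tier! 0)
  have key : (ll u + 1) * (Y u 2 * (2 * Y u 0 + 1)) + Y u 0 < Par.η0 u := by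
    have b1 : 2 * (2 * Y u 0 + 1) + Y u 0 < Y u 2 := by tier! 0
    have b2 := Y_pos u 2
    unfold Par.η0
    generalize Y u 2 = y at *
    have b3 : ll u * y * (y * 1) ≤ ll u * y * (y * y) := by gcongr; omega
    have b4 : ll u * y * (2 * (2 * Y u 0 + 1) + Y u 0 + 1) ≤ ll u * y * y := by gcongr; omega
    have b5 : 1 ≤ ll u * y := Nat.mul_pos l1 b2
    have b6 := Nat.mul_le_mul_right (y * (2 * Y u 0 + 1)) l1
    nlinarith [Nat.mul_le_mul_right (Y u 0) b5]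
  refine ⟨ok, l1, ?_, ?_, ?_, H.hA h, ?_, H.η0 ▸ key, key.le, fine⟩
  · rw [H.a0]; exact Nat.mul_le_mul_right _ (by omega)
  · rw [H.a0]; change ca0 + 2 * (2 * t * Y u 1 + x0) ≤ _; tier! 1
  · rw [H.η0]
    have : 8 * Y u 2 ^ 3 ≤ Y u 3 := by tier! 2
    exact (mul_left_comm _ _ _).trans_le (Nat.mul_le_mul_left _ this)
  · exact Nat.mul_lt_mul_of_lt_of_le (by unfold csm; omega) le_rfl (pow_pos (Y_pos _ _) _)

lemma qf_eg (ha : S.a1 = cE) (hN : S.N = cN) : qf S (eg u Dw mt) = cqf := by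
  rw [qf, ar, ha, hN]; rfl

lemma le_kT (hk : u * D ^ (48 * mt + 17) ≤ kt) {l : ℕ} (hl : l ≤ mt) :
    u * D ^ (48 * l + 17) ≤ kT u mt kt l := by
  unfold kT
  split_ifs with e
  · exact le_rfl
  · obtain rfl : l = mt := by omega
    exact hk

lemma Y_le_kT (hk : u * D ^ (48 * mt + 17) ≤ kt) {l : ℕ} (hl : l ≤ mt) :
    Y u (48 * l + 17) ≤ 2 ^ kT u mt kt l := by
  rw [Y_def]; exact Nat.pow_le_pow_right two_pos (le_kT hk hl)

variable (h : Bg n u) (H : GH u i P) (hi : i ≤ 15) (ha : S.a1 = cE) (hN : S.N = cN)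
  (hk : u * D ^ (48 * mt + 17) ≤ kt)
include h H hi ha hN hk

omit H hi in
/-- the tiers of the tubes. -/
theorem tg_eg : TG u S (eg u Dw mt) (kT u mt kt) (kT' u) :=
  ⟨by have := h.hu; have := h.qf; rw [Tb.QQ, qf_eg ha hN]; tier! 0, fun _ => Y_le_kT hk,
    fun l _ => (two_kT' u l).ge⟩

/-- **the numbers of the tubes.** -/
theorem GH.tb {th : ℕ → ℕ} (hm : P.mt = mt + 1) (hη : ∀ l, P.η (l + 1) ≤ x u l 17)
    (hth : ∀ l < mt, th l ≤ x u l 6) (hL : 32 * (2 * cqf + 2) * 2 ^ kt < L) :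
    Tb.Nu S (eg u Dw mt) P (kT u mt kt) (kT' u) th := by
  have hu := h.hu
  have hq := h.qf
  have e : Tb.QQ S (eg u Dw mt) = 2 * cqf + 2 := by rw [Tb.QQ, qf_eg ha hN]
  have w : ∀ l, Pb u (48 * l + 28) 9 (Tb.Rw S (eg u Dw mt) P (kT' u) l) := fun l => by
    have := ((H.ρ h l).up (by norm_num) (Nat.lt_succ_self _))
    rw [Tb.Rw, e, two_kT']
    change Pb _ _ _ (x u l 2 + _ + _)
    exact Pb.mono (by p_bd) (by norm_num)
  have m : ∀ {a b}, a ≤ b → u * D ^ a ≤ u * D ^ b := fun k =>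
    Nat.mul_le_mul_left _ (Nat.pow_le_pow_right D_pos k)
  refine ⟨hm, ?_, fun l hl => ⟨?_, (m (by omega)).trans (le_kT hk hl)⟩, fun l hl => ?_,
    fun l hl => ?_, fun l hl => ⟨?_, Y_mono (by omega)⟩, fun l hl => ?_, fun l hl => ?_,
    fun l _ => (hη l).trans (two_kT' u l).ge, fun l hl => ?_, ?_⟩
  · rw [e]; change _ ≤ cc; unfold cc; omega
  · rw [kT, if_pos (show l < mt from hl)]; exact m (by omega)
  · rw [e]; exact le_trans (by tier! 0) (Y_le_kT hk hl)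
  · rw [e, two_kT (mt := mt) hl]
    exact ⟨(Y_mono (by omega)).trans (Nat.le_mul_of_pos_left _ (by omega)), hth l hl,
      by change _ ≤ x u l 7; tier! (48 * l + 17)⟩
  · change x u l 7 ≤ 4 * x u l 7 * (x u l 8 * cE)
    have := Nat.mul_pos (Y_pos u (48 * l + 11 + 8)) (cE_eq ▸ one_le_Dp 100 : 0 < cE)
    exact (Nat.le_mul_of_pos_left _ (by norm_num)).trans (Nat.le_mul_of_pos_right _ this)
  · have := w l
    have := hth l hl
    change _ + x u l 2 + _ ≤ x u l 18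
    tier! (48 * l + 28)
  · rw [e, two_kT (mt := mt) hl]
    exact ((w l).up (by norm_num) (by omega)).trans (Nat.le_mul_of_pos_left _ (by omega))
  · have := H.η_le h l
    have hl' : l ≤ mt := hl
    exact le_trans (b := Y u (48 * mt + 17)) (by tier! (48 * mt + 5)) (Y_le_kT hk le_rfl)
  · rw [e]; change _ * 2 ^ kT u mt kt mt < L; rwa [kT, if_neg (lt_irrefl _)]

omit H hi hk

/-- the numbers of the quenched bounds (`rD` = radius of the domain). -/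
noncomputable def qn4 (u mt rD : ℕ) : Qu.Qn where
  Pg := gs4 u (mt + 1)
  k := kT u mt (u * D ^ (48 * mt + 17))
  k' := kT' u
  t := ctm
  j := Y u 2
  Sc l := x u l 13
  Hc l := x u l 20
  rD := rD
  dL := Y u 15
  Nb := Y u 8
  M := ll u
  er := s u (48 * mt + 16)

/-- **`Qu.QN` on the tiers.** -/
theorem qn4_ok {B w rD : ℕ} {θ c : ℝ} (hd : ∀ x y, S.d x y = tdist x y) (hρ : ∀ l, S.ρ l = x u l 0)
    (hs : ∀ l, x u l 5 ≤ S.sep l ∧ S.sep l ≤ x u l 15) (h1 : 1 ≤ mt) (hD : rD ≤ x u (mt - 1) 4)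
    (hL : Y u (48 * mt + 18) ≤ L) (hc : Rb u 0 1 c) (hB : Y u 10 ≤ B ∧ B ≤ Y u 11)
    (hθ : Real.exp (56 * θ * (w + 1 + Y u 2)) ≤ Y u 1) :
    Qu.QN S (eg u Dw mt) (gp4 u cN cc) (pz4 u) (lf h Dw) (ln4 u (ll u)) (qn4 u mt rD) n B w θ c := by
  have hu := h.hu
  have H := gh_gs4 hu (mt + 1)
  have tt := tg_eg (Dw := Dw) h ha hN (le_refl (u * D ^ (48 * mt + 17)))
  have lc := loc_le4 hu hρ
  have r5 := r0_le h
  have tm := h.tm
  have hE := h.E
  have er : s u (48 * mt + 16) ≤ s u (48 * mt + 7) := s_anti (by omega)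
  refine ⟨hd, ha ▸ cE_eq ▸ one_le_Dp 100, h1, H.tb h le_rfl ha hN le_rfl rfl
    (fun l => Y_mono (by simp)) (fun _ _ => Nat.zero_le _) (lt_of_lt_of_le ?_ hL), fun l _ => ?_, ?_,
    ?_, ?_, ⟨(s_pos _ _).le, mul_pos (pow_pos (Yr_pos _ _) _) (s_pos _ _)⟩,
    tt.far4 h H (by norm_num) hc er, tt.lag4 h H (by norm_num) hc er,
    tt.short4 h H (by norm_num) hc er hB hθ⟩
  · have := h.qf
    rw [← Y_def]; tier! (48 * mt + 17)
  · have := lc l
    have := (hs l).2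
    rw [ha, hρ]
    refine ⟨by change cN + cE ≤ cqf; unfold cqf; nlinarith, ?_⟩
    change 4 * x u l 16 ≤ _ ∧ 4 * x u l 16 + Y u (48 * l + 26) + _ ≤ x u l 20 ∧
      _ ≤ _ + Y u (48 * l + 26) + _ ∧ x u l 13 + Y u (48 * l + 26) + _ ≤ 3 * Y u (48 * l + 26)
    have b1 : x u l 13 ≤ Y u (48 * l + 26) := Y_mono (by omega)
    have b2 : Y u (48 * l + 12) ≤ Y u (48 * l + 26) := Y_mono (by omega)
    exact ⟨by tier! (48 * l + 27), by tier! (48 * l + 27), this.trans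
      ((Nat.le_add_left _ _).trans (Nat.le_add_right _ _)), by omega⟩
  · have := lc (mt - 1)
    refine ⟨le_trans ?_ (hs _).1, ?_⟩
    · change 2 * (rD + 1 + r0 u) + 2 * S.loc (mt - 1) ≤ x u (mt - 1) 5
      tier! (48 * (mt - 1) + 15)
    · have b1 : 4 * (4 * (2 * rD + 1) ^ 3) ≤ Y u (48 * mt + 17) := by tier! (48 * (mt - 1) + 15)
      have b2 := Y_le_kT (le_refl (u * D ^ (48 * mt + 17))) le_rfl
      refine le_trans ?_ (Nat.le_self_pow three_ne_zero _)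
      change 4 * (2 * rD + 1) ^ 3 ≤ 2 * (2 ^ kT u mt _ mt / 4) + 1
      omega
  · change 2 * r0 u + 2 ≤ Y u 11
    tier! 5
  · change 2 * ctm * Y u 1 ≤ Y u 2 ∧ 2 * ctm * cE + 2 * (2 * ctm * Y u 1 + 0) ≤ Y u 2
    exact ⟨by tier! 1, by tier! 1⟩

omit ha hN in
/-- the field `nu` of `QIn`. -/
theorem qn4_nu {rD : ℕ} {W : Wd T} (hL : Y u (48 * mt + 49) ≤ L)
    (fine : 2 * (W.Bd.card + L ^ 3 * Y u 2 + 1) ≤ W.w) :
    Gl.Nu W L (lf h Dw) (qn4 u mt rD).Pg ((qn4 u mt rD).t + 1) 0 (qn4 u mt rD).j :=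
  have hu := h.hu
  (gh_gs4 hu _).nu h (gs4_ok h (Nat.le_add_left _ _) (lt_of_lt_of_le (by tier! (48 * mt + 48)) hL))
    (Nat.le_succ _) (Nat.zero_le _) fine

end Crest.Agent.N337.Par
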