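import Crest.Agent.N337.M.Ctx
import Crest.Agent.N337.Par.Que
import Crest.Agent.N337.Par.G4b
import Crest.Agent.N337.G4.Has

/-!
# Row 337 (helper50): the claims `F1`, `N1` of G4 on the concrete objects
-/

set_option autoImplicit false
set_option linter.unusedSectionVars false

namespace Crest.Agent.N337.M.Ctx

open Crest.Agent.N337.Free Crest.Agent.N337.A Crest.Agent.N337.Top Crest.Agent.N337.Par G4

variable {L n : ℕ} [NeZero L] [NeZero n] {u ms w : ℕ} {β : ℝ} {sy : List (Sl L n × Sl L n × ℝ)}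
  (C : Ctx u ms β w sy) (z : Tor 3 L) {y : ℝ} {d m nc R : ℕ}
include C

/-- the rate of the coin family. -/
lemma exp_θ : Real.exp (56 * θw n w * ((w + 1 : ℕ) + 1 + Y u 2)) ≤ Y u 1 := by
  have hu := C.hu
  have h1 := C.wd.θ_win (c := 56) (k := Y u 2 + 1) (r := 0) (by norm_num)
    (le_trans (le_trans (by tier! 2) (C.le_L (k := 3) (by omega))) (Nat.le_self_pow two_ne_zero L))
    (Nat.zero_le _)
  have hn : (1 : ℝ) ≤ 8 * n ^ 2 := by
    have : (1 : ℝ) ≤ n := by exact_mod_cast NeZero.one_le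
    nlinarith
  have h2 : Rb u 0 1 (Real.exp (2 * (8 * n ^ 2))) := ⟨(Real.exp_pos _).le, le_trans
    (le_mul_of_one_le_left (Real.exp_pos _).le (one_le_mul_of_one_le_of_one_le (by norm_num)
      (one_le_pow₀ hn))) C.bg.Cg.2⟩
  have h3 := (h2.pow (j := 12)).up (k' := 1) (by norm_num) one_pos
  rw [← Real.exp_nat_mul] at h3
  refine (Real.exp_le_exp.2 ?_).trans h3
  push_cast at h1 ⊢
  linarith

/-- **the word and the numbers of G4.** -/
theorem pk4 (h0 : 0 ≤ y) (h1 : y ≤ Yt u ms) (hd : d ≤ 176) :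
    Rs.Pk4 C.W (GT β w sy) C.Q (I.sys n (TT β w sy) (Par.num C.bg (Dw w sy) 6) z)
      (eg u (Dw w sy) (ms + 3)) (gp5 u) (pz4 u) (np5 u (ms + 3) (L ^ 3 * n)) (ln4 u (ll u))
      (qn4 u (ms + 3) (lt u ms)) y (θw n w) d := by
  have hu := C.hu
  have h := C.bg
  have hE := h.E
  have ht := h.tm
  have H := h4 (T := TT β w sy) (mt := ms + 3) h z (Dw w sy) 6 (by omega) (by omega) (by omega)
    (by omega) (C.le_L (by omega))
  have hl := hl4 (Dw := Dw w sy) h ⟨C.B1, C.B2⟩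
  refine ⟨C.wr h0 h1, C.er (by omega), half (half_le_Yt hu ms), fun l hl => ?_,
    hl.ok C.wd.word C.wd.θ50 C.wd.blk rfl (Y_mono (by omega)),
    qn4_nu h (C.le_L (by omega)) (C.wd.fine
      ((C.le_L (by omega)).trans (Nat.le_self_pow two_ne_zero L))),
    qn4_ok h rfl rfl (fun _ _ => rfl) (fun _ => rfl)
      (fun _ => ⟨Y_mono (by omega), Y_mono (by omega)⟩) (by omega) (Y_mono (by omega))
      (C.le_L (by omega)) h.Cg ⟨C.B1, C.B2⟩ C.exp_θ,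
    np5_ok h _ _, no5 h _ C.B2 hd _, H.nt, H.ng, fun l _ => H.sum l,
    ⟨by show cE + 1 ≤ 6 * Y u 4; nlinarith [Y_mono (u := u) (Nat.zero_le 4), one_le_Y u 4], le_rfl⟩,
    hl.cC_le C.exp_θ, hl.cP_le, ⟨rfl, rfl, fun _ => Y_mono (by omega)⟩, le_rfl, le_rfl,
    fun l _ => ⟨?_, le_rfl⟩⟩
  · have hl' : l < ms + 3 := hl
    exact (C.wd.rate _ (r := x u l 1 + 2) (le_trans (by tier! (48 * l + 12)) C.hL)).mono
      (fun s => (C.ok.1 s).1) le_rfl (Nat.cast_le.2 (Kw_le5 h C.B2 l))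
  · show x u l 20 + 3 * ctm * x u l 20 ≤ x u (l + 1) 0
    tier! (48 * l + 31)

omit C in
lemma dom (Z : Finset (I.V L n (TT β w sy))) (h : (PP n u ms β z).Sd Z) :
    ∃ x0, ∀ x ∉ I.kil Z, tdist x0 x ≤ lt u ms := ⟨z, fun x hx => by
  obtain ⟨s, hs⟩ := not_forall.1 fun k => hx (I.mem_kil.2 k)
  obtain ⟨c, hc⟩ := not_forall.1 hs
  exact cube_near (A.mem_cubeS.1 (h _ hc))⟩

/-- **F1** (field `Cel.f1`). -/
theorem f1 (hm : m ≤ ms + 2) (h0 : 0 ≤ y) (h1 : y ≤ Yt u ms) (hd : d ≤ 176) (hn : nc ≤ cN)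
    (hR : R ≤ x u m 13) :
    Ld.F1 (C.I z) (GT β w sy) (PP n u ms β z).Sd y d m nc R (nx u m R) (Par.eps u m) :=
  (C.pk4 z h0 h1 hd).f1 (Nat.lt_succ_of_le hm) (.inr ⟨Nat.lt_succ_of_le hm, hn, hR, le_trans
    (Nat.add_le_add_right (Nat.add_le_add_right (Nat.mul_le_mul_left _ (Nat.mul_le_mul_left _
      (Nat.add_le_add_right (le_max_left R _) _))) _) _) (margin C.bg _ (le_max_right R _) le_rfl)⟩)
    (s_anti (by omega)) (dom z)

/-- the same with the radii and covers of `C.Cel`. -/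
theorem f1c (hm : m ≤ ms + 2) (h0 : 0 ≤ y) (h1 : y ≤ Yt u ms) (hd : d ≤ 176) (hR : R ≤ Rr u m 30) :
    Ld.F1 (C.I z) (GT β w sy) (PP n u ms β z).Sd y d m ((ctm + 1) * ca) R (nx u m R)
      (Par.eps u m) :=
  C.f1 z hm h0 h1 hd (by unfold cN; omega)
    (hR.trans ((Rr_le C.bg (by norm_num)).trans (Sx_le C.bg m)))

/-- **N1** (field `Cen.n1`). -/
theorem n1 (hm : m ≤ ms + 2) (h0 : 0 ≤ y) (h1 : y ≤ Yt u ms) (hd : d ≤ 176) :
    Ld.N1 (C.I z) (GT β w sy) (PP n u ms β z).Sd y d m (sx u (m + 1) 0 ^ 1000) :=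
  (C.pk4 z h0 h1 hd).n1 (Nat.lt_succ_of_le hm) (by
    have hu := C.hu
    show ((2 * x u (m + 1) 0 + 1 : ℕ) : ℝ) ^ 3 * s u (48 * m + 60) ≤ _
    rtier! (48 * m + 59)) (dom z)

end Crest.Agent.N337.M.Ctx
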