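import Crest.Agent.N337.Par.Defs
import Crest.Agent.N337.Rg.Vis

/-!
# Row 337 (helper99): the numbers of the covisit trees on the tiers
-/

set_option autoImplicit false

namespace Crest.Agent.N337.Par.Cv

open Finset Crest.Agent.N337.Free Crest.Agent.N337.Rg

/-- prices of the covisits. -/
noncomputable def τc (u k r : ℕ) : ℝ := if r < x u k 12 then sx u k 2 else sx u k 4

/-- the data of the covering bound (root scale `μ`). -/
noncomputable abbrev cx (L n T : ℕ) [NeZero L] [NeZero T] (u B Dw μ : ℕ) :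
    Cx T (Tor 3 L × Fin n) (Tor 3 L) :=
  cxI L n T B Dw cQ μ (fun k => x u k 1) (fun k => x u k 3) (τc u)

def volc (u k : ℕ) : ℕ := (2 * x u (k + 1) 0 + 1) ^ 3
def ncc (u k : ℕ) : ℕ := (2 * (x u k 3 + 1)) ^ 3
def gc (u k : ℕ) : ℕ := x u k 0 ^ 2
def vjc (n u B k : ℕ) : ℕ := B * C9.Vn n (x u k 1)

variable {n u : ℕ} {L T : ℕ} [NeZero L] [NeZero T]

lemma τc_lt {k r : ℕ} (h : r < x u k 12) : τc u k r = sx u k 2 := if_pos h
lemma τc_sep (u k : ℕ) : τc u k (x u k 12) = sx u k 4 := if_neg (lt_irrefl _)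
lemma τc_le (u k r : ℕ) : τc u k r ≤ sx u k 2 := by
  unfold τc; split_ifs; exacts [le_rfl, s_anti (by omega)]
lemma le_τc (u k r : ℕ) : sx u k 4 ≤ τc u k r := by
  unfold τc; split_ifs; exacts [s_anti (by omega), le_rfl]

lemma x_lt (hu : 100 ≤ u) {k i j : ℕ} (h : i < j) : x u k i < x u k j := by tier! (48 * k + 11 + i)

lemma locN_le (h : Bg n u) (Dw sp : ℕ) (hs : sp ≤ 12) (m : ℕ) :
    Ld.locN (num h Dw sp hs) m ≤ 2 * x u m 0 := by
  have hu := h.hu
  induction m with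
  | zero => exact Nat.le_mul_of_pos_left _ two_pos
  | succ m ih =>
    have h1 : 2 * x u m 0 ≤ x u (m + 1) 0 := by tier! (48 * m + 11)
    change x u (m + 1) 0 + _ ≤ _
    omega

variable (h : Bg n u) (Dw : ℕ) (z0 : Tor 3 L)
include h

/-- colours and counts of one scale. -/
theorem snum (k : ℕ) : (I.sys n T (num h Dw 12) z0).Num cQ (fun k => x u k 3) (volc u) (ncc u)
    (gc u) k := by
  have hu := h.hu
  have x0 := Y_pos u (48 * k + 11 + 0)
  refine ⟨Nat.lt_succ_self _, Nat.lt_succ_self _, fun y => I.col_lt (Nat.succ_pos _) y,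
    fun y y' a b => I.col_sep (Nat.succ_pos _) a b, Y_mono (by omega), fun y => card_ball_le y _,
    pow_pos x0 _, ?_, fun l hl => ?_⟩
  · change cE * (volc u k / gc u k + 1) ≤ 2 * cE * x u k 0 ^ (ck0 - 1 - 0)
    have h1 : Pb u (48 * k + 11 + 48) 10 (volc u k / gc u k + 1) := by
      apply Pb.mono
      · unfold volc; p_bd
      · norm_num
    rw [Pb, Y_add, ← pow_mul] at h1
    have h2 : D ^ 48 * 10 ≤ ck0 - 1 - 0 :=
      (fun a b (_ : 1 ≤ a) (_ : a * 1000000 ≤ b) => by omega : ∀ a b : ℕ, 1 ≤ a → a * 1000000 ≤ b →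
        a * 10 ≤ b - 1 - 0) _ _ (one_le_Dp 48)
        ((Nat.mul_le_mul_left _ D_ge).trans ((pow_succ D 48).symm.trans ck0_eq.symm).le)
    rw [mul_comm 2, mul_assoc]
    exact Nat.mul_le_mul_left _ ((h1.trans (Nat.pow_le_pow_right x0 h2)).trans
      (Nat.le_mul_of_pos_left _ two_pos))
  · change cE * ((ctm + 1) * (2 * cE * x u k 0 ^ (ck0 - 1 - l)) / x u k 0 ^ 2 + 1) ≤
      2 * cE * x u k 0 ^ (ck0 - 1 - (l + 1))
    change l + 1 < ck0 at hl
    obtain ⟨j, hj⟩ : ∃ j, ck0 - 1 - l = j + 1 := ⟨ck0 - 1 - (l + 1), by omega⟩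
    rw [hj, show ck0 - 1 - (l + 1) = j by omega, mul_comm 2 cE, mul_assoc cE 2 (_ ^ j)]
    refine Nat.mul_le_mul_left _ ?_
    have h1 : (ctm + 1) * (cE * 2) ≤ x u k 0 := by
      have := h.tm
      have := h.E
      tier! 0
    have h2 : (ctm + 1) * (cE * 2 * x u k 0 ^ (j + 1)) / x u k 0 ^ 2 ≤ x u k 0 ^ j := by
      refine Nat.div_le_of_le_mul ?_
      rw [← mul_assoc, show x u k 0 ^ 2 * x u k 0 ^ j = x u k 0 * x u k 0 ^ (j + 1) by ring]
      exact Nat.mul_le_mul_right _ h1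
    have h3 : 1 ≤ x u k 0 ^ j := Nat.one_le_pow j _ x0
    omega

theorem cx_ok (B μ : ℕ) : (cx L n T u B Dw μ).Ok (I.sys n T (num h Dw 12) z0) := by
  have hu := h.hu
  refine ⟨Nat.succ_le_succ (cE_eq ▸ one_le_Dp 100), fun k _ => ?_, fun k _ => ⟨?_, Y_mono (by omega)⟩,
    fun k _ l hl => ?_, fun k y v hv => gsl_d hv, fun k r => ⟨(s_pos _ _).trans_le (le_τc u k r),
      (τc_le u k r).trans ((s_le_num hu _).trans (by norm_num))⟩, fun k _ r _ _ => ?_,
    fun k _ l hl r _ _ => (τc_sep u k).trans_le ((s_anti (by omega)).trans (le_τc u l r))⟩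
  · change x u k 1 + x u (k + 1) 0 ≤ x u (k + 1) 1
    tier! (48 * (k + 1) + 11)
  · change 2 * x u k 1 ≤ x u k 3
    tier! (48 * k + 12)
  · change x u l 12 + 2 * x u k 1 ≤ x u k 12
    tier! (48 * k + 12)
  · have h0 := ((s_pos _ _).trans_le (le_τc u k r)).le
    have h1 : (2 * cQ) ^ 4 ^ (k + 1 + 1) ≤ Y u (48 * k + 11 + 2) :=
      (pow_pow_le ((Nat.le_self_pow (by norm_num) _).trans h.Q) (four_le_Dp _)).trans
        (Y_mono (by omega))
    refine (pow_le_of_le_one h0 ((τc_le u k r).trans (s_le_one _ _)) (by norm_num)).trans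
      ((τc_le u k r).trans ?_)
    change _ ≤ (1 / (2 * (cQ : ℝ))) ^ 4 ^ (k + 1 + 1)
    rw [one_div, inv_pow]
    exact inv_anti₀ (by unfold cQ; positivity) (by exact_mod_cast h1)

/-- **the numerics of `F3`, `N3`.** -/
theorem cx_nm {B : ℕ} (hB : B ≤ Y u 11) (μ : ℕ) : (cx L n T u B Dw μ).Nm
    (I.sys n T (num h Dw 12) z0) (volc u) (ncc u) (gc u) (vjc n u B) (eps u) := by
  have hu := h.hu
  refine ⟨cx_ok h Dw z0 B μ, fun k _ => snum h Dw z0 k, fun k y => card_gsl B Dw y _,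
    fun k => (s_pos _ _).le, fun k _ => ?_⟩
  change ((ck0 * ncc u k * (volc u k / gc u k + 1) : ℕ) : ℝ) *
      (gc u k * (8 * vjc n u B k * τc u k (x u k 3))) ^ (cE + 1) +
    (((ncc u k * ((ctm + 1) * (2 * cE * x u k 0 ^ (ck0 - 1 - (ck0 - 1)))) : ℕ) *
      (8 * vjc n u B k * τc u k (x u k 12))) ^ (cE + 1) + (volc u k * eps u k) ^ (cE + 1)) ≤
    s u (48 * (k + 1 + 1) + 11 + 1)
  have hE : D ^ 100 ≤ cE + 1 := cE_eq ▸ Nat.le_succ _
  have a1 := h.hn
  have a2 := h.k0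
  have a3 := h.tm
  have a4 := h.E
  have s0 := fun i => (s_pos u i).le
  rw [τc_lt (x_lt hu (by norm_num)), τc_sep, Nat.sub_self, pow_zero, mul_one, ← mul_assoc (gc u k : ℝ),
    ← mul_assoc (Nat.cast _ : ℝ) (8 * _) (sx u k 4)]
  have b1 := pow_small (x := gc u k * (8 * vjc n u B k) * sx u k 2) (k := 48 * k + 12)
    (mul_nonneg (by positivity) (s0 _)) (by unfold gc vjc C9.Vn; rtier! (48 * k + 12)) hE
  have b2 := pow_small (x := ((ncc u k * ((ctm + 1) * (2 * cE)) : ℕ) : ℝ) * (8 * vjc n u B k) *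
    sx u k 4) (k := 48 * k + 14) (mul_nonneg (by positivity) (s0 _))
    (by unfold ncc vjc C9.Vn; rtier! (48 * k + 14)) hE
  have b3 := pow_small (x := volc u k * eps u k) (k := 48 * k + 59)
    (mul_nonneg (by positivity) (s0 _)) (by unfold volc eps; rtier! (48 * k + 59)) hE
  have b4 : ((ck0 * ncc u k * (volc u k / gc u k + 1) : ℕ) : ℝ) * s u (48 * k + 12 + 100) ≤
      s u (48 * k + 109) := by unfold ncc volc; rtier! (48 * k + 109)
  have b5 := mul_le_mul_of_nonneg_left b1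
    (Nat.cast_nonneg (α := ℝ) (ck0 * ncc u k * (volc u k / gc u k + 1)))
  have b6 : 3 * s u (48 * k + 109) ≤ s u (48 * (k + 1 + 1) + 11 + 1) := by rtier! (48 * k + 108)
  have b7 := s_anti (u := u) (show 48 * k + 109 ≤ 48 * k + 14 + 100 by omega)
  have b8 := s_anti (u := u) (show 48 * k + 109 ≤ 48 * k + 59 + 100 by omega)
  linarith

/-- slow pins. -/
theorem slN {d t τ : ℕ} (sp : ℕ) (hs : sp ≤ 12) (hd : ck0 + 27 + d ≤ τ) (ht : t ≤ τ)
    (hτ : τ ≤ ctm + 13) : C9.SlN (num h Dw sp hs) d t τ :=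
  ⟨ll_pos u, hd, ht, hρ h Dw sp hs hτ, hJ h Dw sp hs hτ⟩

lemma vv_le {τ : ℕ} (hτ : τ ≤ ctm + 13) (sp : ℕ) (hs : sp ≤ 12) (k : ℕ) :
    vv (num h Dw sp hs) τ k ≤ Y u (48 * k + 2) := by
  have hu := h.hu
  have h1 := lw_le h Dw sp hs hτ k
  have h2 : τ ≤ Y u 1 := hτ.trans (by have := h.tm; tier! 0)
  change 2 * τ * Y u 1 + _ ≤ _
  tier! (48 * k + 1)

/-- **visits.** -/
theorem vn {d : ℕ} (hd : d ≤ 176) (μ : ℕ) : VN (num h Dw 12) d ctm μ fun k => x u k 1 := by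
  have hu := h.hu
  refine ⟨slN h Dw 12 le_rfl (by unfold ctm; omega) le_rfl (by omega), ?_,
    fun k _ => ⟨?_, x_lt hu (by norm_num), x_lt hu (by norm_num)⟩⟩
  · change 2 ≤ cLam
    have := Nat.one_le_pow cN (2 * cc + 2) (by omega)
    unfold cLam; omega
  · have h1 := vv_le h Dw (τ := ctm) (by omega) 12 le_rfl k
    refine (Nat.add_le_add_right (Nat.add_le_add_right (locN_le h Dw 12 le_rfl k) _) _).trans ?_
    tier! (48 * k + 11)

end Crest.Agent.N337.Par.Cv
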