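import Crest.Agent.N337.Par.G1s
import Crest.Agent.N337.M.Wd

/-!
# Row 337 (helper79): the leaf numbers of G1 (`M.Nu0`)
-/

set_option autoImplicit false

namespace Crest.Agent.N337.Par

variable {n u i : ℕ} {P : G1.Scales}

/-- **`M.Nu0`** for the leaves of the table, `j = Y u 2`. -/
theorem GH.nu0 (h : Bg n u) (H : GH u i P) (Dw : ℕ) {t x0 L0 : ℕ} (ht : t ≤ ctm + 2)
    (hx : x0 ≤ Y u 1) (hP : P.Ok L0) : M.Nu0 L0 (lf h Dw) P t x0 (Y u 2) := by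
  have hu := h.hu
  have h1 : t ≤ Y u 1 := ht.trans (by have := h.tm; tier! 0)
  have h2 := h.a0
  have h3 : 2 * (Y u 2 * (2 * Y u 0 + 1)) + Y u 0 < Y u 2 ^ 3 := by
    have a1 : 2 * (2 * Y u 0 + 1) + Y u 0 < Y u 2 := by tier! 0
    have a2 := one_le_Y u 2
    calc _ ≤ Y u 2 * (2 * (2 * Y u 0 + 1) + Y u 0) := by nlinarith
      _ < Y u 2 * Y u 2 := Nat.mul_lt_mul_of_pos_left a1 a2
      _ ≤ _ := by rw [← sq]; exact Nat.pow_le_pow_right a2 (by norm_num)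
  have h4 : (ll u + 1) * (Y u 2 * (2 * Y u 0 + 1)) + Y u 0 < Par.η0 u := by
    have a1 := Nat.mul_lt_mul_of_pos_left h3 (ll_pos u)
    have a2 := Nat.mul_le_mul_right (Y u 2 * (2 * Y u 0 + 1)) (ll_pos u)
    have a3 := Nat.mul_le_mul_right (Y u 0) (ll_pos u)
    unfold Par.η0
    nlinarith
  refine ⟨hP, ll_pos u, ?_, ?_, ?_, H.hA h, ?_, H.η0 ▸ h4, h4.le⟩
  · rw [H.a0]; exact Nat.mul_le_mul_right _ (by omega)
  · rw [H.a0]; change _ + 2 * (2 * t * Y u 1 + x0) ≤ _; tier! 1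
  · have : 8 * Y u 2 ^ 3 ≤ Y u 3 := by tier! 2
    rw [H.η0, Par.η0, mul_left_comm]; exact Nat.mul_le_mul_left _ this
  · exact Nat.mul_lt_mul_of_pos_right (by unfold csm; omega) (pow_pos (Y_pos _ _) _)

end Crest.Agent.N337.Par
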