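import Crest.Agent.N337.Par.Eng
import Crest.Agent.N337.Par.Defs
import Crest.Agent.N337.E.Tube

/-!
# Row 337 (helper14): `Tr.Ok`, `Tb.Nu`, `En.Ti` on the parameter table
-/

set_option autoImplicit false
set_option linter.unusedSectionVars false

namespace Crest.Agent.N337.Par

open Finset Crest.MathPhysics.SpinModel Rg Tr Free

variable {L T : ℕ} [NeZero L] [NeZero T] {n u Dw mt sp kt B J : ℕ}

lemma one_le_cE : 1 ≤ cE := Dp_le_cE (j := 0) (by norm_num)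

lemma σ_eg (u Dw mt l : ℕ) : (eg u Dw mt).σ l = 4 * x u l 7 * (x u l 8 * cE) := rfl

lemma le_σ_eg (u Dw mt l : ℕ) : 4 * x u l 8 ≤ (eg u Dw mt).σ l :=
  Nat.mul_le_mul (Nat.le_mul_of_pos_right _ (Y_pos _ _)) (Nat.le_mul_of_pos_right _ one_le_cE)

lemma σ_eg_le (h : Bg n u) (Dw mt l : ℕ) : (eg u Dw mt).σ l ≤ x u l 9 := by
  have hu := h.hu
  have := h.E
  rw [σ_eg]
  tier! (48 * l + 19)

lemma pb_σ_eg (h : Bg n u) (Dw mt l : ℕ) : Pb u (48 * l + 11 + 8) 4 ((eg u Dw mt).σ l) :=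
  ((Pb.num h.hu (by norm_num)).mul (.tier (by omega))).mul
    ((Pb.tier le_rfl).mul (.of_le h.E (by omega)))

lemma QQ_eq (h : Bg n u) (hs : sp ≤ 12) (z0 : Tor 3 L) :
    Tb.QQ (I.sys n T (num h Dw sp hs) z0) (eg u Dw mt) = 2 * cqf + 2 := rfl

lemma QQ_le (h : Bg n u) : 2 * cqf + 2 ≤ Y u 0 := le_trans (by unfold cc; omega) h.c

/-- **the tube numbers** for any G1 scales with `ρ (l + 1), η (l + 1) ≤ x l 17`. -/
theorem tb_nu (h : Bg n u) (hs : sp ≤ 12) (z0 : Tor 3 L) {P : G1.Scales} {th : ℕ → ℕ}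
    (hmt : P.mt = mt + 1) (hth : ∀ l < mt, th l ≤ x u l 6) (hρ : ∀ l < mt, P.ρ (l + 1) ≤ x u l 17)
    (η0 : P.η 0 ≤ Y u 5) (hη : ∀ l < mt, P.η (l + 1) ≤ x u l 17) (hk : Y u (48 * mt + 6) ≤ 2 ^ kt)
    (hL : Y u 1 * 2 ^ kt ≤ L) :
    Tb.Nu (I.sys n T (num h Dw sp hs) z0) (eg u Dw mt) P (kT u mt kt) (kT' u) th := by
  have hu := h.hu
  have hq := QQ_le h
  have hR : ∀ l < mt, Tb.Rw (I.sys n T (num h Dw sp hs) z0) (eg u Dw mt) P (kT' u) l +
      x u l 2 + th l ≤ x u l 18 := fun l hl => by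
    have := hρ l hl; have := hth l hl
    rw [Tb.Rw, two_kT', QQ_eq]
    change x u l 2 + _ + _ + _ + _ ≤ _
    generalize 2 * cqf + 2 = q at hq
    tier! (48 * l + 28)
  have hp : ∀ {a b : ℕ}, 2 ^ a ≤ 2 ^ b → a ≤ b := fun h => (Nat.pow_le_pow_iff_right one_lt_two).1 h
  have ht : kT u mt kt mt = kt := if_neg (lt_irrefl _)
  have h6 : ∀ l ≤ mt, Y u (48 * l + 6) ≤ 2 ^ kT u mt kt l := fun l hl => by
    rcases hl.eq_or_lt with rfl | hl
    · rwa [ht]
    · rw [two_kT hl]; exact Y_mono (by omega)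
  refine ⟨hmt, by rw [QQ_eq]; change _ ≤ cc; unfold cc; omega, fun l hl => ⟨hp ?_, hp ?_⟩,
    fun l hl => le_trans ?_ (h6 l hl), fun l hl => ⟨?_, (hth l hl).trans_eq (two_kT (mt := mt) hl).symm, ?_⟩,
    fun l _ => ⟨?_, Y_mono (by omega)⟩, hR, fun l hl => ?_, fun l hl => (hη l hl).trans_eq (two_kT' u l).symm,
    fun m hm => le_trans ?_ (h6 mt le_rfl), ?_⟩
  · rw [two_kT (mt := mt) hl, two_kT']; exact Y_mono (by omega)
  · rw [two_kT']; exact (Y_mono (by omega)).trans (h6 _ hl)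
  all_goals try rw [QQ_eq]
  all_goals try rw [two_kT (mt := mt) hl]
  · generalize 2 * cqf + 2 = q at hq
    tier! 0
  · exact (Y_mono (by omega)).trans (Nat.le_mul_of_pos_left _ (by omega))
  · change _ ≤ x u l 7
    generalize 2 * cqf + 2 = q at hq
    tier! (48 * l + 17)
  · exact le_trans (le_trans (Y_mono (Nat.le_succ _)) (Nat.le_mul_of_pos_left _ (by norm_num)))
      (le_σ_eg u Dw mt l)
  · have := hR l (Nat.lt_of_succ_lt hl)
    have : x u l 18 ≤ x u (l + 1) 6 := Y_mono (by omega)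
    have := Nat.le_mul_of_pos_left (x u (l + 1) 6) (show 0 < 2 * (2 * cqf + 2) by omega)
    omega
  · rcases m with _ | m
    · tier! 5
    · have := hη m hm
      have : m + 1 ≤ mt := hm
      tier! (48 * m + 28)
  · change _ * 2 ^ kT u mt kt mt < L
    rw [ht]
    refine lt_of_lt_of_le (Nat.mul_lt_mul_of_pos_right ?_ (Nat.two_pow_pos kt)) hL
    generalize 2 * cqf + 2 = q at hq
    tier! 0

lemma gs_ρ (h : Bg n u) (mt l : ℕ) : (gs u mt).ρ (l + 1) ≤ x u l 14 := by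
  have hu := h.hu
  have := h.p3
  have := h.tS
  change 3 ^ cqf * (2 * G1.tS + x u l 13) + G1.tS ≤ _
  generalize 3 ^ cqf = q at *
  tier! (48 * l + 24)

/-- the tube numbers for `gs`. -/
theorem tb_gs (h : Bg n u) (hs : sp ≤ 12) (z0 : Tor 3 L) {th : ℕ → ℕ}
    (hth : ∀ l < mt, th l ≤ x u l 6) (hk : Y u (48 * mt + 6) ≤ 2 ^ kt) (hL : Y u 1 * 2 ^ kt ≤ L) :
    Tb.Nu (I.sys n T (num h Dw sp hs) z0) (eg u Dw mt) (gs u (mt + 1)) (kT u mt kt) (kT' u) th :=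
  tb_nu h hs z0 rfl hth (fun l _ => (gs_ρ h _ l).trans (Y_mono (by omega))) (η0_le h)
    (fun l _ => Y_mono (k := 48 * l + 11 + 15) (by omega)) hk hL

/-- **the numbers of the deterministic tree.** -/
theorem tr_ok (h : Bg n u) (z0 : Tor 3 L) (hL : Y u (48 * mt + 12) ≤ L) :
    Tr.Ok (I.sys n T (num h Dw 12) z0) (eg u Dw mt) := by
  have hu := h.hu
  have hc := h.c
  have hCm := h.Cm
  have hLam := h.Lam
  have hN : cN0 + 27 * cE ≤ Y u 0 := le_trans (by unfold cqf; omega) h.qf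
  have hσ := σ_eg_le h Dw mt
  have hE := one_le_cE
  have hS := h.S
  have hr := pb_r0 h
  have e1 : Cm (I.sys n T (num h Dw 12) z0) (eg u Dw mt) = cCm := rfl
  have e2 : Lm (I.sys n T (num h Dw 12) z0) (eg u Dw mt) = 4 * cCm + 2 := rfl
  refine ⟨fun _ _ => rfl, by change _ ≤ cc; unfold cc; omega, Nat.le_add_right _ _,
    ⟨le_rfl, Nat.le_succ _, Nat.succ_le_succ hE⟩,
    fun m => ⟨Y_pos _ _, hE, (Nat.le_succ _).trans (Nat.le_self_pow (by omega) _)⟩,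
    fun m => ?_, fun m => ⟨?_, Nat.le_mul_of_pos_left _ (by unfold cS; positivity)⟩, fun m => ?_,
    fun m => ?_, fun m => ⟨?_, Y_mono (by omega)⟩, fun m => ⟨Y_pos _ _, ?_, Y_mono (by omega)⟩,
    fun m => ⟨?_, Y_mono (by omega), Y_mono (by omega), ?_⟩, ?_, fun m => ?_,
    fun m => le_trans ?_ (le_trans (Nat.le_mul_of_pos_left _ (by norm_num)) (le_σ_eg u Dw mt m)),
    fun m hm => lt_of_lt_of_le ?_ hL⟩
  rotate_left 8
  · change 2 * r0 u ≤ x u 0 2
    exact ((Pb.num hu (by norm_num)).mul hr).up (by norm_num) (by omega)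
  all_goals have := hσ m
  all_goals try rw [e1]
  all_goals try rw [e2]
  all_goals generalize Eg.σ _ m = w at *
  all_goals simp only [eg, I.sys, num]
  all_goals clear e1 e2 hr hE hσ
  all_goals generalize cN0 + 27 * cE = e at *
  all_goals generalize cCm = a at *
  all_goals generalize cc = c at *
  all_goals generalize cLam = b at *
  all_goals generalize cS = f at *
  · tier! (48 * (m + 1) + 11)
  · tier! (48 * m + 13)
  · have : m + 1 ≤ mt := hm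
    tier! (48 * (m + 1) + 11)
  · tier! (48 * m + 20)
  · tier! (48 * m + 23)
  · tier! (48 * m + 24)
  · tier! (48 * m + 25)
  · tier! (48 * m + 24)
  · tier! (48 * m + 11)
  · tier! (48 * m + 24)
  · tier! (48 * m + 24)

lemma gam_le (u l : ℕ) : 0 ≤ gam u l ∧ gam u l ≤ s u (En.tv l + 1) := by
  cases l with
  | zero => exact ⟨(s_pos _ _).le, le_rfl⟩
  | succ l => exact ⟨(s_pos _ _).le, le_rfl⟩

/-- probabilities of the coin events. -/
noncomputable def etaE (u l : ℕ) : ℝ := s u (48 * l + 63)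

/-- the prices of the engine (`J` = number of winding classes). -/
noncomputable def pzE (n u Dw mt B J : ℕ) : En.Pz :=
  (En.Pd.tier u B J (dd u) (gam u) (s u 6) (etaE u)).pz (eg u Dw mt) n

/-- **the numbers of the engine.** -/
theorem ti (h : Bg n u) (hs : sp ≤ 12) (z0 : Tor 3 L) (hn : 0 < n) (hmt : 0 < mt)
    (hL : Y u (48 * mt + 14) ≤ L)
    (hB : (univ.filter fun s : Fin T => Dw ∣ s.val).card ≤ B ∧ 1 ≤ B ∧ B ≤ Y u 11)
    (hJ : J ≤ u * D ^ (48 * mt + 100)) :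
    En.Ti (I.sys n T (num h Dw sp hs) z0) (eg u Dw mt) u n T B J (dd u) (gam u) (s u 6) (etaE u) where
  hu := h.hu
  hn := ⟨hn, h.hn⟩
  mt := hmt
  Q := ⟨Nat.succ_le_succ one_le_cE, le_trans ((Nat.le_mul_of_pos_left _ two_pos).trans
    (Nat.le_self_pow (by norm_num) _)) h.Q⟩
  hL m hm := by
    have hu := h.hu
    have : m ≤ mt := hm
    refine lt_of_lt_of_le ?_ hL
    change 4 * x u m 2 < _
    tier! (48 * m + 13)
  hB := hB
  hJ := hJ
  har := (Dp_le_cE (by norm_num)).trans (Nat.le_succ _)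
  n1 := Dp_le_cE (by norm_num)
  jl _ := ⟨Dp_le_cE (by norm_num), h.E⟩
  r0 := ((Pb.num h.hu (by norm_num)).mul (pb_r0 h)).up (by norm_num) (by omega)
  ρ _ := le_rfl
  A _ := ⟨Y_pos _ _, le_rfl⟩
  Ns _ := rfl
  kp _ := le_rfl
  Rl _ := ⟨le_rfl, Y_pos _ _, le_rfl⟩
  dd0 := ⟨Y_pos _ _, Y_mono (k := 11) (by norm_num)⟩
  hγ := gam_le u
  hγ0 := ⟨(s_pos _ _).le, le_rfl⟩
  hη _ := le_rfl

theorem nm_pzE (h : Bg n u) (hs : sp ≤ 12) (z0 : Tor 3 L) (hn : 0 < n) (hmt : 0 < mt)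
    (hL : Y u (48 * mt + 14) ≤ L)
    (hB : (univ.filter fun s : Fin T => Dw ∣ s.val).card ≤ B ∧ 1 ≤ B ∧ B ≤ Y u 11)
    (hJ : J ≤ u * D ^ (48 * mt + 100)) :
    En.Nm (I.sys n T (num h Dw sp hs) z0) (eg u Dw mt) (pzE n u Dw mt B J) L n T ∧ ∀ m,
      En.eps (I.sys n T (num h Dw sp hs) z0) (eg u Dw mt) (pzE n u Dw mt B J) n m ≤ eps u m :=
  ⟨(ti h hs z0 hn hmt hL hB hJ).nm, (ti h hs z0 hn hmt hL hB hJ).eps_le⟩

/-- the number of grid slices. -/
lemma card_grid (hT : T = B * Dw) : (univ.filter fun s : Fin T => Dw ∣ s.val).card ≤ B := by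
  have hD : 0 < Dw := Nat.pos_of_ne_zero fun e => NeZero.ne T (by rw [hT, e, mul_zero])
  refine (card_le_card_of_injOn (fun s => s.val / Dw) (fun s _ => mem_coe.2 (mem_range.2
    ((Nat.div_lt_iff_lt_mul hD).2 (hT ▸ s.2)))) fun s hs s' hs' e => Fin.ext ?_).trans
    (card_range B).le
  rw [← Nat.div_mul_cancel (mem_filter.1 hs).2, ← Nat.div_mul_cancel (mem_filter.1 hs').2]
  exact congrArg (· * Dw) e

end Crest.Agent.N337.Par
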