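import Crest.Agent.N337.M.Ctx
import Crest.Agent.N337.Par.Nu

/-!
# Row 337 (helper96): joint (C), the word seen by G1 (`C9.Gw`) on the concrete objects
-/

set_option autoImplicit false
set_option linter.unusedSectionVars false

namespace Crest.Agent.N337.M

open Finset Crest.Agent.N337.Free Crest.Agent.N337.Top Crest.Agent.N337.Par

/-- exponent of the dyadic ball of the size of the torus. -/
def KL (L : ℕ) : ℕ := Nat.log 2 L - 1

lemma KL_spec {L : ℕ} (h : 8 ≤ L) : 2 * (2 ^ KL L - 1) < L ∧ L ≤ 8 * (2 ^ KL L - 1) := by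
  have h1 := Nat.pow_log_le_self 2 (show L ≠ 0 by omega)
  have h2 := Nat.lt_pow_succ_log_self (b := 2) (by norm_num) L
  obtain ⟨K, hK⟩ : ∃ K, Nat.log 2 L = K + 1 :=
    Nat.exists_eq_succ_of_ne_zero (Nat.log_pos (by norm_num) (by omega)).ne'
  rw [KL, hK, Nat.add_sub_cancel]
  rw [hK] at h1 h2
  simp only [Nat.succ_eq_add_one, pow_succ] at h1 h2
  omega

lemma inv_Yt (u ms : ℕ) : 1 / (1 - Yt u ms) ≤ (lt u ms : ℕ) + 1 := by
  have h4 := Yt_lt u ms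
  have h0 : (0 : ℝ) < (lt u ms : ℕ) := Yr_pos _ _
  have h5 : Yt u ms * (1 + 1 / (lt u ms : ℕ)) ≤ 1 := by
    rw [Yt, neg_div, Real.exp_neg, inv_mul_le_iff₀ (Real.exp_pos _), mul_one, add_comm]
    exact Real.add_one_le_exp _
  rw [div_le_iff₀ (by linarith)]
  generalize ((lt u ms : ℕ) : ℝ) = t at *
  have h7 : 1 / t * t = 1 := one_div_mul_cancel h0.ne'
  nlinarith [mul_le_mul_of_nonneg_right h5 h0.le]

/-- numbers of the scales of G1 below the top. -/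
lemma scN_lo {n u Dw mt m l : ℕ} (h : Bg n u) (_ : l < m) :
    ((_root_.Crest.Agent.N337.Par.num h Dw 12).tm + 2) * (_root_.Crest.Agent.N337.Par.num h Dw 12).a ≤ (gs u mt).a (l + 1) ∧
      (_root_.Crest.Agent.N337.Par.num h Dw 12).rad l ((_root_.Crest.Agent.N337.Par.num h Dw 12).tm + 1) ≤ (gs u mt).σ (l + 1) ∧
      4 * (gs u mt).η (l + 1) + 3 * ((_root_.Crest.Agent.N337.Par.num h Dw 12).tm + 1) * (_root_.Crest.Agent.N337.Par.num h Dw 12).H l ≤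
        (_root_.Crest.Agent.N337.Par.num h Dw 12).ρ (l + 1) := by
  have hu := h.hu
  have h1 := h.tm
  refine ⟨?_, (rad_le h Dw 12 le_rfl (show ctm + 1 ≤ _ by omega)).trans (Sx_le h l), ?_⟩
  · show (ctm + 2) * ca ≤ cqf
    unfold cqf cN0 cN
    nlinarith [Nat.zero_le ca, Nat.zero_le (ctm * ca)]
  · show 4 * x u l 15 + 3 * (ctm + 1) * x u l 20 ≤ x u (l + 1) 0
    tier! (48 * l + 31)

namespace Ctx
variable {L n : ℕ} [NeZero L] [NeZero n] {u ms w : ℕ} {β : ℝ} {sy : List (Sl L n × Sl L n × ℝ)}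
  (C : Ctx u ms β w sy)
include C

lemma KL_ge {k : ℕ} (hk : k < 48 * ms + 1000) : Y u k ≤ 2 ^ KL L - 1 := by
  have hu := C.hu
  have h1 : 8 * Y u k ≤ L := le_trans (by tier! k) C.hL
  have := (KL_spec (L := L) (by have := Y_pos u k; omega)).2
  omega

lemma KL_lt : 2 * (2 ^ KL L - 1) < L :=
  (KL_spec ((le_trans (by norm_num) (num_le C.hu _)).trans C.hL)).1

/-- **the zero mode** is below every tier in use. -/
theorem zm {k : ℕ} (hk : k ≤ 48 * ms + 998) : C9.zm (Yt u ms) (KL L) ≤ s u k := by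
  have hu := C.hu
  have h1 : Rb u (48 * ms + 998) 3 (4 * ((lt u ms : ℕ) + 1 : ℝ)) := by
    apply Rb.mono
    · r_bd
    · norm_num
  have h2 := C.KL_ge (k := 48 * ms + 999) (by omega)
  have h3 := h1.dv (j := 1) (i := k) (k' := 48 * ms + 999) (d := (2 * (2 ^ KL L - 1) + 1) ^ 3)
    (by norm_num) (by omega) hk (le_trans (by omega) (Nat.le_self_pow three_ne_zero _))
  rw [pow_one] at h3
  refine le_trans (div_le_div_of_nonneg_right ?_ (Nat.cast_nonneg _)) h3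
  rw [div_eq_mul_one_div]
  linarith [inv_Yt u ms]

/-- the numbers of G1 for the scales `gs u mt`. -/
theorem nuG {mt t x0 : ℕ} (h1 : 1 ≤ mt) (h2 : mt ≤ ms + 20) (ht : t ≤ ctm + 2) (hx : x0 ≤ 100) :
    Gl.Nu C.W L C.Q.toLf (gs u mt) t x0 (Y u 2) := by
  have hu := C.hu
  exact C.wd.nu ((gh_gs u mt).nu0 C.bg _ ht (hx.trans (le_trans (by norm_num) (num_le hu 1)))
    (gs_ok C.bg h1 (L := 2 * Y u (48 * mt) + 1) (by omega))) (le_trans (by tier! (48 * mt)) C.hL) _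

variable {m d nc R k : ℕ} {Yp : ℝ}

/-- **joint (C)**, no cover. -/
theorem gw0 (hm : m ≤ ms + 10) (h0 : 0 ≤ Yp) (h1 : Yp ≤ Yt u ms) (hd : d ≤ 177)
    (hk : k ≤ 48 * ms + 1000) (R : ℕ) :
    C9.Gw C.W (GT β w sy) C.Q (gs u (m + 1)) Yp (s u k) d m 0 R (KL L) (Y u 2) :=
  ⟨C.wr h0 h1, C.nuG (by omega) (by omega) (Nat.le_succ _) (by omega),
    ⟨by show ck0 + 27 + d ≤ ctm + 1; unfold ctm; omega, fun _ => scN_lo C.bg, .inl ⟨rfl, rfl⟩,
      fun l (hl : l < m + 1) => ((gh_gs u _).η_le C.bg l).trans (C.KL_ge (by omega))⟩,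
    C.KL_lt, C.er hk⟩

/-- **joint (C)**, with a cover. -/
theorem gw1 (hm : m ≤ ms + 10) (h0 : 0 ≤ Yp) (h1 : Yp ≤ Yt u ms) (hd : d ≤ 177)
    (hk : k ≤ 48 * ms + 1000) (hn : nc ≤ (ctm + 1) * ca) (hR : R ≤ Rr u m 37) :
    C9.Gw C.W (GT β w sy) C.Q (gs u (m + 2)) Yp (s u k) d m nc R (KL L) (Y u 2) :=
  ⟨C.wr h0 h1, C.nuG (by omega) (by omega) (Nat.le_succ _) (by omega),
    ⟨by show ck0 + 27 + d ≤ ctm + 1; unfold ctm; omega, fun _ => scN_lo C.bg,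
      .inr ⟨rfl, hn.trans (by show _ ≤ cqf; unfold cqf cN0 cN; omega),
        hR.trans ((Rr_le C.bg le_rfl).trans (Sx_le C.bg m))⟩,
      fun l (hl : l < m + 2) => ((gh_gs u _).η_le C.bg l).trans (C.KL_ge (by omega))⟩,
    C.KL_lt, C.er hk⟩

lemma Yt_nn : 0 ≤ Yt u ms := (Real.exp_pos _).le

/-- `= C.XC` of `Par/ExcF`. -/
theorem xc : ∀ m ≤ ms + 1, ∃ K j, C9.Gw C.W (GT β w sy) C.Q (gs u (m + 2)) (Yt u ms)
    (sx u m 24) 2 m ((ctm + 1) * ca) (Rr u m 9) K j ∧ C9.zm (Yt u ms) K ≤ sx u m 24 :=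
  fun m hm => ⟨_, _, C.gw1 (by omega) C.Yt_nn le_rfl (by omega) (by omega) le_rfl
    (Rr_mono u m (by omega)), C.zm (by omega)⟩

/-- the Green constant of the word. -/
lemma cg : Rb u 0 1 (G1.Cg C.W.κ) := C.bg.Cg

end Ctx

end Crest.Agent.N337.M
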