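import Crest.Agent.N337.Par.Y
import Crest.Agent.N337.Gl.Tb

/-!
# Row 337 (helper4): the gains of the tubes (`Tb.tau`, `Gl.cT`, `Gl.gF`) on the tiers
-/

set_option autoImplicit false
set_option linter.unusedSectionVars false

namespace Crest.Agent.N337.Par

open Finset Crest.Agent.N337.Free Rg Tr Gl G1

variable {L : ℕ} [NeZero L] {α κ : Type} [SemilatticeSup α] [Preorder κ] {u i m A lo d : ℕ}
  {S : Sys (Tor 3 L) α κ} {G : Eg} {P : Scales} {k k' : ℕ → ℕ}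

lemma pb_log (hu : 100 ≤ u) (h : d ≤ Y u (i + 1)) : Pb u i 2 (Nat.log 2 d) := by
  refine ((Nat.log_mono_right h).trans_eq (by rw [log_Y, pow_succ, ← mul_assoc])).trans
    ((Pb.of_le (lg_lt u i).le le_rfl).mul (.num hu (by rw [D_eq]; norm_num)))

lemma two_sq_le (hu : 100 ≤ u) (i : ℕ) : 2 * s u i ^ 2 ≤ s u i := by
  nlinarith [s_le_num hu i, s_pos u i]

lemma cw_leG {r μ j : ℕ} (hK : P.K (μ - 1) ≤ Y u j) (hr : Y u (j + 1) ≤ r) : Tb.cw P r μ ≤ s u j := by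
  have h := (Rb.of_le (zero_le_one.trans (one_le_K P _)) hK le_rfl).dv (j := 2) (d := 2 * r + 1)
    (by norm_num) j.lt_succ_self le_rfl (hr.trans (by omega))
  push_cast at h
  exact Real.sqrt_le_iff.2 ⟨(s_pos _ _).le, h⟩

variable (u S G P k k') in
/-- the tiers of a tube. -/
structure TT : Prop where
  hu : 100 ≤ u
  q : qf S G ≤ Y u 0
  K0 : P.K 0 ≤ Y u 1
  K : ∀ l < G.mt, P.K (l + 1) ≤ Y u (48 * l + 27)
  k : ∀ l ≤ G.mt, Y u (48 * l + 17) ≤ 2 ^ k l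
  k' : ∀ l < G.mt, Y u (48 * l + 28) ≤ 2 ^ k' l

namespace TT
variable (h : TT u S G P k k') (hlo : lo ≤ G.mt)
include h hlo

lemma K_le : P.K lo ≤ Y u (48 * lo + 1) := by
  rcases lo with _ | l
  · exact h.K0
  · exact (h.K l hlo).trans (by exact_mod_cast Y_mono (by omega))

theorem tau_le : 0 ≤ Tb.tau S G P k k' lo G.mt ∧ Tb.tau S G P k k' lo G.mt ≤ s u (48 * lo + 15) := by
  have hu := h.hu
  have hq := h.q
  have h1 : Tb.cw P (2 ^ k lo) (lo + 1) ≤ s u (48 * lo + 16) :=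
    cw_leG ((h.K_le hlo).trans (by exact_mod_cast Y_mono (by omega))) (h.k lo hlo)
  have h2 := (sum_le_sum fun l hl => cw_leG (P := P) (μ := l + 2) (h.K l (mem_Ico.1 hl).2)
    (h.k' l (mem_Ico.1 hl).2)).trans (sum_s hu (t := fun l => 48 * l + 27) (by omega) lo G.mt)
  have h3 : s u (48 * lo + 27) ≤ s u (48 * lo + 16) := s_anti (by omega)
  have h4 : (600 * ((2 * qf S G + 2 : ℕ) : ℝ) * 3) * s u (48 * lo + 16) ≤ s u (48 * lo + 15) := by
    rtier! (48 * lo + 15)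
  refine ⟨mul_nonneg (by positivity) (add_nonneg (Tb.cw_nn _ _)
    (sum_nonneg fun _ _ => Tb.cw_nn _ _)), le_trans ?_ h4⟩
  rw [mul_assoc _ (3 : ℝ)]
  exact mul_le_mul_of_nonneg_left (by linarith) (by positivity)

/-- the capacity constant. -/
theorem cT_le (hK : P.K lo ≤ Y u i) (hA : A ≤ Y u i) (hm : Pb u i 2 (Nat.log 2 m)) :
    ∃ C, Rb u i 20 C ∧ cT S G P k k' A lo m ≤ C + m * (2 * 10 ^ 9 * s u (48 * lo + 15)) := by
  have hu := h.hu
  have h1 := Rb.of_le (zero_le_one.trans (one_le_K P _)) hK le_rfl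
  obtain ⟨t0, t1⟩ := h.tau_le hlo
  have h2 : Tb.tau S G P k k' lo G.mt ^ 2 ≤ s u (48 * lo + 15) := by
    nlinarith [s_le_one u (48 * lo + 15)]
  refine ⟨16 * A + 2 * 10 ^ 9 * (P.K lo * (1 + (Nat.log 2 m : ℝ)) ^ 2), Rb.mono (by r_bd)
    (by norm_num), ?_⟩
  have := mul_le_mul_of_nonneg_left h2 (Nat.cast_nonneg (α := ℝ) m)
  unfold cT
  linarith

theorem cT_one (hK : P.K lo ≤ Y u i) (hA : A ≤ Y u i) : Rb u i 21 (cT S G P k k' A lo 1) := by
  have hu := h.hu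
  obtain ⟨C, h1, h2⟩ := h.cT_le hlo hK hA (m := 1) (by simp [Pb])
  have h3 : Rb u i 21 (C + (1 : ℕ) * (2 * 10 ^ 9 * s u (48 * lo + 15))) :=
    Rb.mono (by r_bd) (by norm_num)
  exact ⟨cT_nn _ _ _, h2.trans h3.2⟩

/-- **the price of a distance `d` of tier `i + 1`.** -/
theorem gF_le (hi : i ≤ 48 * lo + 14) (hK : P.K lo ≤ Y u i) (hA : A ≤ Y u i) (hη : P.η lo ≤ Y u i)
    (hd : d ≤ Y u (i + 1)) (hd' : Y u (i + 1) ≤ Y u i * d) : gF S G P k k' A lo d ≤ s u i := by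
  have hu := h.hu
  obtain ⟨C, h1, h2⟩ := h.cT_le hlo hK hA (pb_log hu ((Nat.div_le_self d (4 * P.η lo)).trans hd))
  have d0 : (0 : ℝ) < d := by
    have := Y_pos u (i + 1)
    exact_mod_cast Nat.pos_of_ne_zero fun e => by rw [e] at hd'; omega
  have h3 : C * P.η lo * Y u i / ((Y u i * d : ℕ) : ℝ) ≤ s u i ^ 2 :=
    Rb.dv (k := i) (by r_bd) (by norm_num) i.lt_succ_self le_rfl hd'
  have h4 : 2 * 10 ^ 9 * s u (48 * lo + 15) ≤ s u i ^ 2 := by rtier! i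
  have h5 : ((d / (4 * P.η lo) : ℕ) : ℝ) * P.η lo ≤ d := by
    exact_mod_cast (Nat.mul_le_mul_left _ (by omega)).trans (Nat.div_mul_le_self d (4 * P.η lo))
  rw [Nat.cast_mul, mul_comm (Y u i : ℝ), mul_div_mul_right _ _ (Yr_pos u i).ne',
    div_le_iff₀ d0] at h3
  rw [gF, div_le_iff₀ d0]
  have h6 := mul_le_mul_of_nonneg_right h2 (Nat.cast_nonneg (α := ℝ) (P.η lo))
  have h7 := mul_le_mul h5 h4 (by have := s_pos u (48 * lo + 15); positivity) d0.le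
  have h8 := mul_le_mul_of_nonneg_right (two_sq_le hu i) d0.le
  linarith

end TT

end Crest.Agent.N337.Par
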