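import Crest.Agent.N337.Par.G1s
import Crest.Agent.N337.Par.Gain
import Crest.Agent.N337.Gl.Ht

/-!
# Row 337 (helper92): the numbers `Gl.NH` of the Green input of the engine on the tiers
-/

set_option autoImplicit false
set_option linter.unusedSectionVars false

namespace Crest.Agent.N337.Par

open Finset Crest.Agent.N337.Free Rg Tr Gl G1

variable {L : ℕ} [NeZero L] {α κ : Type} [SemilatticeSup α] [Preorder κ] {n u i mt kt : ℕ}
  {S : Sys (Tor 3 L) α κ} {G : Eg} {P : Scales}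

/-- the tube on the tiers. -/
theorem GH.tt (h : Bg n u) (H : GH u i P) (hi : i ≤ 15) (hq : qf S G ≤ Y u 0) (hm : G.mt = mt)
    (hk : x u mt 6 ≤ 2 ^ kt) : TT u S G P (kT u mt kt) (kT' u) where
  hu := h.hu
  q := hq
  K0 := (H.K0 h).up (by norm_num) (by omega)
  K l _ := (H.K h l).up (by norm_num) (by omega)
  k l hl := by
    rcases (hm ▸ hl : l ≤ mt).lt_or_eq with a | rfl
    · exact (two_kT a).ge
    · rw [kT, if_neg (lt_irrefl _)]; exact hk
  k' l _ := (two_kT' u l).ge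

/-- three small terms and a constant. -/
lemma cg_le (hu : 100 ≤ u) {c a μ e : ℝ} {j : ℕ} (hc : Rb u 0 1 c) (ha : a ≤ 2 * s u (j + 1))
    (h : μ + e ≤ s u (j + 1)) : c * (μ + a + e) ≤ s u j := by
  have h1 : c * 3 * s u (j + 1) ≤ s u j := by rtier! j
  have := mul_le_mul_of_nonneg_left (show μ + a + e ≤ 3 * s u (j + 1) by linarith) hc.1
  linarith

/-- **the numbers of `En.HT`**: `dd = dd u`, `γ = gam u`, `γ0 = s u 6`. -/
theorem nh (h : Bg n u) (hq : qf S G ≤ Y u 0) (hm : G.mt = mt) (hk : x u mt 6 ≤ 2 ^ kt) {F : I.Lf}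
    (hA : F.A ≤ Y u 0) (hl : F.l ≤ Y u 5) {B : ℕ} (hB : Y u 10 ≤ B) {Pz : En.Pz}
    (h1 : Pz.dd = dd u) (h2 : Pz.γ = gam u) (h3 : s u 6 ≤ Pz.γ0) {c μ e : ℝ}
    (hc : Rb u 0 1 (Cg c)) (he : μ + e ≤ s u (48 * mt + 7)) (m : ℕ) :
    NH S G (gs u m) (kT u mt kt) (kT' u) Pz F B c μ e (Y u 11) (Y u 8) := by
  have hu := h.hu
  have H := gh_gs u m
  have t := H.tt h (by omega) hq hm hk
  have e0 : (gs u m).η 0 ≤ Y u 5 := η0_le h
  have hs := fun j => s_pos u j
  have g0 : gF S G (gs u m) (kT u mt kt) (kT' u) F.A 0 (Y u 11) ≤ s u 10 :=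
    t.gF_le (Nat.zero_le _) (by omega) (t.K0.trans (by exact_mod_cast Y_mono (by omega)))
      (hA.trans (Y_mono (by omega))) (e0.trans (Y_mono (by omega))) le_rfl
      (Nat.le_mul_of_pos_left _ (Y_pos _ _))
  have g7 : s u 10 ≤ s u 7 := s_anti (by omega)
  have e7 : μ + e ≤ s u (6 + 1) := he.trans (s_anti (by omega))
  refine ⟨fun l hl' => ?_, ⟨by tier! 10, le_trans (by tier! 16) (t.k 0 (Nat.zero_le _))⟩,
    ⟨one_le_Y _ _, le_trans (by tier! 8) hB⟩, (cg_le hu hc ?_ e7).trans h3⟩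
  · rw [h1, h2]
    refine ⟨?_, le_trans ?_ (t.k l hl'), ?_⟩
    all_goals rcases l with _ | l
    · change 4 * _ ≤ Y u 11; tier! 10
    · change 4 * x u l 15 ≤ x u l 16; tier! (48 * l + 26)
    · change 2 * (Y u 11 + _) ≤ _; tier! 16
    · change 2 * (x u l 16 + _) ≤ _; tier! (48 * l + 27)
    · exact cg_le hu hc (g0.trans (by linarith [hs 7])) e7
    · have g1 : gF S G (gs u m) (kT u mt kt) (kT' u) F.A (l + 1) (x u l 16) ≤ s u (48 * l + 26) :=
        t.gF_le hl' (by omega) ((H.K h l).up (by norm_num) (by omega))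
          (hA.trans (Y_mono (by omega))) le_rfl le_rfl (Nat.le_mul_of_pos_left _ (Y_pos _ _))
      have g2 : s u (48 * l + 26) ≤ s u (48 * l + 11 + 10 + 1) := s_anti (by omega)
      exact cg_le hu hc (j := 48 * l + 11 + 10) ((g1.trans g2).trans
        (le_mul_of_one_le_left (hs _).le one_le_two)) (he.trans (s_anti (by omega)))
  · have := (t.cT_one (Nat.zero_le _) (i := 7) (t.K0.trans (by exact_mod_cast Y_mono (by omega)))
      (hA.trans (Y_mono (by omega)))).dv (j := 1) (i := 7) (k' := 8) (by norm_num) (by omega)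
      le_rfl le_rfl
    rw [pow_one] at this
    linarith

end Crest.Agent.N337.Par
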