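import Crest.Agent.N337.Par.G1s
import Crest.Agent.N337.E.Dyn
import Crest.Agent.N337.M.Wd

/-!
# Row 337 (helper86): the numbers of the coin events of the engine on the tiers
-/

set_option autoImplicit false
set_option linter.unusedSectionVars false

namespace Crest.Agent.N337.Wk

open Finset Filter Crest.Agent.N337.Rep Free KV Geo I Tr Par

/-- the numbers. -/
noncomputable def lv (u : ℕ) (P : I.Num) (G : Eg) (t x0 : ℕ) : Lv where
  t := t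
  m := G.n1
  f := 9 * Y u 0
  W := 9 * Y u 0 + 27 * (2 * t * P.j1 + x0)
  τ := Y u 3
  k := P.l1 / (G.n1 * Y u 3)
  c := 8 * Y u 0
  Γ := s u 2
  fm m := 14 * Y u 0 * (2 * (2 * t * P.j1 + P.lw t m + hx P m) + 1) ^ 3 + Y u (48 * m + 11)
  cm m := (14 * Y u 0 * (2 * (2 * t * P.j1 + P.lw t m + hx P m) + 1) ^ 3 : ℕ)

/-- **the tiers** (no `L`, no word). -/
structure TE (u : ℕ) (P : I.Num) (G : Eg) (S : G1.Scales) (t d n x0 : ℕ) : Prop where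
  hu : 100 ≤ u
  fac : (D ^ 101 + 1).factorial ≤ Y u 0
  g1 : (11 * S.ρ 0 + 6 ≤ P.A ∧ P.A ≤ S.η 0) ∧ S.η 0 ≤ Y u 5 ∧ 2 * (t + 1) * P.n1 ≤ S.a 0 ∧
    S.a 0 ≤ Y u 0 ∧ Rb u 1 1 (S.K 0)
  lg : P.sm * G.n1 ≤ u
  c0 : n ≤ Y u 0 ∧ t ≤ Y u 0 ∧ x0 ≤ Y u 0 ∧ P.n1 ≤ Y u 0
  n1 : 0 < G.n1 ∧ G.n1 ≤ P.n1 + 1
  A : Y u 0 ≤ P.A ∧ P.A ≤ Y u 1
  j1 : P.j1 = Y u 1
  l : 1 ≤ P.l ∧ Y u 4 ≤ P.l1
  dl : P.l * Y u 2 ≤ P.dl ∧ P.l * Y u 2 ≤ P.r0 ∧ P.r0 ≤ Y u 5
  hG : 0 < G.mt ∧ G.D = P.D ∧ 2 * P.r0 ≤ G.r0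
  ht : P.k0 + 27 + d ≤ t
  hρ : ∀ m, (t + 1) * P.a * (2 * P.rad m t + 1) + 3 * t * P.H m ≤ P.ρ (m + 1)
  ρ : ∀ m, P.ρ m ≤ Y u (48 * m + 11) ∧ P.N * (2 * P.Sx m + 1) ≤ Y u (48 * (m + 1) + 11)
  lo : ∀ m < G.mt, Y u (48 * m + 12) ≤ G.lo m

variable {L n T : ℕ} [NeZero L] [NeZero T] {ex ey : Fin T → Tor 3 L × Fin n}

/-- **the word is fine** (`w` large). -/
structure WE (u mt L n : ℕ) (S : G1.Scales) (W : Gl.Wd T) (θ : ℝ) : Prop where
  hL : 2 * Y u 6 ≤ L ∧ S.Ok L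
  B : W.B ≤ Y u 11
  κ : G1.Cg W.κ ≤ Y u 0
  fine : 2 * (W.Bd.card + L ^ 3 * Y u 2 + 1) ≤ W.w
  er : W.er L n ≤ s u 4
  θ0 : 0 ≤ θ ∧ θ * W.w ≤ Y u 0
  θ1 : θ ≤ s u (48 * mt + 12)

variable {u t d x0 : ℕ} {P : I.Num} {G : Eg} {S : G1.Scales} {W : Gl.Wd T} {θ : ℝ}

lemma clock_b2 {F : Lf} (h : W.Ok ex ey F) :
    G1.Clock ex ey W.p0 b2 W.E0 W.w W.B W.q W.κ W.Bd :=
  { h.clock with
    one := fun i hi hb a ha => if_neg fun e => by
      have := h.clock.one i hi hb a ha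
      rw [e] at this
      linarith [h.h0, h.hY.2] }

lemma err_half {F : Lf} (h : W.Ok ex ey F) : G1.err W.q (1 / 2) L n W.B ≤ 4 * W.er L n := by
  have h1 : 1 ≤ (1 / (1 - W.Y)) ^ 2 :=
    one_le_pow₀ (one_le_one_div (by linarith [h.hY.2]) (by linarith [h.hY.1]))
  have h2 := mul_le_mul_of_nonneg_left h1 (by positivity : (0 : ℝ) ≤ 4 * W.q ^ 2 * L ^ 3 * n * W.B)
  unfold Gl.Wd.er G1.err
  norm_num at h2 ⊢
  linarith

namespace TE
variable (h : TE u P G S t d n x0)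
include h

lemma m_le : G.n1 ≤ Y u 1 := h.n1.2.trans (by have := h.hu; have := h.c0.2.2.2; tier! 0)

lemma lW {a b : ℕ} (ha : a ≤ Y u 1) (hb : b ≤ Y u 1) :
    a * (b + (2 * P.l + 1) * (lv u P G t x0).W + 2) ≤ P.l * Y u 2 := by
  obtain ⟨_, _, _, _⟩ := h.c0
  have := h.hu
  have := h.j1.le
  have h1 : a * (b + 3 * (9 * Y u 0 + 27 * (2 * t * P.j1 + x0)) + 2) ≤ Y u 2 := by tier! 1
  refine le_trans ?_ (Nat.mul_le_mul_left _ h1)
  rw [mul_left_comm]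
  refine Nat.mul_le_mul_left _ ?_
  have := h.l.1
  simp only [lv]
  nlinarith [Nat.zero_le b, Nat.zero_le (9 * Y u 0 + 27 * (2 * t * P.j1 + x0))]

lemma ρ_le : (lv u P G t x0).ρ P.toLf ≤ 2 * P.r0 := by
  have := h.lW (one_le_Y u 1) (Nat.zero_le _)
  have := h.dl.2.1
  simp only [Lq.ρ]
  omega

lemma R_le : (lv u P G t x0).R P.toLf ≤ 2 * P.r0 :=
  le_trans (by simp only [Lq.R, Lq.ρ]; nlinarith [Nat.zero_le (lv u P G t x0).W]) h.ρ_le

lemma loc_le (z0 : Tor 3 L) (m : ℕ) : (sys n T P z0).loc m ≤ 2 * Y u (48 * m + 11) := by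
  have := h.hu
  induction m with
  | zero => exact (h.ρ 0).1.trans (by omega)
  | succ m ih =>
    have h1 : 2 * Y u (48 * m + 11) ≤ Y u (48 * (m + 1) + 11) := by tier! (48 * m + 11)
    have h2 := (h.ρ (m + 1)).1
    change P.ρ (m + 1) + _ ≤ _
    omega

lemma lw_le (m : ℕ) : P.lw t m ≤ 2 * Y u (48 * m + 11) := by
  have := h.hu
  induction m with
  | zero => exact Nat.zero_le _
  | succ m ih =>
    have h1 : 2 * Y u (48 * m + 11) ≤ Y u (48 * (m + 1) + 11) := by tier! (48 * m + 11)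
    have h2 := (h.ρ (m + 1)).1
    have h3 := h.hρ m
    simp only [Num.lw]
    omega

lemma hx_le (m : ℕ) : hx P m ≤ 2 * Y u (48 * m + 11) := by
  have := h.hu
  induction m with
  | zero => exact Nat.zero_le _
  | succ m ih =>
    have h1 : 2 * Y u (48 * m + 11) ≤ Y u (48 * (m + 1) + 11) := by tier! (48 * m + 11)
    have h2 := (h.ρ m).2
    simp only [hx]
    omega

lemma pb2 {a k : ℕ} (ha : a ≤ 2 * Y u k) : Pb u k 2 a :=
  ha.trans (Pb.mul (.num h.hu (by norm_num)) (.tier le_rfl))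

lemma exp_le (k : ℕ) : Real.exp (-(Y u k : ℝ)) ≤ s u (k + 101) := exp_neg_le h.fac

lemma Dp_le {j : ℕ} (hj : j ≤ 101) : D ^ j ≤ Y u 0 := (Nat.pow_le_pow_right D_pos hj).trans
  ((Nat.le_succ _).trans ((Nat.self_le_factorial _).trans h.fac))

theorem nm0 (hW : W.Ok ex ey P.toLf) (hw : WE u G.mt L n S W θ) :
    Nm0 ex ey (lv u P G t x0).toLq P.toLf W.p0 W.E0 W.w W.B x0 θ := by
  obtain ⟨c1, c2, c3, c4⟩ := h.c0
  have hu := h.hu
  have hj := h.j1.le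
  have hm := h.m_le
  have hA := h.A.2
  have h12 : θ ≤ s u 12 := hw.θ1.trans (s_anti (by omega))
  have hs : ∀ a : ℕ, a ≤ Y u 2 → a * θ ≤ 1 := fun a ha =>
    (mul_le_mul_of_nonneg_left h12 (Nat.cast_nonneg a)).trans
      (le_trans (by rtier! 2) (s_le_one u 0))
  have y1 : (1 : ℝ) ≤ Y u 0 := by exact_mod_cast one_le_Y u 0
  refine ⟨h.n1.2, le_rfl, ?_, by simpa using hs 7 (le_trans (by norm_num) (num_le hu 2)), ?_, ?_, ?_,
    ⟨Y_pos u 3, ?_⟩, S, W.q, W.κ, W.Bd, Y u 2, u * D ^ 6, hw.hL.2, clock_b2 hW, h.g1.1,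
    h.g1.2.2.1, ?_, hw.fine, ?_, ?_, ?_, ?_⟩
  · have := h.lW (one_le_Y u 1) (Nat.zero_le _)
    have := h.dl.2.1
    omega
  · have := hs (7 * (27 * (2 * t * P.j1 + x0))) (by tier! 1)
    have := hw.θ0.2
    simp only [lv]
    push_cast at *
    linarith
  · have := h.n1.2
    have h1 : x0 + 2 * ((P.n1 + 1) * (9 * Y u 0) + (P.n1 + 1) * n ^ 2) ≤ Y u 1 := by tier! 0
    refine le_trans ?_ (h1.trans h.j1.ge)
    simp only [lv]
    gcongr
  · refine le_trans (Nat.mul_le_mul_left _ ?_) ((h.lW hm hA).trans h.dl.1)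
    nlinarith [Nat.zero_le (lv u P G t x0).W]
  · simp only [lv]
    rw [← mul_assoc]
    exact Nat.mul_div_le _ _
  · have := h.g1.2.2.2.1
    simp only [lv]
    tier! 1
  · have := hw.hL.1
    have := one_le_Y u 6
    rw [← Y_def]
    omega
  · have := h.g1.2.1
    have h1 : S.η 0 < Y u 6 := by tier! 5
    rw [← Y_def]
    omega
  · have := h.dl.2.2
    have h1 : 4 * (2 * P.r0 + 1) ^ 3 ≤ Y u 6 := by tier! 5
    rw [← Y_def]
    exact h1.trans (le_trans (by have := one_le_Y u 6; omega) (Nat.le_self_pow three_ne_zero _))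
  · have k1 : Rb u 0 1 (G1.Cg W.κ) :=
      .of_le (by have := hW.clock.hκ; unfold G1.Cg; positivity) hw.κ le_rfl
    have k2 := h.g1.2.2.2.2
    have k3 : G1.err W.q (1 / 2) L n W.B ≤ s u 3 := (err_half hW).trans
      ((mul_le_mul_of_nonneg_left hw.er (by norm_num)).trans (by rtier! 3))
    simp only [lv, G1.Cc, Nat.log_one_right, Nat.cast_zero, add_zero, one_pow, mul_one, tsub_self]
    generalize S.K 0 = K at *
    have k4 : ((Y u 2 * (n * (2 * (2 * P.A + (9 * Y u 0 + 27 * (2 * t * P.j1 + x0))) + 1) ^ 3) : ℕ) *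
        (G1.Cg W.κ * (16 * (P.A : ℝ) + 2 * (3 * 10 ^ 6 * K) + 1))) * s u 3 ≤ s u 2 := by rtier! 2
    refine le_trans ?_ k4
    rw [mul_assoc _ _ (s u 3), mul_assoc _ _ (s u 3), add_one_mul, div_eq_mul_inv]
    have := k1.1
    exact mul_le_mul_of_nonneg_left (mul_le_mul_of_nonneg_left (add_le_add le_rfl k3) this)
      (Nat.cast_nonneg _)

/-- the returns of the base leaf. -/
lemma ret (hB : W.B ≤ Y u 11) {R : ℕ} (hR : R ≤ 2 * P.r0) :
    (W.B * ((P.r0 + 1) * (G.n1 * (n * (2 * R + 1) ^ 3 + 1) ^ G.n1 * (n * (2 * R + 1) ^ 3))) : ℕ) *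
      ((Y u 3 * 2 ^ (P.l / Y u 3 + 1) : ℕ) * (2 * s u 2 ^ (P.l1 / (G.n1 * Y u 3)))) ≤ s u 63 ^ 2 := by
  have hu := h.hu
  have hm := h.m_le
  have hn := h.c0.1
  have r5 := h.dl.2.2
  have hR' : Pb u 5 2 R := h.pb2 (hR.trans (Nat.mul_le_mul_left 2 r5))
  have hR6 : R ≤ Y u 6 := hR'.up (by norm_num) (by norm_num)
  have d1 := h.Dp_le (j := 5) (by norm_num)
  have d2 := h.Dp_le (j := 63) (by norm_num)
  have p0 := Nat.mul_pos h.n1.1 (Y_pos u 3)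
  have k1 : D ^ 5 * G.n1 + D ^ 63 ≤ P.l1 / (G.n1 * Y u 3) := (Nat.le_div_iff_mul_le p0).2
    (le_trans (by tier! 3) h.l.2)
  have k2 := Nat.lt_div_mul_add (a := P.l1) p0
  generalize P.l1 / (G.n1 * Y u 3) = k at *
  have k3 : 1 ≤ k := (one_le_Dp 63).trans (le_trans (Nat.le_add_left _ _) k1)
  have k4 : P.l / Y u 3 + 1 ≤ u * D ^ 1 * k := by
    have a1 : P.l / Y u 3 ≤ P.sm * G.n1 * (k + 1) := Nat.div_le_of_le_mul (P.hl.trans
      ((Nat.mul_le_mul_left _ k2.le).trans (le_of_eq (by ring))))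
    have a2 := Nat.mul_le_mul_right (k + 1) h.lg
    have a3 := Nat.mul_le_mul_left u k3
    have a4 := Nat.mul_le_mul_left (u * k) D_ge
    rw [pow_one, mul_right_comm]
    rw [mul_add_one u] at a2
    omega
  have k5 : ((2 ^ (P.l / Y u 3 + 1) : ℕ) : ℝ) * s u 2 ^ k ≤ s u 1 ^ k := by
    have a1 : ((2 ^ (P.l / Y u 3 + 1) : ℕ) : ℝ) ≤ Y u 1 ^ k := by
      rw [Y_def u 1, ← Nat.cast_pow, ← pow_mul]
      exact Nat.cast_le.2 (Nat.pow_le_pow_right two_pos k4)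
    refine (mul_le_mul_of_nonneg_right a1 (pow_pos (s_pos u 2) k).le).trans ?_
    rw [← mul_pow]
    exact pow_le_pow_left₀ (mul_pos (Yr_pos u 1) (s_pos u 2)).le (by rtier! 1) k
  have k6 : (((n * (2 * R + 1) ^ 3 + 1) ^ G.n1 : ℕ) : ℝ) * s u 1 ^ k ≤ s u 64 := by
    have a1 : (n * (2 * R + 1) ^ 3 + 1) ^ G.n1 ≤ Y u 1 ^ (D ^ 5 * G.n1) := by
      rw [pow_mul, ← Y_add]
      exact Nat.pow_le_pow_left (by tier! 5) _
    refine (mul_le_mul (Nat.cast_le.2 a1) (pow_le_pow_of_le_one (s_pos u 1).le (s_le_one u 1) k1)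
      (pow_pos (s_pos u 1) k).le (Nat.cast_nonneg _)).trans (le_of_eq ?_)
    rw [pow_add, ← s_add, Nat.cast_pow, ← mul_assoc, ← mul_pow, mul_comm _ (s u 1), s_mul, one_pow,
      one_mul]
  have k7 : ((W.B * (P.r0 + 1) * G.n1 * (n * (2 * R + 1) ^ 3) * Y u 3 * 2 : ℕ) : ℝ) * s u 64 ≤
      s u 63 ^ 2 := by rtier! 63
  refine le_trans ?_ k7
  calc _ = ((W.B * (P.r0 + 1) * G.n1 * (n * (2 * R + 1) ^ 3) * Y u 3 * 2 : ℕ) : ℝ) *
        ((((n * (2 * R + 1) ^ 3 + 1) ^ G.n1 : ℕ) : ℝ) *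
          (((2 ^ (P.l / Y u 3 + 1) : ℕ) : ℝ) * s u 2 ^ k)) := by push_cast; ring
    _ ≤ _ := mul_le_mul_of_nonneg_left ((mul_le_mul_of_nonneg_left k5 (Nat.cast_nonneg _)).trans k6)
      (Nat.cast_nonneg _)

/-- **all side conditions of the coin events.** -/
theorem nmE {z0 : Tor 3 L} (hO : Tr.Ok (sys n T P z0) G) (hW : W.Ok ex ey P.toLf)
    (hw : WE u G.mt L n S W θ) : NmE ex ey (lv u P G t x0) P G (fun l => s u (48 * l + 63))
      (sys n T P z0).loc W.p0 d W.E0 W.w W.B x0 θ := by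
  obtain ⟨c1, c2, c3, c4⟩ := h.c0
  have hu := h.hu
  have hj := h.j1.le
  have hB := hw.B
  have r1 := h.R_le
  have r2 := h.ρ_le
  have r3 := h.hG.2.2
  have r4 : P.r0 ≤ (sys n T P z0).ρ 0 := P.r0_le
  have r5 := h.dl.2.2
  have r6 := (Nat.mul_pos h.l.1 (Y_pos u 2)).trans_le h.dl.2.1
  have key : ∀ m, (lv u P G t x0).ρm P x0 m ((sys n T P z0).loc m) ≤ Y u (48 * m + 12) := fun m => by
    have := h.pb2 (h.loc_le (T := T) z0 m)
    have := h.pb2 (h.lw_le m)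
    have := h.pb2 (h.hx_le m)
    simp only [Lv.ρm, Lv.Wm, Lv.v, lv]
    tier! (48 * m + 11)
  have y1 : (1 : ℝ) ≤ Y u 0 := by exact_mod_cast one_le_Y u 0
  refine ⟨h.nm0 hW hw, ⟨h.hG.1, h.hG.2.1, le_rfl, r1.trans r3⟩, ⟨?_, ?_⟩, ⟨h.ht, ?_⟩, h.hρ,
    fun m hm => ?_, fun m hm => ⟨?_, ?_⟩, ⟨(s_pos u 2).le, ?_⟩, fun m hm => ?_⟩
  · have := (hO.A 0).2.1
    omega
  · have := hO.rr0
    have := hO.rrσ 0
    omega
  · refine le_trans ?_ ((Nat.le_mul_of_pos_left _ h.l.1).trans h.dl.2.1)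
    simp only [lv]
    tier! 1
  · have a1 := (key m).trans (h.lo m hm)
    have a2 := a1.trans (hO.A m).2.2
    have a3 : G.A m ≤ G.σ m := (Nat.le_mul_of_pos_left _ four_pos).trans
      (Nat.le_mul_of_pos_right _ (Nat.mul_pos (hO.jl m).1 (hO.jl m).2.1))
    have := hO.rr m
    have := hO.rrσ (m + 1)
    exact ⟨(Nat.le_succ _).trans a1, a2, by omega⟩
  · have := h.pb2 (h.lw_le m)
    have := h.pb2 (h.hx_le m)
    have a1 : ((7 * (2 * (2 * t * P.j1 + P.lw t m + hx P m) + 1) ^ 3 : ℕ) : ℝ) * s u (48 * m + 12) ≤ s u 0 := by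
      rtier! (48 * m + 11)
    refine le_trans ?_ (((mul_le_mul_of_nonneg_left (hw.θ1.trans (s_anti (by omega)))
      (Nat.cast_nonneg _)).trans a1).trans (s_le_one u 0))
    simp only [Lv.v, lv]
    push_cast
    exact le_of_eq (by ring)
  · have a1 : θ * (W.w + x0) ≤ 2 * Y u 0 := by
      have b1 : (x0 : ℝ) ≤ Y u 0 := Nat.cast_le.2 c3
      have b2 := mul_le_of_le_one_left (Nat.cast_nonneg (α := ℝ) x0) (hw.θ1.trans (s_le_one _ _))
      linarith [hw.θ0.2]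
    have a2 := mul_le_mul_of_nonneg_left a1
      (by positivity : (0 : ℝ) ≤ 7 * (2 * ((lv u P G t x0).v P m : ℕ) + 1) ^ 3)
    simp only [Lv.v, lv] at a2 ⊢
    push_cast at a2 ⊢
    linarith
  · have a1 := h.ret hB r1
    have a2 : (lv u P G t x0).ρ P.toLf ≤ Y u 6 :=
      (h.pb2 (r2.trans (Nat.mul_le_mul_left 2 r5))).up (by norm_num) (by norm_num)
    have a3 : ((W.B * (n * (2 * (lv u P G t x0).ρ P.toLf + 1) ^ 3) : ℕ) : ℝ) * s u (0 + 101) ≤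
        s u 63 ^ 2 := by rtier! 63
    have a4 : Real.exp ((lv u P G t x0).c - (lv u P G t x0).f) ≤ s u (0 + 101) := by
      refine le_trans (le_of_eq (congrArg _ ?_)) (h.exp_le 0)
      simp only [lv]
      push_cast
      ring
    have a5 := (mul_le_mul_of_nonneg_left a4 (Nat.cast_nonneg _)).trans a3
    have a6 : s u 63 ^ 2 ≤ s u 63 / 4 := by nlinarith [s_le_num hu 63, s_pos u 63]
    exact (add_le_add a5 a1).trans (by linarith [s_pos u 63])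
  · have a1 := key m
    have a2 : Real.exp ((lv u P G t x0).cm m - (lv u P G t x0).fm m) ≤ s u (48 * m + 11 + 101) := by
      refine le_trans (le_of_eq (congrArg _ ?_)) (h.exp_le _)
      simp only [lv]
      push_cast
      ring
    refine (mul_le_mul_of_nonneg_left a2 (Nat.cast_nonneg _)).trans ?_
    rtier! (48 * m + 111)

end TE

/-! ### the objects of `Par/Defs` and the Trotter word -/

lemma te_par (h : Bg n u) (Dw : ℕ) {mt : ℕ} (hm : 0 < mt) (h1 : ck0 + 27 + d ≤ t)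
    (h2 : t ≤ ctm + 1) (h3 : t ≤ Y u 0) (h4 : x0 ≤ Y u 0) :
    TE u (Par.num h Dw 12) (eg u Dw mt) (gs u 1) t d n x0 where
  hu := h.hu
  fac := fac_le h (by norm_num)
  g1 := ⟨(gh_gs u 1).hA h, η0_le h, Nat.mul_le_mul_right _ (by omega), h.a0,
    .of_le ((gh_gs u 1).K0 h).1 (((gh_gs u 1).K0 h).up (by norm_num) one_pos) le_rfl⟩
  lg := le_trans (by change csm * cE ≤ _; nlinarith [Nat.zero_le cE]) h.lg
  c0 := ⟨h.hn, h3, h4, h.E⟩
  n1 := ⟨lt_of_lt_of_le (one_le_Dp 0) (Dp_le_cE (by norm_num)), Nat.le_succ _⟩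
  A := ⟨le_rfl, Y_mono zero_le_one⟩
  j1 := rfl
  l := ⟨ll_pos u, Nat.le_self_pow (by norm_num) _⟩
  dl := ⟨Nat.mul_le_mul_left _ (Nat.le_self_pow (by norm_num) _),
    Nat.mul_le_mul_left _ (Y_mono (by norm_num)), r0_le h⟩
  hG := ⟨hm, rfl, le_rfl⟩
  ht := h1
  hρ := hρ h Dw 12 le_rfl (by omega)
  ρ m := ⟨le_rfl, by
    have := h.hu; have := h.N; have := Sx_le h m
    change cN * (2 * (cS * x u m 12) + 1) ≤ _
    generalize cS * x u m 12 = a at *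
    tier! (48 * m + 24)⟩
  lo _ _ := le_rfl

section word
open M Top
variable [NeZero n] {β Yt : ℝ} {w mt : ℕ} {sy : List (Sl L n × Sl L n × ℝ)}

lemma we_par (h : Bg n u) (hB : Bw β ≤ Y u 11) (W : Wd β w sy) (h2 : Yt < 1)
    (h3 : 1 / (1 - Yt) ≤ L) (hL : Y u (48 * mt + 49) ≤ L) :
    WE u mt L n (gs u 1) (wdT β w sy Yt) (θw n w) := by
  have hu := h.hu
  have k : ∀ i ≤ 48 * mt + 49, Y u i ≤ L := fun i hi => (Y_mono hi).trans hL
  have k2 : ∀ i ≤ 48 * mt + 49, Y u i ≤ L ^ 2 := fun i hi =>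
    (k i hi).trans (Nat.le_self_pow two_ne_zero _)
  refine ⟨⟨le_trans (by tier! 6) (k 7 (by omega)), gs_ok h le_rfl
    (lt_of_lt_of_le (by tier! 48) (k 49 (by omega)))⟩, hB, h.Cg.2.trans_eq (pow_one _),
    W.fine (k2 2 (by omega)), W.er_le h2 h3 ?_, ⟨θw_nn n w, (θw_mul n w).le.trans ?_⟩, ?_⟩
  · rw [one_div]
    exact inv_anti₀ (Yr_pos u 4) (Nat.cast_le.2 (k 4 (by omega)))
  · refine le_trans ?_ (by simpa using h.Cg.2)
    have a1 : (1 : ℝ) ≤ n ^ 2 := one_le_pow₀ (by exact_mod_cast NeZero.one_le)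
    have a2 := le_self_pow₀ (show (1 : ℝ) ≤ 8 * n ^ 2 by linarith) three_ne_zero
    have a3 := Real.one_le_exp (show (0 : ℝ) ≤ 2 * (8 * n ^ 2) by linarith)
    unfold G1.Cg
    nlinarith
  · have := W.θ_le (c := 1) (r := 0) (by norm_num) (k2 (48 * mt + 12) (by omega)) (Nat.zero_le _)
    rw [s, ← one_div, le_div_iff₀ (Yr_pos _ _)]
    simpa using this

/-- **`NmE` on the tiers for the Trotter word.** -/
theorem nmE_par (h : Bg n u) (hB : Bw β ≤ Y u 11) (W : Wd β w sy) (hL : Y u (48 * mt + 49) ≤ L)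
    (hm : 0 < mt) (h1 : ck0 + 27 + d ≤ t) (h2 : t ≤ ctm + 1) (h3 : t ≤ Y u 0) (h4 : x0 ≤ Y u 0)
    {z0 : Tor 3 L} (hO : Tr.Ok (sys n (TT β w sy) (Par.num h (Dw w sy) 12) z0) (eg u (Dw w sy) mt)) :
    NmE (Top.ex β w sy) (Top.ey β w sy) (lv u (Par.num h (Dw w sy) 12) (eg u (Dw w sy) mt) t x0)
      (Par.num h (Dw w sy) 12) (eg u (Dw w sy) mt) (fun l => s u (48 * l + 63))
      (sys n (TT β w sy) (Par.num h (Dw w sy) 12) z0).loc (pp β w sy) d (lay sy).length (w + 1) (Bw β)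
      x0 (θw n w) :=
  (te_par h _ hm h1 h2 h3 h4).nmE hO (W.gl (Y := 1 / 2) rfl le_rfl (by norm_num))
    (we_par h hB W (by norm_num) (by
      have : (3 : ℝ) ≤ L := by exact_mod_cast W.hL
      linarith [show (1 : ℝ) / (1 - 1 / 2) = 2 by norm_num]) hL)

/-- **the model** for the Trotter word. -/
theorem md_par (h : Bg n u) (hB : Y u 10 ≤ Bw β) (W : Wd β w sy) {p : Fin (TT β w sy) → ℝ}
    {E : Ev L n (TT β w sy)} {X0 : Finset (V L n (TT β w sy))} (hp : ∀ s, 0 ≤ p s ∧ p s ≤ 1)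
    (fr : ∀ s, ¬ Gas.tch (Top.ex β w sy) (Top.ey β w sy) E.1 s → p s = pp β w sy s)
    (rp : Rp (Top.ex β w sy) (Top.ey β w sy) p E.1 (E.2 ∪ X0)) (h4 : X0.card ≤ x0) :
    Md (Top.ex β w sy) (Top.ey β w sy) (Par.num h (Dw w sy) 12).toLf p (pp β w sy) E X0
      (lay sy).length (w + 1) (Bw β) x0 (θw n w) :=
  ⟨W.word, W.blk, rfl, ⟨ll_pos u, lt_of_lt_of_le (by
    have := ll_le h; have := h.hu; change ll u < _; tier! 5) hB⟩, hp, fr, rp, h4⟩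

end word

end Crest.Agent.N337.Wk
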