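import Crest.Agent.N337.Par.Gam
import Crest.Agent.N337.Par.Gw

/-!
# Row 337 (helper7): the key estimate over a medium on the tiers (`TkP`)
-/

set_option autoImplicit false

namespace Crest.Agent.N337.Par.Tk

open Crest.Agent.N337.M Crest.Agent.N337.C9 Crest.Agent.N337.Free

variable {n u i j k b : ℕ} {S : G1.Scales} {κ Yw e : ℝ} {A K r : ℕ}

/-- bound of the winding numbers over the medium `j`. -/
def Km (u j : ℕ) : ℕ := Y u (tb (j + 1) + 6) ^ 2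

lemma Km_le (j : ℕ) : Km u j ≤ Y u (tb (j + 1) + 7) :=
  Pb.up (k := tb (j + 1) + 6) (Pb.pow (.tier le_rfl)) (by norm_num) (by omega)

lemma Km_ne (u j : ℕ) : Km u j ≠ 0 := (pow_pos (Y_pos _ _) _).ne'

/-- long loops are rare at the next level. -/
lemma y_Km (hu : 100 ≤ u) (hk : k ≤ tb (j + 1) + 1000) :
    Real.exp (-1 / Tf u (j + 1)) ^ Km u j ≤ s u k := by
  have := tb_eq (j + 1)
  refine le_of_eq_of_le ?_ (exp_Y_le (k := tb (j + 1) + 6) hu (by omega) (by omega))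
  have := Yr_pos u (tb (j + 1) + 6)
  rw [← Real.exp_nat_mul, Tf_ne (by omega), Km]
  congr 1; push_cast; field_simp

/-- the purple fugacity: any number above `exp (- s u k)`, `k` a high tier. -/
lemma L1_of {Yt : ℝ} (hk : tb (j + 1) + 7 ≤ k) (h : Real.exp (-s u k) ≤ Yt) :
    1 ≤ 3 * Yt ^ Km u j := by
  have h1 : (Km u j : ℝ) * s u k ≤ 1 := by
    rw [← s_mul u k, mul_comm]
    exact mul_le_mul_of_nonneg_left (by exact_mod_cast (Km_le j).trans (Y_mono hk)) (s_pos _ _).le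
  have h2 : Real.exp (-1) ≤ Yt ^ Km u j := le_trans (by
    rw [← Real.exp_nat_mul]; exact Real.exp_le_exp.2 (by linarith))
    (pow_le_pow_left₀ (Real.exp_pos _).le h _)
  have h3 : Real.exp 1 * Real.exp (-1) = 1 := by rw [← Real.exp_add]; simp
  nlinarith [Real.exp_one_lt_d9, Real.exp_pos (-1)]

lemma y_le_of {Yt : ℝ} (hk : tb j + 6 ≤ k) (h : Real.exp (-s u k) ≤ Yt) :
    (if j = 0 then 0 else Real.exp (-1 / Tf u j)) ≤ Yt := by
  split_ifs with h0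
  · exact (Real.exp_pos _).le.trans h
  · refine le_trans (Real.exp_le_exp.2 ?_) h
    rw [Tf_ne h0, neg_div, one_div]
    exact neg_le_neg (s_anti hk)

lemma pkN (h : Bg n u) (Dw : ℕ) {Yt ε : ℝ} {d t R R1 Km : ℕ} (h1 : 1 ≤ 3 * Yt ^ Km) (e0 : 0 ≤ ε)
    (hd : d ≤ 100) (ht : t + 1 ≤ ctm) (hR : R ≤ R1) (hK : Km ≠ 0) :
    PkN (num h Dw 12) Yt 3 ε d t ctm R R1 Km :=
  ⟨⟨ll_pos u, by change ck0 + 27 + d ≤ _; unfold ctm; omega, by omega, hρ h Dw 12 _ (by omega),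
    hJ h Dw 12 _ (by omega)⟩, h1, e0, by change ck0 + 27 + d + 1 ≤ ctm; unfold ctm; omega, ht, hR, hK⟩

/-- **`TkM`** over the medium with base tier `k`. -/
theorem tkM (h : Bg n u) (Dw : ℕ) {B m nc R nD Km : ℕ} {ε : ℝ} (hB : B ≤ Y u 11) (hk : 12 < k)
    (hm : 48 * m - 23 < k) (hR : nc * (2 * R + 1) ≤ Y u (k - 1)) (hS : Sk u k S)
    (hκ : Rb u 0 1 (G1.Cg κ)) (hz : zm Yw K ≤ s u (k + 4)) (he : e ≤ s u (k + 4))
    (hK : Km ≤ Y u (k + 1000)) (hε : Sm u (k + 3) 100 (nD * ε)) :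
    TkM (num h Dw 12) S n B κ Yw e 3 ε m ctm nc R nD Km (u * D ^ (k + 5)) K (Y u k) (Y u (k + 3))
      (Y u (k + 4)) (gm u (k + 2)) (gm u (k + 3)) (3 * (gm u (k + 2) + nD * ε)) (3 * s u (k + 6))
      (s u (k + 2)) := by
  have hu := h.hu
  have hA : ∀ i, (num h Dw 12).A ≤ Y u i := fun i => Y_mono (Nat.zero_le i)
  have g2 := sm_gm u (k + 2)
  have g3 := sm_gm u (k + 3)
  refine ⟨?_, one_le_Y _ _, ?_, Y_mono (by omega), ?_,
    γd_le hu (by omega) (hS.mono (by omega)) (hA _) hκ (hz.trans (s_anti (by omega)))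
      (he.trans (s_anti (by omega))) le_rfl (Y_mono (by omega)),
    γd_le hu (by omega) (hS.mono (by omega)) (hA _) hκ hz he le_rfl (Y_mono (by omega)),
    gm_pos _ _, gm_anti (by omega), le_rfl, mul_nonneg (by norm_num) (s_pos _ _).le, ?_⟩
  · have h1 := lw_le' h Dw le_rfl (τ := ctm) (by omega) m
    have h2 := h.tm
    change B * (2 * ctm * Y u 1 + _ + _) ≤ _
    generalize nc * (2 * R + 1) = a at hR
    tier! (k - 1)
  · have := hS.2
    tier! k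
  · have := pb_Vn h (Pb.tier (le_refl (k + 4))) (by norm_num)
    rw [← Y_def]
    tier! (k + 4)
  · have v1 := pb_Vn h (k := k + 2) (r := Y u k + 1) (by p_bd) (by norm_num)
    have v2 := pb_Vn h (k := k + 3) (r := Y u (k + 3) + Y u k + 1) (by p_bd) (by norm_num)
    have e1 : (2 : ℝ) ^ (u * D ^ (k + 5)) = Y u (k + 5) := by rw [Y_def]; push_cast; rfl
    rw [e1]
    exact κc_le hu (by omega) (by omega) le_rfl v1 (one_le_Y _ _) (hK.trans (Y_mono (by omega))) v2 v2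
      (Pb.mono (by p_bd) (by norm_num)) (Sm.mono (by s_bd) (by norm_num))
      (Sm.mono (by s_bd) (by norm_num))
      (((Sm.mul' (k := k + 5) (by r_bd) (by s_bd)).down (by norm_num) (by omega)).mono (by norm_num))

lemma sm_eps {m nD : ℕ} (hD : nD ≤ Y u (48 * m + 53)) (hk : k < 48 * m + 59) :
    Sm u k 0 (nD * eps u m) := by
  unfold eps
  exact Sm.down (k' := 48 * m + 59) (by s_bd) (by norm_num) hk

variable {L T : ℕ} [NeZero L] [NeZero T] {W : Gl.Wd T} {G : Bs T (Tor 3 L × Fin n)}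
  {z z0 : Tor 3 L} {B Dw l nc cap jj : ℕ} {β Yt δ : ℝ} {rt : Rt} {nx : ℕ → ℕ}
  {Gr : Finset (Tor 3 L × Fin n) → Prop}

/-- **the medium of level `j ≥ 1`** (first half of `LadD`), gain `s u (tb j + 2)`. -/
theorem tkP (h : Bg n u) (hj : j ≠ 0) (hB : B ≤ Y u 11) {Q : I.Num} (hQ : Q = num h Dw 12)
    {P : M.Par (Top.Sl L n)} (hP : P = lev n β u rt z l) {hT : T = B * Q.D} {hp : PtN Q.toLf B}
    (tI : rt.tI j + 3 ≤ ctm) (hn : rt.nc ≤ nc) (hn' : rt.nc ≤ Y u 1)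
    (c : Cel (I.ins G.ex G.ey Q z0) G P.Sd Gr (j / 3) Yt δ (eps u (j / 3)) nc cap nx)
    (hR : nx (nx (P.Rc j)) ≤ cap) (hc : cap ≤ x u (j / 3) 13)
    (f : F2A (ppI G Q z0 hT hp) P.Sd Yt 3 (j / 3) nc (nx (nx (P.Rc j))) (nx (nx (nx (P.Rc j))))
      (eps u (j / 3)))
    (g : Gw W G Q S Yt e 4 (j / 3) (P.nv j) (nx (nx (nx (P.Rc j)))) K jj) (H : GH u i S)
    (hm : S.mt ≤ (j - 1) / 3 + 2) (hκ : Rb u 0 1 (G1.Cg W.κ)) (hz : zm W.Y K ≤ s u (tb j + 4))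
    (he : e ≤ s u (tb j + 4)) (hY : Real.exp (-s u (tb (j + 1) + 7)) ≤ Yt) :
    ∃ Y ws near Z κ' ε0 ε q δ η R1 R2 nD Bn n1 n2 k0 Km, P.TkP (I.ins G.ex G.ey Q z0) G j
      (s u (tb j + 2)) Y ws near Z κ' ε0 ε q δ η R1 R2 nD Bn n1 n2 k0 Km := by
  have hu := h.hu
  have e1 := tb_eq j
  have e2 := tb_eq (j + 1)
  have hv : P.nv j ≤ nc := by
    unfold Par.nv; split_ifs; exacts [hP ▸ hn, Nat.zero_le _]
  have hy : (P.lev (I.ins G.ex G.ey Q z0) G).y j ≤ Yt := by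
    subst hP; exact y_le_of (by omega) hY
  have y0 := (P.lev (I.ins G.ex G.ey Q z0) G).y_nn j
  have hA := I.alvH G.ex G.ey Q z0 (P.N j) (j / 3)
  set nD := P.N j * (2 * ((I.sys n T Q z0).loc (j / 3) + 1) + 1) ^ 3 with hnD
  have hD : nD ≤ Y u (48 * (j / 3) + 53) := by subst hP hQ; exact nD_le h le_rfl z0 _
  have hs : P.nv j * (2 * nx (nx (P.Rc j)) + 1) ≤ Y u (tb j - 1) := by
    have := hR.trans hc
    unfold Par.nv; split_ifs
    · subst hP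
      change rt.nc * _ ≤ _
      tier! (48 * (j / 3) + 24)
    · rw [zero_mul]; exact Nat.zero_le _
  have hK := (Km_le (u := u) j).trans (Y_mono (show _ ≤ tb j + 1000 by omega))
  have se := sm_eps (k := tb j + 3) hD (by omega)
  have tI' : P.tI j + 3 ≤ ctm := hP ▸ tI
  subst hQ
  obtain ⟨a1, a2, a3, a4⟩ := tk_fin (Cw := P.Kc (I.ins G.ex G.ey (num h Dw 12) z0) j 2 (nx (nx (P.Rc j))))
    (d := 2) g (pkN h Dw (L1_of le_rfl hY) c.e0 (by norm_num) tI' (c.le _) (Km_ne u j))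
    (tkM h Dw hB (by omega) (by omega) hs (sk h H hm (by omega)) hκ hz he hK (se.mono (by norm_num)))
    hA (f.mono (fun _ a => a) hv le_rfl) (fun _ a => a) (P.σ j)
  have g2 := sm_gm u (tb j + 2)
  refine ⟨Yt, _, _, _, _, _, s u (48 * (j / 3) + 52 + 1), _, _, s u (48 * (j / 3) + 52 + 2), _, _, _, _,
    _, _, _, _, ⟨hy, g.w.Y1.le⟩,
    (c.f1 _ _ _ y0 hy (by omega) (c.r0 hR)).mono (fun _ a => a) hv le_rfl,
    (c.f2 _ _ (by omega) (c.r1 hR)).mono (fun _ a => a) hv le_rfl, hA,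
    ⟨by change ck0 + 27 + 0 + 1 ≤ ctm; unfold ctm; omega, by change _ ≤ ctm; omega, c.le _, c.le _,
      le_rfl⟩, a1, a2, a3, a4, ?_⟩
  subst hP
  change TkN (Tf u j) _ _ _ _ _ _ _ _ _ _ _ _ _ _ _ _
  rw [Tf_ne hj]
  exact tkN' (b := 48 * (j / 3) + 52) hu (by omega) (by omega) (by omega) (one_le_Y _ _) le_rfl hD
    (s_pos _ _) (s_anti (by omega)) c.e0 (s_anti (by omega)) (Pb.mono (by p_bd) (by norm_num))
    (pb_Vn h (r := Y u (tb j + 1) + 2 + Y u (tb j)) (by p_bd) (by norm_num))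
    (pb_Vn h (r := Y u (tb j + 1) + 2 + Y u (tb j + 3)) (by p_bd) (by norm_num)) (Y_def _ _).symm hK
    (mul_pos (by norm_num) (add_pos_of_pos_of_nonneg (gm_pos _ _) se.1))
    (Sm.mono (by s_bd) (by norm_num)) (s_pos _ _).le le_rfl (y_Km hu (by omega))

end Crest.Agent.N337.Par.Tk

namespace Crest.Agent.N337.M.Ctx

open Crest.Agent.N337.Free Crest.Agent.N337.Top Crest.Agent.N337.Par

variable {L n : ℕ} [NeZero L] [NeZero n] {u ms w : ℕ} {β : ℝ} {sy : List (Sl L n × Sl L n × ℝ)}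
  (C : Ctx u ms β w sy) (z : Tor 3 L)

/-- **the media of all levels** (`= C.JT z` from `C.JA z`, `C.JB z`). -/
theorem jt' {hp : C9.PtN C.Q.toLf (Bw β)}
    (hA : ∀ m ≤ ms + 1, ∀ Yp, yl u (3 * m) ≤ Yp → Yp ≤ Yt u ms → C.Cel z m Yp)
    (hB : ∀ m ≤ ms + 1, ∀ Yp d R, 0 ≤ Yp → Yp ≤ Yt u ms → d ≤ 3 → R ≤ Rr u m 30 →
      C9.F2A (C9.ppI (GT β w sy) C.Q z C.hT hp) (PP n u ms β z).Sd Yp d m ((ctm + 1) * ca) R
        (nx u m R) (Par.eps u m)) (j : ℕ) (h1 : 1 ≤ j) (h2 : j ≤ 3 * ms + 3) :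
    ∃ Y ws near Z κ' ε0 ε q δ η R1 R2 nD Bn n1 n2 k0 Km, (PP n u ms β z).TkP (C.I z) (GT β w sy) j
      (s u (tb j + 2)) Y ws near Z κ' ε0 ε q δ η R1 R2 nD Bn n1 n2 k0 Km := by
  have hu := C.hu
  have e1 := tb_eq j
  have e2 := tb_eq (j + 1)
  have r0 : (PP n u ms β z).Rc j ≤ Rr u (j / 3) 3 := by
    unfold Par.Rc; split_ifs; exacts [le_rfl, Nat.zero_le _]
  have r2 : nx u (j / 3) (nx u (j / 3) ((PP n u ms β z).Rc j)) ≤ Rr u (j / 3) 5 :=
    (nx_mono u _ (nx_mono u _ r0)).trans_eq (by rw [nx_Rr, nx_Rr])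
  have r3 := (nx_mono u (j / 3) r2).trans_eq (nx_Rr u _ 5)
  have r4 := r2.trans (Rr_mono u _ (show 5 ≤ 30 by norm_num))
  have t := Rung.tI_le (kd := ck0 + 27) (k := cK) (j := j)
  rw [← ctm_eq] at t
  have key : ∀ mt, mt ≤ (j - 1) / 3 + 2 → C9.Gw C.W (GT β w sy) C.Q (gs u mt) (Yt u ms)
      (s u (tb j + 4)) 4 (j / 3) ((PP n u ms β z).nv j)
      (nx u (j / 3) (nx u (j / 3) (nx u (j / 3) ((PP n u ms β z).Rc j)))) (KL L) (Y u 2) → _ :=
    fun mt hm g => Tk.tkP (G := GT β w sy) C.bg (by omega) C.B2 rfl rfl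
      (show Rung.tI _ _ j + 3 ≤ ctm by omega) le_rfl
      (show (ctm + 1) * ca ≤ _ by have := C.bg.tm; have := C.bg.a; tier! 0)
      (hA (j / 3) (by omega) _ (yl_le (by omega)) le_rfl) r4
      ((Rr_le C.bg (by norm_num)).trans (Sx_le C.bg _))
      (hB (j / 3) (by omega) _ 3 _ C.Yt_nn le_rfl le_rfl r4) g (gh_gs u mt) hm C.cg
      (C.zm (by omega)) le_rfl (Real.exp_le_exp.2 (by
        rw [neg_div, one_div]; exact neg_le_neg (s_anti (by omega))))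
  by_cases h3 : j % 3 = 2
  · exact key (j / 3 + 2) (by omega) (C.gw1 (by omega) C.Yt_nn le_rfl (by norm_num) (by omega)
      (le_of_eq (if_pos h3)) (r3.trans (Rr_mono u _ (by norm_num))))
  · refine key (j / 3 + 1) (by omega) ?_
    rw [show (PP n u ms β z).nv j = 0 from if_neg h3]
    exact C.gw0 (by omega) C.Yt_nn le_rfl (by norm_num) (by omega) _

end Crest.Agent.N337.M.Ctx
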