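import Crest.Agent.N337.Par.LevD
import Crest.Agent.N337.M.Tilt
import Crest.Agent.N337.M.Wd

/-!
# Row 337 (helper80): the top of the chain on the tiers; `FinStmt2` from the levels
-/

set_option autoImplicit false

namespace Crest.Agent.N337.Par

open Finset Filter Crest.Agent.N337.A Crest.Agent.N337.M Crest.Agent.N337.Top
  Crest.Agent.N337.Free

/-- **all levels below the top `3 m + 4`**, top cube of side `x u (m + 1) 27`. -/
def DlvAll : Prop :=
  ∀ (n : ℕ) [NeZero n], ∃ u0 : ℕ, ∀ u, u0 ≤ u → ∀ (h : Bg n u) (β : ℝ), Y u 10 ≤ Bw β →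
    Bw β ≤ Y u 11 → ∀ m : ℕ, ∃ L0 : ℕ, ∀ (L : ℕ) [NeZero L], L0 ≤ L →
      ∀ (sy : List (Sl L n × Sl L n × ℝ)) (w : ℕ), Wd β w sy → ∀ z : Tor 3 L, ∃ r : Rt,
        ∀ j ≤ 3 * m + 3, (lev n β u r z (x u (m + 1) 27)).Dlv
          (insT (num h (Dw w sy) 12) z β w sy) (GT β w sy) j

variable {n u m K : ℕ} {β ε : ℝ}

lemma top_tilt [NeZero n] (h : Bg n u) (hB : Bw β ≤ Y u 11) (hK : K ≤ Y u (48 * m + 11)) {c : ℕ}
    (hc : c ≤ Y u (48 * m + 60)) :
    12 * s u (48 * m + 104) + 110 * (Y u (48 * m + 100) *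
      Real.exp (40 * Kw n β 2 - Y u (48 * m + 12)) + Y u (48 * m + 100) *
        (n * (4 * (c + 1 + (K + 1) * Y u (48 * m + 12)) + 1) ^ 3 * (2 * s u (48 * m + 82) * K)) ^
          (ca + 1)) ≤ s u (48 * m + 99) := by
  have hu := h.hu
  have hn := h.hn
  have a1 : 40 * Kw n β 2 + Y u (48 * m + 11) ≤ Y u (48 * m + 12) := by
    unfold Kw
    change ⌊β⌋₊ + 1 ≤ _ at hB
    generalize ⌊β⌋₊ + 1 = b at hB
    tier! (48 * m + 11)
  have a2 : Real.exp (40 * Kw n β 2 - Y u (48 * m + 12)) ≤ s u (48 * m + 104) :=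
    (Real.exp_le_exp.2 (by
      have : (40 * Kw n β 2 + Y u (48 * m + 11) : ℝ) ≤ Y u (48 * m + 12) := by exact_mod_cast a1
      linarith)).trans (exp_neg_le' (k := 48 * m + 11) h.u4 (by omega))
  have a3 : (n * (4 * (c + 1 + (K + 1) * Y u (48 * m + 12)) + 1) ^ 3 * (2 * K) : ℝ) *
      s u (48 * m + 82) ≤ s u (48 * m + 81) := by rtier! (48 * m + 81)
  have a4 := pow_small (j := 23) (N := ca + 1) (x := n * (4 * (c + 1 + (K + 1) *
      Y u (48 * m + 12)) + 1) ^ 3 * (2 * s u (48 * m + 82) * K))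
    (by have := s_pos u (48 * m + 82); positivity) (le_of_eq_of_le (by ring) a3)
    (by have := Dp_le_cE (j := 23) (by norm_num); unfold ca; omega)
  have a5 : (12 + 220 * (Y u (48 * m + 100) : ℝ)) * s u (48 * m + 104) ≤ s u (48 * m + 99) := by
    rtier! (48 * m + 100)
  have a6 := Yr_pos u (48 * m + 100)
  nlinarith [mul_le_mul_of_nonneg_left a2 a6.le, mul_le_mul_of_nonneg_left a4 a6.le]

lemma top_var (h : Bg n u) (hK : K ≤ Y u (48 * m + 11)) :
    s u (48 * m + 82) * (c1 * (1 + c1)) * (n * K + n ^ 2 * (2 * Y u (48 * m + 80) + 1) ^ 3 +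
      s u (48 * m + 99) * n ^ 2 * (Y u (48 * m + 86) : ℝ) ^ 3) ≤ s u (48 * m + 11) := by
  have hu := h.hu
  have hn := h.hn
  have a1 : (n ^ 2 * (Y u (48 * m + 86) : ℝ) ^ 3) * s u (48 * m + 99) ≤ s u 0 := by
    rtier! (48 * m + 86)
  have a2 : (4000 * (1 + 4000) * (n * K + n ^ 2 * (2 * Y u (48 * m + 80) + 1) ^ 3 + s u 0) : ℝ) *
      s u (48 * m + 82) ≤ s u (48 * m + 11) := by rtier! (48 * m + 80)
  have a3 := s_pos u (48 * m + 82)
  unfold c1
  nlinarith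

/-- **the top.** -/
theorem fin2_of (H : DlvAll) : FinStmt2 := by
  intro n _
  obtain ⟨u0, H⟩ := H n
  obtain ⟨u1, h1⟩ := eventually_atTop.1 (ev_Bg n)
  obtain ⟨B0, hB0⟩ := exists_u 10 (max u0 u1)
  refine ⟨max 1 B0, fun β hβ K ε hε => ?_⟩
  have β1 : 1 ≤ β := (le_max_left _ _).trans hβ
  obtain ⟨u, u2, b1, b2⟩ := hB0 (Bw β) (Nat.cast_le.1
    (((le_max_right _ _).trans hβ).trans (lt_Bw β).le))
  have h := h1 u ((le_max_right _ _).trans u2)
  have hu := h.hu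
  have hn := h.hn
  obtain ⟨m, m1, m2⟩ : ∃ m : ℕ, K ≤ m ∧ ε⁻¹ ≤ m :=
    ⟨max K ⌈ε⁻¹⌉₊, le_max_left _ _, (Nat.le_ceil _).trans (Nat.cast_le.2 (le_max_right _ _))⟩
  have m3 : m ≤ Y u (48 * m + 11) := le_trans (by omega) (self_le_Y hu _)
  have hK := m1.trans m3
  have he : s u (48 * m + 11) ≤ ε := by
    rw [s]; exact inv_le_of_inv_le₀ hε (m2.trans (Nat.cast_le.2 m3))
  obtain ⟨L0, H⟩ := H u ((le_max_left _ _).trans u2) h β b1 b2 m
  have t1 : Tf u (3 * m + 3 + 1) = Y u (48 * m + 85) := by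
    rw [Tf_ne (by omega), tb_eq]; congr 2; omega
  have t2 : Tf u (3 * m + 3) = Y u (48 * m + 49) := by
    rw [Tf_ne (by omega), tb_eq]; congr 2; omega
  have t3 : 1 / (Y u (48 * m + 85) : ℝ) = s u (48 * m + 85) := one_div _
  have p := s_pos u (48 * m + 82)
  have q := (s_anti (u := u) (show 48 * m + 11 ≤ 48 * m + 82 by omega)).trans he
  refine ⟨3 * m + 3, m, x u (m + 1) 27, Y u (48 * m + 80), Tf u, s u (48 * m + 82),
    s u (48 * m + 99), Tf_zero, Tf_step, ?_, q, ?_, rfl, ?_, ?_, ?_, (top_var h hK).trans he,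
    (Wd.ev (n := n) β1 L0).mono fun L hL sy hs => (hL.2 sy hs).mono fun w W z => ?_⟩
  · have : (1 : ℝ) * s u (48 * m + 85) ≤ s u (48 * m + 82) ^ 2 := by rtier! (48 * m + 82)
    rw [t1, t3]; nlinarith
  · have a1 : Bw β * Y u (48 * m + 11) * Y u (48 * m + 85) ≤ Y u (48 * m + 86) := by
      tier! (48 * m + 85)
    have a2 : (Bw β * Y u (48 * m + 11) * Y u (48 * m + 85) : ℝ) ≤ Y u (48 * m + 86) := by
      exact_mod_cast a1
    have a3 := s_pos u (48 * m + 85)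
    have a4 := s_pos u (48 * m + 11)
    rw [t1]
    calc β ≤ Bw β * (s u (48 * m + 11) * Y u (48 * m + 11)) *
          (s u (48 * m + 85) * Y u (48 * m + 85)) := by
          rw [s_mul, s_mul, mul_one, mul_one]; exact (lt_Bw β).le
      _ = s u (48 * m + 11) * s u (48 * m + 85) *
          (Bw β * Y u (48 * m + 11) * Y u (48 * m + 85)) := by ring
      _ ≤ _ := mul_le_mul (by rw [t3]; gcongr) a2 (by positivity) (by positivity)
  · have : (K : ℝ) * s u (48 * m + 82) ≤ s u 0 := by rtier! (48 * m + 11)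
    linarith [s_le_num hu 0]
  · have : (Y u (48 * m + 49) : ℝ) * s u (48 * m + 82) ≤ s u 0 := by rtier! (48 * m + 49)
    rw [t2]; linarith [s_le_one u 0]
  · rw [t2]; rtier! (48 * m + 11)
  · obtain ⟨r, H⟩ := H (L + 1) hL.1 sy w W z
    have e1 : (3 * m + 3 + 1) / 3 = m + 1 := by omega
    have l0 := fun k => (pb_loc (T := TT β w sy) h (Dw w sy) 12 le_rfl z k).up (k' := 48 * k + 12)
      (by norm_num) (by omega)
    refine ⟨num h (Dw w sy) 12, lev n β u r z (x u (m + 1) 27), Y u (48 * m + 12), ca, rfl, ?_,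
      (s_pos _ _).le, rfl, ?_, H, Nat.le_mul_of_pos_left _ (by omega), ?_, ?_⟩
    · change Y u _ = _
      rw [tb_eq]; congr 1; omega
    · change _ ≤ Y u _
      tier! (48 * m + 86)
    · have := l0 m
      refine le_trans ?_ (Nat.le_mul_of_pos_left (x u m 12) (by positivity))
      change _ + (I.sys n (TT β w sy) (num h (Dw w sy) 12) z).loc m ≤ _
      tier! (48 * m + 12)
    · have := top_tilt h b2 hK (l0 (m + 1))
      change 12 * s u _ + 110 * ((Y u _ : ℕ) * _ + (Y u _ : ℕ) * _) ≤ _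
      rw [e1]
      exact this

end Crest.Agent.N337.Par
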