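import Crest.Agent.N337.Par.ExcF
import Crest.Agent.N337.Par.Nu
import Crest.Agent.N337.M.CelI

/-!
# Row 337 (helper49): the word seen by G1 on the final objects; joint (F) from (A), (B)
-/

set_option autoImplicit false
set_option linter.unusedSectionVars false

namespace Crest.Agent.N337.M.Ctx

open Crest.Agent.N337.Free Crest.Agent.N337.Top Crest.Agent.N337.Par

variable {n u ms w L : ℕ} {β : ℝ} [NeZero L] [NeZero n] {sy : List (Sl L n × Sl L n × ℝ)}
  (C : Ctx u ms β w sy)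

/-- exponent of the ball of the zero mode. -/
def KX (u ms : ℕ) : ℕ := u * D ^ (48 * ms + 900)

lemma two_KX (u ms : ℕ) : 2 ^ KX u ms = Y u (48 * ms + 900) := (Y_def _ _).symm

include C

/-- the zero mode is below every tier in use. -/
lemma zmX {k : ℕ} (hk : k ≤ 48 * ms + 898) : C9.zm (Yt u ms) (KX u ms) ≤ s u k := by
  have hu := C.hu
  have h1 : (2 : ℝ) ≤ (lt u ms : ℕ) := by exact_mod_cast two_le_Y hu _
  have h4 := Yt_lt u ms
  have h2 : 4 / (1 - Yt u ms) ≤ 8 * (lt u ms : ℕ) := by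
    rw [div_le_iff₀ (by linarith)]
    set t : ℝ := ((lt u ms : ℕ) : ℝ)
    have h5 : Yt u ms * (1 + 1 / t) ≤ 1 := by
      rw [Yt, neg_div, Real.exp_neg, inv_mul_le_iff₀ (Real.exp_pos _), mul_one, add_comm]
      exact Real.add_one_le_exp _
    have h6 := half_le_Yt hu ms
    have h7 : 1 / t * t = 1 := one_div_mul_cancel (by linarith)
    have h8 : 0 < 1 / t := by positivity
    nlinarith
  have h3 : Rb u (48 * ms + 899) 2 (8 * ((lt u ms : ℕ) : ℝ)) := by
    apply Rb.mono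
    · r_bd
    · norm_num
  have h5 : Y u (48 * ms + 900) ≤ (2 * (2 ^ KX u ms - 1) + 1) ^ 3 := by
    have := one_le_Y u (48 * ms + 900)
    rw [two_KX]
    exact le_trans (by omega) (Nat.le_self_pow three_ne_zero _)
  exact (div_le_div_of_nonneg_right h2 (Nat.cast_nonneg _)).trans
    ((Sm.divn h3 h5 (by omega)).le1 (by norm_num) (by omega))

/-- **the word seen by G1**, without (`mt = m + 1`) or with (`mt = m + 2`) a cover. -/
theorem gwX {m mt d nc R k : ℕ} {Yp : ℝ} (hm : m ≤ ms + 1) (hd : d ≤ 4) (h0 : 0 ≤ Yp)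
    (h1 : Yp ≤ Yt u ms) (hk : k ≤ 48 * ms + 1000)
    (h : mt = m + 1 ∧ nc = 0 ∨ mt = m + 2 ∧ nc ≤ (ctm + 1) * ca ∧ R ≤ Rr u m 37) :
    C9.Gw C.W (GT β w sy) C.Q (gs u mt) Yp (s u k) d m nc R (KX u ms) (Y u 2) := by
  have hu := C.hu
  have hb := C.bg
  have a0 : 1 ≤ mt ∧ mt ≤ ms + 3 := by omega
  have a1 : 2 * Y u (48 * mt) < L := lt_of_lt_of_le (by tier! (48 * mt)) (C.le_L (k := 48 * mt + 1) (by omega))
  have a2 : (ctm + 2) * ca ≤ cqf := by
    have := Nat.mul_le_mul_right ca (show ctm + 2 ≤ 27 * (ctm + 1) by omega)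
    rw [mul_assoc] at this
    unfold cqf cN0 cN; omega
  have a3 := one_le_Y u (48 * ms + 900)
  refine ⟨C.wr h0 h1, C.wd.nu ((gh_gs u mt).nu0 hb _ (Nat.add_le_add_left one_le_two _)
    ((show 4 ≤ 10 ^ 30 by norm_num).trans (num_le hu 1)) (gs_ok hb a0.1 a1)) le_rfl _,
    ⟨show ck0 + 27 + d ≤ ctm + 1 by unfold ctm; omega, fun l _ => ⟨a2,
      (rad_le hb _ 12 le_rfl (show ctm + 1 ≤ _ by omega)).trans (Sx_le hb l), ?_⟩,
      h.imp id fun h => ⟨h.1, h.2.1.trans (le_trans (Nat.mul_le_mul_right _ (by omega)) a2),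
        h.2.2.trans ((Rr_le hb le_rfl).trans (Sx_le hb m))⟩, fun l hl => ?_⟩, ?_, C.er hk⟩
  · have := hb.tm
    change 4 * x u l 15 + 3 * (ctm + 1) * x u l 20 ≤ x u (l + 1) 0
    tier! (48 * l + 11 + 20)
  · have b1 := (gh_gs u mt).η_le hb l
    have b2 : l < mt := hl
    have b3 : (gs u mt).η l < Y u (48 * ms + 900) := by tier! (48 * l + 5)
    rw [two_KX]; omega
  · have b1 : 2 * Y u (48 * ms + 900) < Y u (48 * ms + 1000) := by tier! (48 * ms + 900)
    have := C.hL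
    rw [two_KX]; omega

theorem xcX : C.XC := fun m hm => ⟨_, _, C.gwX hm (by omega)
  (le_trans (by norm_num) (half_le_Yt C.hu ms)) le_rfl (by omega)
  (.inr ⟨rfl, le_rfl, Rr_mono u m (by omega)⟩), C.zmX (by omega)⟩

/-- **joint (F)** from the cell claims and `F2A`. -/
theorem jf (z : Tor 3 L) (hA : C.JA z) (hB : C.JB z) : C.JF z := C.jf_of z hA hB C.xcX

end Crest.Agent.N337.M.Ctx
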