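import Crest.Agent.N337.Par.Lad
import Crest.Agent.N337.Par.GwX

/-!
# Row 337 (helper62): joint (E)
-/

set_option autoImplicit false
set_option linter.unusedSectionVars false

namespace Crest.Agent.N337.M.Ctx

open Crest.Agent.N337.Free Crest.Agent.N337.Top Crest.Agent.N337.Par

variable {n u ms w L j : ℕ} {β : ℝ} [NeZero L] [NeZero n] {sy : List (Sl L n × Sl L n × ℝ)}
  (C : Ctx u ms β w sy) (z : Tor 3 L)

lemma jg (hj : j ≤ 3 * ms + 3) : Lad.JG C j := by
  have e := tb_eq j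
  refine ⟨_, _, _, C.gwX (k := tb j + 3) (by omega) (by omega)
    (le_trans (by norm_num) (half_le_Yt C.hu ms)) le_rfl (by omega) ?_, C.zmX (by omega), le_rfl⟩
  rcases Nat.eq_zero_or_pos ((j + 1) / 3) with h | h
  · exact .inr ⟨by omega, Nat.zero_le _, Nat.zero_le _⟩
  · exact .inl ⟨by omega, rfl⟩

/-- the media of all levels (first half of `LadD`). -/
def JT : Prop := ∀ j, 1 ≤ j → j ≤ 3 * ms + 3 → ∃ Y ws near Z κ' ε0 ε q δ η R1 R2 nD Bn n1 n2 k0 Km,
  (PP n u ms β z).TkP (C.I z) (GT β w sy) j (s u (tb j + 2)) Y ws near Z κ' ε0 ε q δ η R1 R2 nD Bn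
    n1 n2 k0 Km

/-- **joint (E)** from the cell claims and the media. -/
theorem je_of (hA : C.JA z) (hB : C.JB z) (hC : C.JC z) (hT : C.JT z) : C.JE z :=
  fun j h1 h2 => ⟨hT j h1 h2, Lad.ladH2 C z (by omega) h2 hA hB hC (C.jg h2)⟩

end Crest.Agent.N337.M.Ctx
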