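import Crest.Agent.N337.M.Fin0
import Crest.Agent.N337.Ld.Cov
import Crest.Agent.N337.Rg.Vis
import Crest.Agent.N337.Par.Sm

/-!
# Row 337 (helper80): the boxes of the levels `3 m + 3` on the tiers
-/

set_option autoImplicit false
set_option linter.unusedSectionVars false

namespace Crest.Agent.N337.M.Bp

open Finset Crest.Agent.N337.Free Crest.Agent.N337.Gas Crest.Agent.N337.A Crest.Agent.N337.Top
  Crest.Agent.N337.Par Crest.Agent.N337.Ld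

lemma Rr_le13 {n u : ℕ} (h : Bg n u) (m : ℕ) {i : ℕ} (hi : i ≤ 37) : Rr u m i ≤ x u m 13 :=
  (Rr_le h hi).trans (Sx_le h m)

lemma rad_le_Rr {n u : ℕ} (h : Bg n u) (Dw m : ℕ) {t : ℕ} (ht : t ≤ ctm + 1) (i : ℕ) :
    (Par.num h Dw 12).rad m t ≤ Rr u m i :=
  Nat.mul_le_mul_right _ (Nat.pow_le_pow_right (Nat.succ_pos _) (by omega))

variable {L n : ℕ} [NeZero L] [NeZero n] {u ms w j m : ℕ} {β : ℝ}
  {sy : List (Sl L n × Sl L n × ℝ)} (C : Ctx u ms β w sy) (z : Tor 3 L)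

lemma slN {d : ℕ} (hd : d ≤ 13) : C9.SlN C.Q d C.Q.tm (ctm + 13) :=
  ⟨ll_pos u, by change ck0 + 27 + d ≤ _; unfold ctm; omega, Nat.le_add_right _ _,
    hρ C.bg _ 12 _ le_rfl, hJ C.bg _ 12 _ le_rfl⟩

lemma loc_le (m : ℕ) : (C.I z).S.loc m ≤ Y u (48 * m + 12) :=
  (pb_loc C.bg _ 12 le_rfl z m).up (by norm_num) (by omega)

/-- anchors within `Y u k` of a cell of scale `m`. -/
theorem anc {d r k : ℕ} (hd : d ≤ 13) (hr : r ≤ Y u k) (hk : 48 * m - 23 < k ∧ 11 < k)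
    (Sd : Finset (Fin (TT β w sy) × Sl L n) → Prop) :
    Anc (C.I z) (GT β w sy) Sd d m r (Y u (k + 1)) := by
  have hu := C.hu
  have hn := C.bg.hn
  have hB := C.B2
  have h1 : Rg.vv C.Q (ctm + 13) m ≤ Y u k := by
    simpa only [one_mul, Rg.vv] using speed_le C.bg (Dw w sy) (B := 1) le_rfl le_rfl (one_le_Y _ _) hk
  refine (Rg.anc (G := GT β w sy) (z0 := z) C.wd.nn C.hT (slN C hd) m r).mono (fun _ h => h)
    le_rfl ?_
  unfold C9.Vn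
  generalize Rg.vv C.Q (ctm + 13) m = v at h1
  tier! k

theorem alv (m : ℕ) : AlvH (C.I z) (Y u (48 * m + 52)) m (Y u (48 * m + 53)) :=
  (I.alvH _ _ C.Q z _ m).mono le_rfl (nD_le C.bg le_rfl z m)

/-- **the boxes.** -/
theorem bxP (h3 : j % 3 = 2) (c : C.Cel z (j / 3) (yl u (j + 1))) {nD' : ℕ} {ε' π0 : ℝ}
    (h1 : nD' ≤ Y u (48 * (j / 3) + 101)) (h2 : 0 ≤ ε' ∧ ε' ≤ Par.eps u (j / 3 + 1))
    (hπ : 0 ≤ π0 ∧ π0 ≤ s u (tb j)) :
    (PP n u ms β z).BxP (C.I z) (GT β w sy) j ((PP n u ms β z).tB (j + 1) 27 cK) nD' ε' π0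
      (ck0 + 27) (Rr u (j / 3) 0) (Rr u (j / 3) 1) (Rr u (j / 3) 2) (Rr u (j / 3) 3)
      (Y u (48 * (j / 3) + 53)) (Y u (48 * (j / 3) + 27)) 1 (Par.eps u (j / 3)) := by
  have hu := C.hu
  have hn := C.bg.hn
  have e1 : (j + 1) / 3 = j / 3 + 1 := by omega
  have e2 := tb_eq j
  have l1 := loc_le C z (j / 3)
  have t1 : (PP n u ms β z).tB (j + 1) 27 cK + 10 = ctm := ctm_eq ▸ Rung.tB_two h3
  have t2 : ck0 + 27 + 14 ≤ ctm := ctm_eq ▸ Rung.kd_le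
  have t3 := C.bg.tm
  have p1 : Par.Sm u (48 * (j / 3) + 59) 0 (Par.eps u (j / 3)) := .s (by omega)
  generalize (PP n u ms β z).tB (j + 1) 27 cK = t at t1 ⊢
  have t4 : t ≤ Y u 0 := by omega
  refine ⟨pi_surj _ _ _ _, fun B hB => ⟨(card_diam hB).trans ?_, fun Z =>
    (few_box _ _ _ _ hB ?_ Z).mono le_rfl ?_⟩, alv C z _, anc C z (by omega) ?_ (by omega) _,
    fun W hW => ?_, Rung.rom (k := cK) ctm_eq (by omega) ?_ (Rr_mono _ _ (by omega))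
      (Rr_mono _ _ (by omega)) (Rr_mono _ _ (by omega)), ?_, le_rfl, Rung.le_tI,
    rad_le_Rr C.bg (Dw w sy) _ (by omega) 0, le_rfl, Y_mono (by omega), ?_, ?_⟩
  · change n * (2 * Y u _ + 1) ^ 3 ≤ Y u _
    tier! (48 * (j / 3) + 51)
  · change Y u _ + (C.I z).S.loc (j / 3) + 1 + 3 * t * x u _ 20 ≤ x u _ 0
    tier! (48 * (j / 3) + 51)
  · change (2 * (Y u _ + (C.I z).S.loc (j / 3) + 1) + 1) ^ 3 ≤ _
    tier! (48 * (j / 3) + 51)
  · have := Rr_le13 C.bg (j / 3) (i := 3) (by omega)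
    tier! (48 * (j / 3) + 24)
  · have := c.eK (R := Rr u (j / 3) 0) (by rw [nx_Rr, nx_Rr]; exact Rr_mono _ _ (by omega))
      (yl_nn u j) (yl_mono u (Nat.le_succ j)) (fun g => ⟨(hW g).1, (hW g).2.1⟩)
      fun h0 => Ctx.thin hW (by omega) (by omega)
    rwa [nx_Rr, nx_Rr, nx_Rr] at this
  · change _ ≤ Rung.tm (ck0 + 27) cK - 2
    rw [← ctm_eq]; omega
  · rw [one_mul]; exact Nat.mul_le_mul_right _ (by omega)
  · have p2 : Par.Sm u (48 * (j / 3) + 106) 0 ε' := .of_le h2.1 h2.2 (by omega)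
    have p3 : Par.Sm u (48 * (j / 3) + 30) 0 π0 := .of_le hπ.1 hπ.2 (by omega)
    have a1 : (Y u (48 * (j / 3) + 52) : ℝ) * (3 * Y u (48 * (j / 3) + 53) * Par.eps u (j / 3)) ≤
        1 / 10 ^ 30 := by sm! (48 * (j / 3) + 59)
    have a2 : (Y u (48 * ((j + 1) / 3) + 52) : ℝ) * (3 * nD' * ε') ≤ 1 / 10 ^ 30 := by
      sm! (48 * (j / 3) + 106)
    have a3 : (ctm + 1) * ca ≤ Y u 1 := by
      have := C.bg.a
      generalize ctm = a, ca = b at *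
      tier! 0
    have a4 : (((ctm + 1) * ca : ℕ) : ℝ) * Y u (48 * (j / 3) + 27) * π0 ≤ 1 / 10 ^ 30 := by
      generalize (ctm + 1) * ca = a at a3
      sm! (48 * (j / 3) + 30)
    exact (add_le_add a1 (add_le_add a2 a4)).trans (by norm_num)
  · have a1 : 4 * (Y u (48 * (j / 3) + 52) : ℝ) * (Y u (48 * (j / 3) + 52) *
        (3 * Y u (48 * (j / 3) + 53) * Par.eps u (j / 3))) ≤ 1 / 10 ^ 30 := by sm! (48 * (j / 3) + 59)
    exact a1.trans (by norm_num)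

end Crest.Agent.N337.M.Bp
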