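import Crest.Agent.N337.E.Num
import Crest.Agent.N337.Par.Y

/-!
# Row 337 (helper14): the numbers of the engine on the tiers
-/

set_option autoImplicit false
set_option linter.unusedSectionVars false

namespace Crest.Agent.N337.En

open Finset Crest.MathPhysics.SpinModel Rg Tr Par

/-- logarithms of higher tiers. -/
lemma lg_le {u k k' : ℕ} (hu : 100 ≤ u) (hk : 1 ≤ k) (hk' : k' ≤ k + 1000) :
    Pb u k 2 (u * D ^ k') := by
  have h2 : D ^ 1000 ≤ Y u k := by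
    rw [Y_def]
    calc D ^ 1000 ≤ (2 ^ 20) ^ 1000 := Nat.pow_le_pow_left (by rw [D_eq]; norm_num) _
      _ = 2 ^ (20 * 1000) := (pow_mul _ _ _).symm
      _ ≤ _ := Nat.pow_le_pow_right two_pos (le_trans (le_trans (by rw [D_eq]; norm_num)
        (Nat.le_self_pow (by omega) D)) (Nat.le_mul_of_pos_left _ (by omega)))
  calc u * D ^ k' ≤ u * D ^ (k + 1000) := Nat.mul_le_mul_left _ (Nat.pow_le_pow_right D_pos hk')
    _ = u * D ^ k * D ^ 1000 := by rw [pow_add, mul_assoc]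
    _ ≤ _ := by rw [pow_two]; exact Nat.mul_le_mul (lg_lt u k).le h2

/-- a polynomial times a high power of the small number of the same tier. -/
lemma sm0 {u k e j : ℕ} {r : ℝ} (h : Rb u k e r) (he : e + 1 ≤ j) : r * s u k ^ j ≤ s u k := by
  obtain ⟨i, rfl⟩ := Nat.exists_eq_add_of_le he
  have h0 := s_pos u k
  have h1 : r * s u k ^ e ≤ 1 := (mul_le_mul_of_nonneg_right h.2 (by positivity)).trans_eq
    (by rw [← mul_pow, mul_comm, s_mul, one_pow])
  rw [show r * s u k ^ (e + 1 + i) = r * s u k ^ e * s u k ^ i * s u k by ring]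
  exact mul_le_of_le_one_left h0.le (mul_le_one₀ h1 (by positivity) (pow_le_one₀ h0.le (s_le_one _ _)))

lemma s_up {u k k' j : ℕ} (hk : k < k') (hj : j ≤ 1000000) : s u k' ≤ s u k ^ j := by
  have := Rb.sm (u := u) (k := k) (k' := k') (j := j) (i := k) (e := 0) (r := 1)
    ⟨zero_le_one, (pow_zero _).ge⟩ (by omega) hk le_rfl
  rwa [one_mul] at this

/-- tier of `1 / v l`. -/
def tv : ℕ → ℕ
  | 0 => 5
  | l + 1 => 48 * l + 20

lemma tv_ge (l : ℕ) : l + 4 ≤ tv l ∧ 48 * l ≤ tv l + 28 ∧ tv l ≤ 48 * l + 5 := by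
  cases l <;> simp only [tv] <;> omega

lemma tv_lt (l : ℕ) : tv l < tv (l + 1) := by cases l <;> simp only [tv] <;> omega

/-- the data on the tiers. -/
noncomputable def Pd.tier (u B J : ℕ) (dd : ℕ → ℕ) (γ : ℕ → ℝ) (γ0 : ℝ) (η : ℕ → ℝ) : Pd :=
  ⟨B, J, dd, γ, γ0, η, fun l => s u (48 * l + 62), fun l => s u (tv l) ^ 200,
    fun l => s u (48 * l + 61)⟩

variable {L : ℕ} {α κ : Type} [SemilatticeSup α] [Preorder κ] (S : Sys (Tor 3 L) α κ) (G : Eg)

/-- **position of the parameters on the tiers** (`x m i = Y u (48 m + 11 + i)`). -/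
structure Ti (u n T B J : ℕ) (dd : ℕ → ℕ) (γ : ℕ → ℝ) (γ0 : ℝ) (η : ℕ → ℝ) : Prop where
  hu : 100 ≤ u
  hn : 0 < n ∧ n ≤ Y u 0
  mt : 0 < G.mt
  Q : 2 ≤ G.Q ∧ G.Q ≤ Y u 0
  hL : ∀ m ≤ G.mt, 4 * G.rr m < L
  hB : (univ.filter fun s : Fin T => G.D ∣ s.val).card ≤ B ∧ 1 ≤ B ∧ B ≤ Y u 11
  hJ : J ≤ u * D ^ (48 * G.mt + 100)
  har : D ^ 50 ≤ ar S
  n1 : D ^ 57 ≤ G.n1
  jl : ∀ l, D ^ 90 ≤ G.jl l ∧ G.jl l ≤ Y u 0
  r0 : G.r0 ≤ Y u 5
  ρ : ∀ l, S.ρ l ≤ Y u (48 * l + 11)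
  A : ∀ l, 1 ≤ G.A l ∧ G.A l ≤ Y u (48 * l + 18)
  Ns : ∀ l, G.Ns l = Y u (48 * l + 19)
  kp : ∀ l, G.kp l ≤ Y u (48 * l + 25)
  Rl : ∀ l, G.Rl l ≤ Y u (48 * l + 27) ∧ 1 ≤ dd (l + 1) ∧ dd (l + 1) ≤ G.Rl l
  dd0 : 1 ≤ dd 0 ∧ dd 0 ≤ Y u 19
  hγ : ∀ l, 0 ≤ γ l ∧ γ l ≤ s u (tv l + 1)
  hγ0 : 0 ≤ γ0 ∧ γ0 ≤ s u 6
  hη : ∀ l, η l ≤ s u (48 * l + 63)

variable {S G} {u n T B J : ℕ} {dd : ℕ → ℕ} {γ η : ℕ → ℝ} {γ0 : ℝ}

namespace Ti
variable (h : Ti S G u n T B J dd γ γ0 η)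
include h

lemma σ_le (l : ℕ) : G.σ l ≤ Y u (48 * l + 20) := by
  have hu := h.hu; have := (h.A l).2; have := (h.jl l).2
  rw [Eg.σ, h.Ns]
  tier! (48 * l + 19)

lemma le_σ (l : ℕ) : 4 * Y u (48 * l + 19) ≤ G.σ l := by
  rw [Eg.σ, h.Ns]
  exact Nat.mul_le_mul (Nat.le_mul_of_pos_right _ (h.A l).1) (Nat.le_mul_of_pos_right _
    ((one_le_Dp _).trans (h.jl l).1))

/-- the price of the tags. -/
lemma tag (l : ℕ) :
    1 + (G.Q : ℝ) ^ (l + 1) * (Pd.tier u B J dd γ γ0 η).Wf n l ≤ Y u (48 * l + 28) := by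
  have hu := h.hu; have := h.hn.2; have := (h.Rl l).2.2.trans (h.Rl l).1; have := tv_ge l
  have h1 : G.Q ^ (l + 1) ≤ Y u (l + 1) := pow_pow_le h.Q.2 (lt_Dp _).le
  change 1 + _ * ((2 * n * (2 * dd (l + 1)) ^ 3) ^ 32 / s u (tv l) ^ 200) ≤ _
  rw [s, inv_pow, div_inv_eq_mul, ← Nat.cast_pow]
  generalize G.Q ^ (l + 1) = q at h1
  rtier! (48 * l + 27)

lemma tm_le (m : ℕ) :
    (Pd.tier u B J dd γ γ0 η).tm' S G n m ≤ Y u (48 * m + 61) * s u (48 * m + 110) := by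
  have hu := h.hu; have := h.hn.2; have := h.hB.2.2; have := h.σ_le m; have := h.ρ (m + 1)
  have h0 := s_pos u (48 * m + 110)
  have a1 : (B : ℝ) * n * vol (G.σ m) ≤ Y u (48 * m + 60) := by unfold vol; rtier! (48 * m + 20)
  have a2 : (Y u (48 * m + 110) : ℝ) ≤ 2 ^ G.Ns m := by
    rw [Y_def, h.Ns]; push_cast
    exact pow_le_pow_right₀ one_le_two ((lg_le (k := 48 * m + 18) hu (by omega) (by omega)).up
      (by norm_num) (by omega))
  have a3 : (10 ^ 5 * B * n * vol (G.σ m) * s u (48 * m + 20) ^ 200) ^ G.jl m ≤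
      s u (48 * m + 20 + 90) := by
    refine pow_small (by have := s_pos u (48 * m + 20); positivity) ?_ (h.jl m).1
    unfold vol; apply sm0; (· r_bd); norm_num
  have a4 : (B : ℝ) * n * vol (G.σ m) / 2 ^ G.Ns m ≤ Y u (48 * m + 60) * s u (48 * m + 110) :=
    mul_le_mul a1 (inv_anti₀ (Yr_pos _ _) a2) (by positivity) (by positivity)
  have a5 : (vol (2 * S.ρ (m + 1)) : ℝ) * (2 + Y u (48 * m + 60)) ≤ Y u (48 * m + 61) := by
    unfold vol; rtier! (48 * m + 60)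
  refine le_trans (mul_le_mul_of_nonneg_left (add_le_add (add_le_add le_rfl a4) a3)
    (Nat.cast_nonneg _)) (le_trans (le_of_eq ?_) (mul_le_mul_of_nonneg_right a5 h0.le))
  change _ * (s u (48 * m + 110) + _ + s u (48 * m + 110)) = _
  ring

lemma volφ (m : ℕ) : (vol (2 * S.ρ (m + 1)) : ℝ) * s u (48 * m + 61) ≤ s u (48 * m + 60) ^ 200 := by
  have hu := h.hu; have := h.ρ (m + 1)
  unfold vol; rtier! (48 * m + 60)

/-- **the short list holds on the tiers.** -/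
theorem sh : Sh S G (Pd.tier u B J dd γ γ0 η) n T where
  hn := h.hn.1
  mt := h.mt
  Q := h.Q.1
  hL := h.hL
  hB := h.hB.1
  dd l := by
    have a1 := h.le_σ l
    have a2 := h.le_σ (l + 1)
    have a3 := Y_mono (u := u) (show 48 * l + 27 ≤ 48 * (l + 1) + 19 by omega)
    have a4 := h.Rl l
    change 1 ≤ dd l ∧ 4 * dd l ≤ _ ∧ dd (l + 1) ≤ _ ∧ _
    rcases l with _ | l
    · have : 1 ≤ dd 0 ∧ dd 0 ≤ Y u (48 * 0 + 19) := h.dd0
      omega
    · have := h.Rl l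
      have := Y_mono (u := u) (show 48 * l + 27 ≤ 48 * (l + 1) + 19 by omega)
      omega
  v := ⟨antitone_nat_of_succ_le fun l => pow_le_pow_left₀ (s_pos _ _).le (s_anti (tv_lt l).le) _,
    fun l => pow_pos (s_pos _ _) _⟩
  γ l := ⟨(h.hγ l).1, (h.hγ l).2.trans ((s_up (Nat.lt_succ_self _) (j := 200 * 48)
    (by norm_num)).trans_eq (pow_mul _ _ _))⟩
  γ0 := ⟨h.hγ0.1, h.hγ0.2.trans ((s_up (k := 5) (by norm_num) (j := 200 * 48)
    (by norm_num)).trans_eq (pow_mul _ _ _))⟩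
  pair l _ := by
    have hQ : (0 : ℝ) < G.Q := Nat.cast_pos.2 (by have := h.Q.1; omega)
    refine (pow_le_of_le_one (s_pos _ _).le (s_le_one _ _) (by norm_num)).trans ?_
    rw [one_div, inv_pow]
    refine inv_anti₀ (by positivity) ?_
    have h1 : (2 * G.Q) ^ 4 ^ (l + 3) ≤ Y u (tv l) := by
      refine (Nat.pow_le_pow_left (Nat.mul_le_mul (two_le_Y h.hu 0) h.Q.2) _).trans ?_
      rw [← pow_two, ← pow_mul]
      refine (pow_pow_le le_rfl (le_trans ?_ (four_le_Dp (l + 4)))).trans (Y_mono (tv_ge l).1)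
      rw [pow_succ' 4 (l + 3)]; omega
    exact_mod_cast h1
  one := by
    have hu := h.hu
    have key : ∀ l c : ℕ, c ≤ u * D ^ (48 * l + 100) + 1 →
        c * s u (tv l) ^ 200 ≤ s u (tv l) := fun l c hc => by
      have h1 := tv_ge l
      have h2 := (lg_le (k := tv l) (k' := 48 * l + 100) hu (by omega) (by omega)).add hu
        (Pb.num hu (a := 1) (by norm_num))
      exact sm0 (Rb.cast (hc.trans h2)) (by norm_num)
    have s1 := sum_s hu tv_lt 0 G.mt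
    have s2 := s_le_num hu (tv 0)
    have s3 := s_le_num hu (tv G.mt)
    rw [← range_eq_Ico] at s1
    refine (add_le_add (sum_le_sum fun l _ => key l _ ?_) (key _ _ (h.hJ.trans
      (Nat.le_succ _)))).trans (by linarith)
    refine Nat.succ_le_succ ?_
    rw [← log_Y]
    refine Nat.log_mono_right ?_
    have := h.hn.2; have := (h.Rl l).2.2.trans (h.Rl l).1
    change n * (2 * dd (l + 1)) ^ 3 ≤ _
    tier! (48 * l + 27)
  sc l _ := by
    refine ⟨Nat.mul_pos h.hB.2.1 (Nat.mul_pos (h.A l).1 ((one_le_Dp _).trans (h.jl l).1)), ?_⟩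
    have hu := h.hu; have := h.hn.2; have := h.hB.2.2; have := (h.A l).2; have := (h.jl l).2
    have := (h.Rl l).1
    have h2 : n * vol (G.Rl l) ≤ Y u (48 * l + 28) := by unfold vol; tier! (48 * l + 27)
    have h1 : Rb u (48 * l + 18) 2 (Real.log (n * vol (G.Rl l) : ℕ)) := by
      refine ⟨Real.log_natCast_nonneg _, le_trans ?_
        (Rb.cast (lg_le (k' := 48 * l + 28) hu (by omega) (by omega))).2⟩
      refine (Real.log_le_log (Nat.cast_pos.2 (Nat.mul_pos h.hn.1 (by unfold vol; positivity)))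
        (Nat.cast_le.2 h2)).trans ?_
      rw [Y_def, Nat.cast_pow, Real.log_pow]
      exact mul_le_of_le_one_right (Nat.cast_nonneg _) (by
        have := Real.log_two_lt_d9; push_cast; linarith)
    rw [h.Ns]
    change 3 * _ * (2 * 10 ^ 5 * (B : ℝ) * _ * _) ^ 3 ≤ _
    rtier! (48 * l + 18)
  wp l := ⟨(s_pos _ _).le, (h.hη l).trans (s_up (by omega) (by norm_num))⟩
  φ0 := by
    have hu := h.hu; have := h.hn.2; have := h.hB.2.2; have := h.r0
    have a1 := h.tag 0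
    rw [zero_add, pow_one] at a1
    have h5 := s_pos u 5
    have h0 := s_pos u 62
    have a2 : (10 ^ 5 * n * vol G.r0 * s u 5 ^ 200) ^ G.n1 ≤ s u (5 + 57) := by
      refine pow_small (by positivity) ?_ h.n1
      unfold vol; apply sm0; (· r_bd); norm_num
    refine (mul_le_mul a1 (add_le_add le_rfl (mul_le_mul_of_nonneg_left a2 (Nat.cast_nonneg _)))
      (by change 0 ≤ s u 62 + B * (_ * s u 5 ^ 200) ^ _; positivity) (Yr_pos _ _).le).trans ?_
    change (Y u 28 : ℝ) * (s u 62 + B * s u 62) ≤ s u 61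
    rw [← one_add_mul, ← mul_assoc]
    rtier! 61
  φ1 m _ := by
    have hu := h.hu
    have h0 := s_pos u (48 * m + 61)
    have a3 : (vol (2 * S.ρ (m + 1)) * s u (48 * m + 61)) ^ ar S ≤ s u (48 * m + 60 + 50) :=
      pow_small (by positivity) ((h.volφ m).trans
        (pow_le_of_le_one (s_pos _ _).le (s_le_one _ _) (by norm_num))) h.har
    refine (mul_le_mul (h.tag (m + 1)) (add_le_add (h.tm_le m) a3) (by
      have := s_pos u (48 * (m + 1) + 62); have := s_pos u (tv (m + 1))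
      unfold Pd.tm' Pd.tier; positivity) (Yr_pos _ _).le).trans ?_
    change _ * (_ + s u (48 * m + 110)) ≤ s u (48 * m + 109)
    rw [← add_one_mul, ← mul_assoc]
    rtier! (48 * m + 109)

theorem nm : Nm S G ((Pd.tier u B J dd γ γ0 η).pz G n) L n T := h.sh.nm

/-- **the bound of the engine on the tiers**: `eps m ≤ 1 / x (m + 1) 1`. -/
theorem eps_le (m : ℕ) : eps S G ((Pd.tier u B J dd γ γ0 η).pz G n) n m ≤ s u (48 * m + 60) := by
  have hu := h.hu
  refine (h.sh.eps_le m).trans ((sum_le_sum (g := fun l => s u (48 * l + 60) ^ 100 *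
    s u (48 * l + 60)) fun l hl => ?_).trans ?_)
  · have a1 : (Y u (48 * l + 61) : ℝ) * s u (48 * l + 110) ≤ s u (48 * l + 60) ^ 200 := by
      rtier! (48 * l + 61)
    refine (mul_le_mul_of_nonneg_left (add_le_add ((h.tm_le l).trans a1) (h.volφ l))
      (Nat.cast_nonneg _)).trans ?_
    rw [← two_mul, ← mul_assoc, show 200 = 100 + 100 from rfl, pow_add, mul_left_comm]
    refine mul_le_mul_of_nonneg_left ?_ (pow_pos (s_pos _ _) _).le
    have := h.kp l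
    unfold vol; apply sm0; (· r_bd); norm_num
  · refine (sum_le_sum fun l _ => mul_le_mul_of_nonneg_right ((pow_le_of_le_one (s_pos _ _).le
      (s_le_one _ _) (by norm_num)).trans ((s_le_num hu _).trans (show _ ≤ (1 / 2 : ℝ) by norm_num)))
      (s_pos _ _).le).trans ?_
    rw [← mul_sum]
    have := sum_s hu (t := fun l => 48 * l + 60) (fun l => by omega) m G.mt
    linarith

end Ti

end Crest.Agent.N337.En
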