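import Crest.Agent.N337.M.CelI
import Crest.Agent.N337.E.Inst
import Crest.Agent.N337.Par.LeafE
import Crest.Agent.N337.Par.Trk
import Crest.Agent.N337.Par.Ht

/-!
# Row 337 (helper14): the numbers of the engine in the context of the final assembly
-/

set_option autoImplicit false
set_option linter.unusedSectionVars false

namespace Crest.Agent.N337.Par

open Finset Crest.Agent.N337.Free Crest.Agent.N337.Gas Crest.Agent.N337.A Crest.Agent.N337.Top M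

variable {n u Dw : ℕ}

/-- the numbers of G1 for the leaves. -/
theorem nuE (h : Bg n u) {i t x0 L0 : ℕ} {P : G1.Scales} (H : GH u i P) (ha : P.a 0 = ca0)
    (hη : P.η 0 = η0 u) (ok : P.Ok L0) (ht : t ≤ ctm + 2) (hx : x0 ≤ Y u 0) :
    Nu0 L0 (lf h Dw) P t x0 (Y u 2) := by
  have hu := h.hu
  have hl := ll_pos u
  have h1 : (ll u + 1) * (Y u 2 * (2 * Y u 0 + 1)) + Y u 0 < η0 u := by
    have a1 : 2 * (2 * Y u 0 + 1) + Y u 0 < Y u 2 := by tier! 0
    have a2 : Y u 2 ≤ Y u 2 ^ 2 := Nat.le_self_pow two_ne_zero _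
    have a3 := Y_pos u 2
    have a4 : ll u * Y u 2 * (2 * (2 * Y u 0 + 1) + Y u 0) < ll u * Y u 2 * Y u 2 ^ 2 :=
      Nat.mul_lt_mul_of_pos_left (a1.trans_le a2) (Nat.mul_pos hl a3)
    have a5 : Y u 0 ≤ ll u * Y u 2 * Y u 0 := Nat.le_mul_of_pos_left _ (Nat.mul_pos hl a3)
    have a6 : Y u 2 * (2 * Y u 0 + 1) ≤ ll u * (Y u 2 * (2 * Y u 0 + 1)) :=
      Nat.le_mul_of_pos_left _ hl
    unfold η0
    nlinarith
  refine ⟨ok, hl, ?_, ?_, ?_, H.hA h, ?_, hη ▸ h1, h1.le⟩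
  · rw [ha]; exact Nat.mul_le_mul_right _ (by omega)
  · have a1 := h.a0
    have a2 : t ≤ Y u 1 := ht.trans (by have := h.tm; tier! 0)
    rw [ha]
    change _ + 2 * (2 * t * Y u 1 + x0) ≤ _
    generalize ca0 = a at a1
    tier! 1
  · rw [hη]
    change 8 * (ll u * _) ≤ ll u * _
    rw [mul_left_comm]
    exact Nat.mul_le_mul_left _ (by tier! 2)
  · exact Nat.mul_lt_mul_of_pos_right (by unfold csm; omega) (pow_pos (Y_pos _ _) _)

lemma H_le (h : Bg n u) {c : ℕ} (hc : c ≤ Y u 1) (l : ℕ) :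
    4 * x u l 16 + c * x u l 20 ≤ x u (l + 1) 0 := by
  have hu := h.hu
  tier! (48 * l + 31)

lemma tm3 (h : Bg n u) : 100 * (3 * ctm + 100) ≤ Y u 1 := by
  have hu := h.hu
  have := h.tm
  generalize ctm = a at this
  tier! 0

/-- the G1 scales fit the rung system. -/
theorem fitE (h : Bg n u) (mt l : ℕ) : cN + cE ≤ (gs u mt).a (l + 1) ∧
    (cLam + 1) * (cS * x u l 12) ≤ (gs u mt).σ (l + 1) ∧
    4 * (gs u mt).η (l + 1) + (3 * ctm + 1) * x u l 20 ≤ x u (l + 1) 0 := by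
  have hu := h.hu
  refine ⟨?_, ?_, le_trans (Nat.add_le_add_right (Nat.mul_le_mul_left _ (Y_mono
    (k := 48 * l + 11 + 15) (by omega))) _) (H_le h (by have := tm3 h; omega) l)⟩
  · change _ ≤ cqf
    unfold cqf cN0; omega
  · have a1 := h.Lam
    have a2 := h.S
    change _ ≤ x u l 13
    generalize cLam = a at a1
    generalize cS = b at a2
    tier! (48 * l + 23)

lemma N0_ge : 343 * cN ≤ cN0 := by unfold cN0; omega

lemma HH_le (h : Bg n u) (l : ℕ) : 5 * (3 * ctm + 1) * x u l 20 ≤ x u (l + 1) 0 :=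
  (Nat.le_add_left _ _).trans (H_le h (by have := tm3 h; omega) l)

lemma r0_lt (h : Bg n u) : r0 u + 1 ≤ x u 0 0 := by
  have hu := h.hu
  have := r0_le h
  tier! 5

end Crest.Agent.N337.Par

namespace Crest.Agent.N337.M

open Finset Crest.Agent.N337.Free Crest.Agent.N337.Gas Crest.Agent.N337.A Crest.Agent.N337.Top
  Crest.Agent.N337.Par

variable {L n : ℕ} [NeZero L] [NeZero n]

/-- top level of the trees, radius of the last ball of the tube, number of winding classes. -/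
abbrev ktE (u ms : ℕ) : ℕ := u * D ^ (48 * (ms + 3) + 11 + 6)
abbrev jE (u ms : ℕ) : ℕ := u * D ^ (48 * (ms + 3) + 100)

lemma two_ktE (u ms : ℕ) : 2 ^ ktE u ms = x u (ms + 3) 6 := (Y_def _ _).symm

namespace Ctx
variable {u ms w : ℕ} {β : ℝ} {sy : List (Sl L n × Sl L n × ℝ)} (C : Ctx u ms β w sy)

/-- the rung system, the parameters and the prices of the engine. -/
noncomputable abbrev SE (z : Tor 3 L) := I.sys n (TT β w sy) C.Q z
noncomputable abbrev GE (_ : Ctx u ms β w sy) : Tr.Eg := eg u (Dw w sy) (ms + 3)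
noncomputable abbrev PE (_ : Ctx u ms β w sy) : En.Pz :=
  pzE n u (Dw w sy) (ms + 3) (Bw β) (jE u ms)

theorem trOk (z : Tor 3 L) : Tr.Ok (C.SE z) C.GE := tr_ok C.bg z (C.le_L (by omega))

theorem nmE (z : Tor 3 L) : En.Nm (C.SE z) C.GE C.PE L n (TT β w sy) ∧
    ∀ m, En.eps (C.SE z) C.GE C.PE n m ≤ _root_.Crest.Agent.N337.Par.eps u m :=
  nm_pzE C.bg _ z (NeZero.pos n) (Nat.succ_pos _) (C.le_L (by omega))
    ⟨card_grid (T_eq β w sy), Nat.succ_pos _, C.B2⟩ le_rfl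

theorem tbNu {sp : ℕ} (hs : sp ≤ 12) (z : Tor 3 L) {th : ℕ → ℕ} (hth : ∀ l, th l ≤ x u l 6) :
    Tb.Nu (I.sys n (TT β w sy) (_root_.Crest.Agent.N337.Par.num C.bg (Dw w sy) sp hs) z) C.GE (gs u (ms + 3 + 1))
      (kT u (ms + 3) (ktE u ms)) (kT' u) th :=
  tb_gs C.bg hs z (fun l _ => hth l) (by rw [two_ktE]; exact Y_mono (by omega)) (by
    have hu := C.hu
    rw [two_ktE]
    exact le_trans (by tier! (48 * (ms + 3) + 17)) C.hL)

theorem nh (z : Tor 3 L) : Gl.NH (C.SE z) C.GE (gs u (ms + 3 + 1)) (kT u (ms + 3) (ktE u ms))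
    (kT' u) C.PE C.Q.toLf C.W.B C.W.κ 0 (s u (48 * (ms + 3) + 7)) (Y u 11) (Y u 8) :=
  _root_.Crest.Agent.N337.Par.nh C.bg (show Tr.qf (C.SE z) C.GE ≤ _ from C.bg.qf) rfl (two_ktE u ms).ge le_rfl (ll_le C.bg) C.B1 rfl rfl le_rfl C.bg.Cg
    (zero_add _).le _

lemma erE : C.W.er L n ≤ s u (48 * (ms + 3) + 7) := C.er (by omega)

theorem nuE {t x0 mt : ℕ} (h1 : 1 ≤ mt) (h2 : mt ≤ ms + 10) (ht : t ≤ ctm + 2) (hx : x0 ≤ Y u 0) :
    Gl.Nu C.W L C.Q.toLf (gs u mt) t x0 (Y u 2) :=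
  C.wd.nu (_root_.Crest.Agent.N337.Par.nuE C.bg (gh_gs u mt) rfl rfl (gs_ok C.bg h1 (by
    have hu := C.hu
    exact lt_of_lt_of_le (by tier! (48 * mt)) C.hL)) ht hx) le_rfl _

/-- no tree of level `ms + 3` fits in the top cube. -/
theorem topE (z : Tor 3 L) :
    2 * (C.SE z).loc (ms + 2) + 2 * lt u ms + 2 ≤ (C.SE z).sep (ms + 2) := by
  have hu := C.hu
  have := pb_loc (T := TT β w sy) C.bg (Dw w sy) 12 le_rfl z (ms + 2)
  change _ ≤ x u (ms + 2) 12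
  generalize Rg.Sys.loc (C.SE z) _ = a at this
  tier! (48 * (ms + 2) + 11)

lemma vT_ge : 4 * (2 * lt u ms + 1) ^ 3 ≤ Gl.vT C.GE (kT u (ms + 3) (ktE u ms)) := by
  have hu := C.hu
  have h1 : 4 * (2 * (2 * lt u ms + 1)) ≤ x u (ms + 3) 6 := by tier! (48 * (ms + 1) + 11 + 27)
  change _ ≤ (2 * (2 ^ kT u (ms + 3) (ktE u ms) (ms + 3) / 4) + 1) ^ 3
  rw [kT, if_neg (lt_irrefl _), two_ktE]
  calc _ ≤ (2 * (2 * lt u ms + 1)) ^ 3 := by rw [mul_pow]; omega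
    _ ≤ _ := Nat.pow_le_pow_left (by omega) 3

/-- **all numbers of the engine.** -/
theorem pkE (z : Tor 3 L) {d : ℕ} (hd : d ≤ 176) : En.Pk (GT β w sy).ex (GT β w sy).ey C.Q z C.GE
    C.PE C.W d (lt u ms) where
  ok := C.trOk z
  nm := (C.nmE z).1
  gr := ⟨_, _, _, fun _ => 0, _, _, _, _, C.nuE (Nat.succ_pos _) (by omega) le_rfl
    (two_le_Y C.hu 0), C.nh z, C.erE, C.tbNu le_rfl z fun _ => Nat.zero_le _,
    ⟨fun _ _ => rfl, fun l => (fitE C.bg _ l).1, fun l => (fitE C.bg _ l).2.1,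
      fun l => (fitE C.bg _ l).2.2⟩, C.vT_ge⟩
  lf := ⟨_, _, _, _, _, ⟨C.wd.word, C.wd.blk, rfl, ll_pos u, lt_of_lt_of_le (by
      have := ll_le C.bg; have := C.hu; change ll u < _; tier! 5) C.B1⟩, le_rfl,
    Wk.nmE_par (t := ctm) C.bg C.B2 C.wd (C.le_L (by omega)) (Nat.succ_pos _)
      (by unfold ctm; omega) (Nat.le_succ _) C.bg.tm (two_le_Y C.hu 0) (C.trOk z)⟩
  hd := by change ck0 + 27 + d ≤ ctm; unfold ctm; omega
  N0 := N0_ge
  hH l := le_trans (by rw [mul_assoc]; exact Nat.mul_le_mul_right _ (by norm_num)) (HH_le C.bg l)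
  r0 := r0_lt C.bg
  one := ⟨one_le_cE, Y_pos _ _⟩
  top := le_trans (le_of_eq (by rw [mul_add 2 _ 1, add_assoc]; rfl)) (C.topE z)
  hJ := by
    have hu := C.hu
    have hn := C.bg.hn
    change _ < 2 ^ jE u ms
    rw [← Y_def]
    tier! (48 * (ms + 1) + 11 + 27)

lemma near_of_Sd (z : Tor 3 L) (Z : Finset (I.V L n (TT β w sy))) (h : (PP n u ms β z).Sd Z) :
    ∃ c, ∀ v ∉ Z, tdist c v.2.1 ≤ lt u ms := ⟨z, fun v hv => cube_near (mem_cubeS.1 (h v hv))⟩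

/-- **joint (B).** -/
theorem jb (z : Tor 3 L) : C.JB z := fun m hm _ _ _ h0 h1 hd hR =>
  En.f2a (C.pkE z (by omega)) (C.wr h0 h1) (near_of_Sd z) (show m < ms + 3 by omega)
    (show _ ≤ cN by unfold cN; omega) (fun _ => ⟨hR.trans (Rr_le C.bg (by norm_num)),
      Nat.mul_le_mul_right _ (Nat.le_succ _)⟩) (s_pos _ _).le ((C.nmE z).2 m)

/-- the engine on the children. -/
theorem jn (z : Tor 3 L) : C.JN z := fun m hm _ h0 h1 =>
  (En.n2 (C.pkE z (by omega)) (C.wr h0 h1) (near_of_Sd z) (show m + 1 < ms + 3 by omega)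
    (s_pos _ _).le ((C.nmE z).2 m)).mono (fun _ h => h)
      ((le_add_of_nonneg_left (s_pos _ _).le).trans (vol_eps C.hu m))

end Ctx

end Crest.Agent.N337.M
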