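import Crest.Agent.N337.Par.Y
import Crest.Agent.N337.M.BoxW
import Crest.Agent.N337.M.StD
import Crest.Agent.N337.M.Chain
import Crest.Agent.N337.I.Alv

/-!
# Row 337 (helper80): the parameters of the levels on the tiers

`T_j = Y u (tb j + 6)`; the tiers `tb j + i`, `1 ≤ i ≤ 5`, are free; every scale size that is used
over the medium `T_j` is `≤ Y u (tb j)`.
-/

set_option autoImplicit false

namespace Crest.Agent.N337.Par

open Finset Crest.Agent.N337.A Crest.Agent.N337.M Crest.Agent.N337.Top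

/-- base tier of the medium `j`. -/
@[irreducible] def tb (j : ℕ) : ℕ := 48 * ((j - 1) / 3) + 31 + 6 * ((j - 1) % 3)

lemma tb_eq (j : ℕ) : tb j = 48 * ((j - 1) / 3) + 31 + 6 * ((j - 1) % 3) := by unfold tb; rfl

lemma tb_succ {j : ℕ} (h : j ≠ 0) : tb j + 6 ≤ tb (j + 1) := by rw [tb_eq, tb_eq]; omega

lemma tb_mono {j k : ℕ} (h : j ≤ k) : tb j ≤ tb k := by rw [tb_eq, tb_eq]; omega

/-- inverse fields. -/
noncomputable def Tf (u j : ℕ) : ℝ := if j = 0 then 0 else Y u (tb j + 6)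

/-- range of the clustering of a box move: pins and logarithms of size `Y u k`, field `1 / Tn`. -/
noncomputable def Db (n : ℕ) (β : ℝ) (u k Tn : ℕ) : ℕ :=
  Dn (Kw n β (vt (Kw n β) (Y u k) (Y u k) 4 + 2)) Tn (Y u k) (vt (Kw n β) (Y u k) (Y u k) 4)

/-- rung thresholds and frozen covers. -/
structure Rt where
  tI : ℕ → ℕ
  tP : ℕ → ℕ
  tQ : ℕ → ℕ
  R : ℕ → ℕ
  nc : ℕ

variable {L : ℕ} [NeZero L]

/-- **the levels** (top cube `cubeS n z l`). -/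
noncomputable def lev (n : ℕ) (β : ℝ) (u : ℕ) (r : Rt) (z : Tor 3 L) (l : ℕ) : M.Par (Sl L n) where
  Tf := Tf u
  N j := Y u (48 * (j / 3) + 52)
  tI := r.tI
  tP := r.tP
  tQ := r.tQ
  σ j := Y u (tb j + 1)
  bx j := Y u (48 * (j / 3) + 3)
  R := r.R
  nc := r.nc
  e j := s u (48 * (j / 3) + 56)
  Dm := cubeS n z l
  Co j := Cor (cubeS n z l) (coz z) (Y u (48 * (j / 3) + 3) / 4) (Y u (48 * (j / 3) + 2))
  Cc j := Cor (cubeS n z l) (coz z) (Y u (tb j + 1) / 4) 1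
  v j := Y u (tb (j - 1))
  Do j := Db n β u (tb (j - 1)) (Y u (tb j + 6))
  Dc j := Db n β u (tb (j - 1)) (Y u (tb (j - 1) + 6))

variable {n u k j : ℕ} {β : ℝ}

lemma Tf_zero : Tf u 0 = 0 := if_pos rfl
lemma Tf_ne (h : j ≠ 0) : Tf u j = Y u (tb j + 6) := if_neg h
lemma Tf_nn (j : ℕ) : 0 ≤ Tf u j := by unfold Tf; split_ifs; exacts [le_rfl, Nat.cast_nonneg _]
lemma Tf_step (j : ℕ) : 0 < Tf u (j + 1) ∧ Tf u (j + 1) ≤ Tf u (j + 2) := by
  rw [Tf_ne (by omega), Tf_ne (by omega)]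
  exact ⟨Yr_pos _ _, Nat.cast_le.2 (Y_mono (by have := tb_mono (show j + 1 ≤ j + 2 by omega); omega))⟩

/-- the logarithm of a tier is below a much lower tier. -/
lemma lg_le (hu : 4000 ≤ u) (hj : j ≤ 100) : u * D ^ (k + j) ≤ Y u k := by
  have h1 : u ≤ u * D ^ k := Nat.le_mul_of_pos_right _ (one_le_Dp k)
  have h2 : D ^ j ≤ 2 ^ 2000 := (Nat.pow_le_pow_right D_pos hj).trans (by
    rw [D_eq, show 2000 = 20 * 100 from rfl, pow_mul]; exact Nat.pow_le_pow_left (by norm_num) _)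
  rw [pow_add, ← mul_assoc, Y_def]
  generalize u * D ^ k = a at *
  obtain ⟨b, rfl⟩ : ∃ b, a = b + 2001 := ⟨a - 2001, by omega⟩
  have h3 : b < 2 ^ b := Nat.lt_two_pow_self
  have h4 : 2 ^ 11 ≤ 2 ^ b := Nat.pow_le_pow_right two_pos (by omega)
  rw [show b + 2001 = (b + 1) + 2000 from rfl, pow_add]
  exact Nat.mul_le_mul (by rw [pow_succ]; omega) h2

lemma Y_le_exp' (hu : 4000 ≤ u) {k' : ℕ} (hk : k' ≤ k + 100) :
    (Y u k' : ℝ) ≤ Real.exp (Y u k) := by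
  have h1 : (2 : ℝ) ≤ Real.exp 1 := by linarith [Real.add_one_le_exp (1 : ℝ)]
  refine (Nat.cast_le.2 (Y_mono hk)).trans ?_
  rw [Y_def u (k + 100), Nat.cast_pow, ← Real.exp_one_pow]
  exact (pow_le_pow_left₀ (by norm_num) h1 _).trans
    (pow_le_pow_right₀ (by linarith) (lg_le hu le_rfl))

lemma exp_neg_le' (hu : 4000 ≤ u) {k' : ℕ} (hk : k' ≤ k + 100) :
    Real.exp (-(Y u k : ℝ)) ≤ s u k' := by
  rw [Real.exp_neg]; exact inv_anti₀ (Yr_pos _ _) (Y_le_exp' hu hk)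

lemma four_mul_div (hu : 100 ≤ u) (k : ℕ) : 4 * (Y u k / 4) = Y u k := by
  refine Nat.mul_div_cancel' ?_
  rw [Y_def]
  exact pow_dvd_pow 2 (le_trans (by omega) (Nat.le_mul_of_pos_right u (one_le_Dp k)) : 2 ≤ _)

lemma Pb.le_of {a b e e' : ℕ} (h : a ≤ b) (h' : Pb u k e b) (he : e ≤ e') : Pb u k e' a :=
  Pb.mono (h.trans h') he

/-- the towers of speeds. -/
lemma vt_pb [NeZero n] (hu : 100 ≤ u) (hB : 2 * n ^ 2 * (⌊β⌋₊ + 1) ≤ Y u k) (i : ℕ) :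
    Pb u k (10 ^ i) (vt (Kw n β) (Y u k) (Y u k) i) :=
  vt_le (le_trans (by norm_num) (num_le hu k)) (Kw_le hB) le_rfl le_rfl i

lemma Kw_pb [NeZero n] (hu : 100 ≤ u) (hB : 2 * n ^ 2 * (⌊β⌋₊ + 1) ≤ Y u k) {e r : ℕ} (h : Pb u k e r) :
    Pb u k (3 * e + 10) (Kw n β r) := by
  apply Pb.le_of (Kw_le hB r)
  · p_bd
  · omega

lemma Db_pb [NeZero n] (hu : 100 ≤ u) (hB : 2 * n ^ 2 * (⌊β⌋₊ + 1) ≤ Y u k) {k' : ℕ} (hk : k < k') :
    Pb u k' 5 (Db n β u k (Y u k')) := by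
  have h1 := vt_pb hu hB 4
  have h2 := Kw_pb hu hB (h1.add hu (Pb.num hu (a := 2) (by norm_num)))
  have h3 := Dn_le (K := Kw n β (vt (Kw n β) (Y u k) (Y u k) 4 + 2)) (Tn := Y u k') (lg := Y u k)
    (v := vt (Kw n β) (Y u k) (Y u k) 4) (Y := Y u k ^ 40000)
    ((le_trans (by norm_num) (num_le hu k)).trans (Nat.le_self_pow (by norm_num) _))
    (h2.mono (by norm_num)) (Nat.le_self_pow (by norm_num) _) (h1.mono (by norm_num))
  have h4 : (Y u k ^ 40000) ^ 8 ≤ Y u k' := by tier! k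
  generalize (Y u k ^ 40000) ^ 8 = a at h4 h3
  apply Pb.le_of h3
  · p_bd
  · norm_num

end Crest.Agent.N337.Par
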