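import Crest.Agent.N337.M.ExcI
import Crest.Agent.N337.M.LadJ
import Crest.Agent.N337.TK.Sup
import Crest.Agent.N337.Par.Defs
import Crest.Agent.N337.Par.Lev

/-!
# Row 337 (helper49): the numbers of the excision (level `j + 1 = 3 m + 2`) on the tiers
-/

set_option autoImplicit false

namespace Crest.Agent.N337.Par.Xc

open Crest.Agent.N337.M Crest.Agent.N337.A

/-- speed of the tower after `i` steps. -/
noncomputable def vT (n : ℕ) (β : ℝ) (u m i : ℕ) : ℕ := vt (Kw n β) (x u m 1) (x u m 1) i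

/-- radius of the excised set. -/
def rz (u m R3 : ℕ) : ℕ := R3 + 2 * x u m 0 + 1

/-- the data of the excision: radii `R i`, distances `Rf`, `Rg`, errors `ε, γ, γg, κb`. -/
noncomputable def exP (n : ℕ) (β : ℝ) (u m : ℕ) (R : ℕ → ℕ) (Rf Rg : ℕ) (ε γ γg κb : ℝ) : ExP where
  R1 := R 1
  R2 := R 2
  R3 := R 3
  R4 := R 4
  R5 := R 5
  rZ := rz u m (R 3) + x u m 0
  Rf := Rf
  Rg := Rg
  nD := x u m 42
  v0 := x u m 1
  v1 := vT n β u m 1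
  D := Dn (Kw n β (vT n β u m 3 + 2)) (x u m 26) (x u m 1) (vT n β u m 3)
  ε := ε
  γ := γ
  γg := γg
  δ := (sx u m 21 ^ 40) ^ 2
  σ := sx u m 21 ^ 40
  κb := κb

/-- **position of the inputs on the tiers.** -/
structure Hx {Λ : Type} (P : Par Λ) (β : ℝ) (u m j B : ℕ) (R : ℕ → ℕ) (Rf Rg : ℕ)
    (ε γ γg κb : ℝ) : Prop where
  hβ : ⌊β⌋₊ + 1 ≤ Y u 11
  hB : B ≤ Y u 11
  T : P.Tf j = x u m 26
  N : 1 ≤ P.N (j + 1) ∧ P.N (j + 1) ≤ x u m 41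
  e : sx u m 45 ≤ P.e (j + 1) ∧ P.e (j + 1) ≤ sx u m 22
  σ : x u m 27 ≤ P.σ (j + 1)
  nc : P.nc ≤ Y u 1
  tI : P.tI (j + 1) + 1 ≤ P.tP (j + 1)
  tP : P.tP (j + 1) + 1 ≤ ctm
  r1 : P.R (j + 1) ≤ R 1
  r2 : R 1 ≤ R 2
  r3 : R 2 ≤ R 3
  r4 : R 3 + x u m 1 ≤ R 4
  r5 : R 4 ≤ R 5
  r6 : R 5 ≤ x u m 19
  Rf : Rf ≤ x u m 21
  Rg : Rg ≤ x u m 25
  ε : ε ≤ sx u m 46
  γ : 0 ≤ γ ∧ γ ≤ sx u m 20
  γg : 0 ≤ γg ∧ γg ≤ sx u m 21 ^ 100
  κb : 0 ≤ κb ∧ κb ≤ sx u m 21 ^ 100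

variable {n u m j B Rf Rg : ℕ} {β ε γ γg κb : ℝ} {R : ℕ → ℕ} {Λ : Type} {P : Par Λ}

lemma pb_vn {k e lg v : ℕ} (h : Bg n u) (hβ : ⌊β⌋₊ + 1 ≤ Y u 11) (hk : 11 ≤ k) (he : 1 ≤ e)
    (hl : lg ≤ Y u k) (hv : Pb u k e v) : Pb u k (4 * e + 20) (vn (Kw n β) lg v) := by
  have hu := h.hu
  have hn := h.hn
  unfold vn Kw
  generalize ⌊β⌋₊ + 1 = b at hβ
  apply Pb.mono
  · p_bd
  · omega

lemma pb_vT (h : Bg n u) (hβ : ⌊β⌋₊ + 1 ≤ Y u 11) (m : ℕ) :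
    Pb u (48 * m + 11 + 1) 500 (vT n β u m 3) := by
  have k := fun e v => pb_vn (e := e) (lg := x u m 1) (v := v) h hβ
    (show 11 ≤ 48 * m + 11 + 1 by omega)
  exact (k _ _ (by omega) le_rfl (k _ _ (by omega) le_rfl (k _ _ le_rfl le_rfl
    (.tier le_rfl)))).mono (by norm_num)

lemma vT_le (h : Bg n u) (hβ : ⌊β⌋₊ + 1 ≤ Y u 11) (m : ℕ) {i : ℕ} (hi : i ≤ 3) :
    vT n β u m i ≤ x u m 2 :=
  (vt_mono _ _ _ hi).trans ((pb_vT h hβ m).up (by norm_num) (by omega))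

/-- the hypothesis `hw` of `exc_word`. -/
lemma hw_le (h : Bg n u) (hβ : ⌊β⌋₊ + 1 ≤ Y u 11) (m : ℕ) :
    60 * n ^ 2 * (2 * (vT n β u m 3 + 2) + 1) ^ 3 ≤ x u m 3 := by
  have hu := h.hu
  have hn := h.hn
  have := vT_le h hβ m le_rfl
  tier! (48 * m + 11 + 2)

lemma lc_le (h : Bg n u) (Dw m : ℕ) : lc (num h Dw 12) m ≤ 2 * x u m 0 := by
  have hu := h.hu
  induction m with
  | zero => exact Nat.le_mul_of_pos_left _ two_pos
  | succ m ih =>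
    have h1 : 2 * x u m 0 ≤ x u (m + 1) 0 := by tier! (48 * m + 11)
    change x u (m + 1) 0 + _ ≤ _
    omega

/-- **the numbers of the geometry.** -/
theorem exI (h : Bg n u) (Dw : ℕ) (H : Hx P β u m j B R Rf Rg ε γ γg κb) :
    ExI (num h Dw 12) (exP n β u m R Rf Rg ε γ γg κb) n β (P.Tf j) (P.N (j + 1)) m (P.tP (j + 1)) B
      (x u m 0) (rz u m (R 3)) ctm (x u m 26) (x u m 1) := by
  have hu := h.hu
  have l1 := lc_le h Dw m
  have l2 : 8 * x u m 0 ≤ x u m 1 := by tier! (48 * m + 11)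
  have l3 := Y_pos u (48 * m + 11 + 0)
  have s0 := s_pos u (48 * m + 11 + 21)
  refine ⟨l3, fun l hl => Y_dvd (by omega), ?_, le_rfl, ?_, ?_, ll_pos u, ?_, H.tP,
    hρ h Dw 12 le_rfl (by omega), hJ h Dw 12 le_rfl (by omega), ?_, rfl, rfl, H.N.1, ?_, H.T.le,
    by change 0 < _ ^ 2; positivity, ?_, ?_⟩
  · change R 3 + _ + 1 ≤ R 3 + _ + 1
    omega
  · have := H.r4
    change R 3 + _ + 1 + _ + _ ≤ R 4
    unfold x at *
    omega
  · have := H.N.2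
    have : lc (num h Dw 12) m ≤ x u m 1 := by omega
    change _ ≤ x u m 42
    tier! (48 * m + 11 + 41)
  · change ck0 + 27 + 1 ≤ _
    unfold ctm; omega
  · have := H.hB
    have := h.tm
    have := lw_le h Dw 12 le_rfl (τ := ctm) (by omega) m
    change B * (2 * ctm * Y u 1 + _) ≤ x u m 1
    tier! (48 * m + 11)
  · rw [H.T]; exact_mod_cast one_le_Y _ _
  · have := s_le_num hu (48 * m + 11 + 21)
    change (sx u m 21 ^ 40) ^ 2 ≤ _
    rw [← pow_mul]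
    exact (pow_le_of_le_one s0.le (s_le_one _ _) (by norm_num)).trans (by linarith)
  · have a1 := Y_le_exp (k := 48 * m + 11 + 1) (fac_le h (j := 50) (by norm_num))
    have a2 := H.N.2
    have a3 : (6400 * (P.N (j + 1) : ℝ) ^ 2 * (x u m 26 : ℕ)) * s u (48 * m + 11 + 1 + 50) ≤
        sx u m 21 ^ 80 := by rtier! (48 * m + 11 + 41)
    have a4 := s_mul u (48 * m + 11 + 1 + 50)
    change _ ≤ (sx u m 21 ^ 40) ^ 2 * Real.exp (x u m 1 : ℕ)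
    rw [H.T, ← pow_mul]
    refine le_trans ?_ (mul_le_mul_of_nonneg_left a1 (by positivity))
    refine le_trans (le_of_eq ?_) (mul_le_mul_of_nonneg_right a3 (Yr_pos _ _).le)
    rw [mul_assoc _ (s _ _), a4, mul_one]

lemma sm0 {k e i : ℕ} {r : ℝ} (h : Rb u k e r) : r * s u k ^ (e + i) ≤ s u k ^ i := by
  have h0 := s_pos u k
  rw [pow_add, ← mul_assoc]
  exact mul_le_of_le_one_left (by positivity) ((mul_le_mul_of_nonneg_right h.2
    (by positivity)).trans_eq (by rw [← mul_pow, mul_comm, s_mul, one_pow]))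

lemma p0 {i : ℕ} (hi : 22 ≤ i) : sx u m i ≤ sx u m 21 ^ 100 := by
  simpa using Rb.sm (u := u) (k := 48 * m + 11 + 21) (k' := 48 * m + 11 + i) (j := 100)
    (i := 48 * m + 11 + 21) (e := 0) (r := 1) ⟨zero_le_one, (pow_zero _).ge⟩ (by omega) (by omega)
    le_rfl

/-- **the numbers of the excision.** -/
theorem exN (h : Bg n u) (H : Hx P β u m j B R Rf Rg ε γ γg κb) :
    ExN P (exP n β u m R Rf Rg ε γ γg κb) (fun r => n * (2 * r + 1) ^ 3) j (ck0 + 27) ctm := by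
  have hu := h.hu
  have hn := h.hn
  have l2 : 8 * x u m 0 ≤ x u m 1 := by tier! (48 * m + 11)
  have l3 := Y_pos u (48 * m + 11 + 0)
  have r4 := H.r4; have r5 := H.r5; have r6 := H.r6; have nc := H.nc; have Rf1 := H.Rf
  have Rg1 := H.Rg; have hβ := H.hβ
  have z1 : rz u m (R 3) + x u m 0 ≤ R 5 := by unfold rz x at *; omega
  have z2 := z1.trans r6
  have v1 := vT_le h hβ m (i := 1) (by omega)
  have v3 := vT_le h hβ m le_rfl
  have s0 := s_pos u (48 * m + 11 + 21)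
  have s1 := s_le_num hu (48 * m + 11 + 21)
  have e1 : ∀ c : ℕ, c ≤ 10 ^ 30 → (c : ℝ) * (x u m 42 : ℕ) * ε ≤ sx u m 45 := fun c hc =>
    (mul_le_mul_of_nonneg_left H.ε (by positivity)).trans (by
      have := hc.trans (num_le hu 0); rtier! (48 * m + 11 + 45))
  have T0 : ∀ a : ℝ, 3 / P.Tf j * a = 3 * a * sx u m 26 := fun a => by
    rw [H.T, sx, s]; ring
  refine ⟨by rw [H.T]; exact Yr_pos _ _, by unfold ctm; omega, H.tI, H.tP, H.r1, H.r2, H.r3,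
    le_trans (Nat.le_add_right _ _) r4, r5, z1, le_trans ?_ H.σ, ⟨H.γ.1, H.γg.1⟩,
    by change 0 ≤ _ ^ 40; positivity, H.κb.1, (e1 6 (by norm_num)).trans
      ((s_le_num hu _).trans (by norm_num)), (e1 12 (by norm_num)).trans H.e.1, ?_, ?_, ?_⟩
  · simp only [exP, ExP.R, Dn, mw, Kw]
    generalize rz u m (R 3) + x u m 0 = z at z2
    generalize ⌊β⌋₊ + 1 = b at hβ
    tier! (48 * m + 11 + 26)
  · simp only [exP, ExP.R]
    generalize rz u m (R 3) + x u m 0 = z at z2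
    have a1 : 3 * ((P.nc * (n * (2 * (z + (Rf + x u m 1 + 1 + R 5)) + 1) ^ 3) : ℕ) : ℝ) *
        sx u m 26 ≤ sx u m 21 := by rtier! (48 * m + 11 + 21)
    have a2 : ((P.nc * (n * (2 * (R 5 + (x u m 1 + 1)) + 1) ^ 3) : ℕ) : ℝ) * sx u m 20 ≤
        sx u m 19 := by rtier! (48 * m + 11 + 19)
    have a3 := s_le_num hu (48 * m + 11 + 19)
    rw [T0]
    exact (add_le_add a1 ((mul_le_mul_of_nonneg_left H.γ.2 (Nat.cast_nonneg _)).trans a2)).trans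
      (by unfold sx; linarith)
  · simp only [exP]
    have a1 : 3 * ((n * (2 * Rg + 1) ^ 3 : ℕ) : ℝ) * sx u m 26 ≤ sx u m 21 ^ 100 := by
      rtier! (48 * m + 11 + 25)
    have a2 := (e1 1 (by norm_num)).trans (p0 (by omega))
    have a3 := H.e.2.trans (p0 le_rfl)
    have a4 : 128 * sx u m 21 ^ 100 ≤ sx u m 21 ^ 99 :=
      sm0 (i := 99) (Rb.num (k := 48 * m + 11 + 21) hu (r := 128) (by norm_num))
    have a5 : sx u m 21 ^ 99 ≤ sx u m 21 ^ (40 * 2) :=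
      pow_le_pow_of_le_one s0.le (s_le_one _ _) (by omega)
    rw [T0, ← pow_mul]
    rw [Nat.cast_one, one_mul] at a2
    linarith [H.γg.2, H.κb.2]
  · simp only [exP, ExP.R]
    generalize rz u m (R 3) + x u m 0 = z at z2
    rw [Real.sqrt_sq (by positivity)]
    have a1 : Rb u (48 * m + 11 + 21) 39 (14 * ((P.nc * (n * (2 * (z + (Rf + x u m 1 + 1 + R 5 + 1 +
        vT n β u m 1)) + 1) ^ 3) : ℕ) : ℝ) + 2) := by
      apply Rb.mono
      · r_bd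
      · norm_num
    have a2 : _ * sx u m 21 ^ 40 ≤ sx u m 21 ^ 1 := sm0 (i := 1) a1
    rw [pow_one] at a2
    linarith

/-! ### the levels of `Par.lev` -/

/-- the data of the excision at the scale `m`: `RetA` is needed at the distances `x u m 21` (bound
`sx u m 20`) and `x u m 23` (bound `sx u m 22`). -/
noncomputable def exE (n : ℕ) (β : ℝ) (u m : ℕ) (R : ℕ → ℕ) (ε : ℝ) : ExP :=
  exP n β u m R (x u m 21) (x u m 23) ε (sx u m 20) (sx u m 22) ((20 + 8 * c3) * sx u m 22)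

/-- what is left: rungs, radii of the claims, error of the claims. -/
structure Hr (r : Rt) (β : ℝ) (u j B : ℕ) (R : ℕ → ℕ) (ε : ℝ) : Prop where
  hβ : ⌊β⌋₊ + 1 ≤ Y u 11
  hB : B ≤ Y u 11
  nc : r.nc ≤ Y u 1
  tI : r.tI (j + 1) + 1 ≤ r.tP (j + 1)
  tP : r.tP (j + 1) + 1 ≤ ctm
  r1 : r.R (j + 1) ≤ R 1
  r2 : R 1 ≤ R 2
  r3 : R 2 ≤ R 3
  r4 : R 3 + x u ((j + 1) / 3) 1 ≤ R 4
  r5 : R 4 ≤ R 5
  r6 : R 5 ≤ x u ((j + 1) / 3) 19
  ε : ε ≤ sx u ((j + 1) / 3) 46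

open Crest.Agent.N337.Free Crest.Agent.N337.Top

variable {L l w Dw : ℕ} [NeZero L] {r : Rt} {z z0 : Tor 3 L}

theorem Hr.hx (hu : 100 ≤ u) (h3 : (j + 1) % 3 = 2) (H : Hr r β u j B R ε) :
    Hx (lev n β u r z l) β u ((j + 1) / 3) j B R (x u ((j + 1) / 3) 21) (x u ((j + 1) / 3) 23) ε
      (sx u ((j + 1) / 3) 20) (sx u ((j + 1) / 3) 22) ((20 + 8 * c3) * sx u ((j + 1) / 3) 22) := by
  have a1 := tb_eq j
  have a2 := tb_eq (j + 1)
  have c : Rb u 0 1 (20 + 8 * c3) := .num hu (by norm_num [c3, c1])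
  refine ⟨H.hβ, H.hB, (Tf_ne (by omega)).trans (congrArg (fun k => (Y u k : ℝ)) (by omega)),
    ⟨one_le_Y _ _, Y_mono (by omega)⟩, ⟨s_anti (by omega), s_anti (by omega)⟩, Y_mono (by omega),
    H.nc, H.tI, H.tP, H.r1, H.r2, H.r3, H.r4, H.r5, H.r6, le_rfl, Y_mono (by omega), H.ε,
    ⟨(s_pos _ _).le, le_rfl⟩, ⟨(s_pos _ _).le, p0 le_rfl⟩,
    mul_nonneg c.1 (s_pos _ _).le, ?_⟩
  generalize 20 + 8 * c3 = a at c
  rtier! (48 * ((j + 1) / 3) + 11 + 21)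

variable [NeZero n] {sy : List (Sl L n × Sl L n × ℝ)}

/-- **`Dlv.exc` on the parameters**, from the claims, the ladder and `Dlv.stepH`. -/
theorem exc_lev (h : Bg n u) (hβ : 0 ≤ β) (hs : Sym sy) (hT : TT β w sy = B * Dw)
    (h3 : (j + 1) % 3 = 2) (H : Hr r β u j B R ε) (hw : x u ((j + 1) / 3) 3 ≤ w + 1) {Yp : ℝ} :
    let P := lev n β u r z l
    let I := insT (num h Dw 12) z0 β w sy
    let V := P.lev I (GT β w sy)
    P.ExC I (GT β w sy) (exE n β u ((j + 1) / 3) R ε) j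
      (Zc z0 (x u ((j + 1) / 3) 0) (rz u ((j + 1) / 3) (R 3))) Yp →
    V.LadIn (GT β w sy) j (V.Pre (j + 1)) (V.Post (j + 1)) (sx u ((j + 1) / 3) 22) →
    (GT β w sy).StepH (yw (V.y (j + 1))) (V.y j) (V.Pre (j + 1))
      (I.Cl ((j + 1) / 3) (P.tQ (j + 1)) ∅ 0) (P.e (j + 1) / 10) →
    V.LP (GT β w sy) j → (GT β w sy).Stg (yw (V.y (j + 1))) (V.y (j + 1)) (V.In (j + 1))
      (V.Pre (j + 1)) (P.σ (j + 1)) c1 10 (P.e (j + 1)) := by
  intro P I V c hL hS lp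
  have X := H.hx (n := n) (z := z) (l := l) h.hu h3
  have hy : V.y j ≤ V.y (j + 1) := by
    obtain ⟨i, rfl⟩ : ∃ i, j = i + 1 := ⟨j - 1, by omega⟩
    have := Tf_step (u := u) i
    simp only [Lev.y, if_neg (Nat.succ_ne_zero _)]
    refine Real.exp_le_exp.2 ?_
    rw [neg_div, neg_div, neg_le_neg_iff]
    exact one_div_le_one_div_of_le this.1 this.2
  exact exc_word hβ hs hT (Tf_zero (u := u)) Tf_nn hy h3 (exN h X) (exI h Dw X) ((hw_le h H.hβ _).trans hw) c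
    (hL.lad_small tkaS tkbS (ok_GT hβ w hs) Tf_nn h3 lp _ (Lev.admW_yw (Tf_zero (u := u)) Tf_nn hy)) hS

end Crest.Agent.N337.Par.Xc
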