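import Crest.Agent.N337.Par.Exc
import Crest.Agent.N337.Par.Sm
import Crest.Agent.N337.Par.G1s
import Crest.Agent.N337.M.Fin0

/-!
# Row 337 (helper49): `Dlv.exc` on the final objects, from the cell claims
-/

set_option autoImplicit false
set_option linter.unusedSectionVars false

namespace Crest.Agent.N337.Par.Xc

open Finset Crest.Agent.N337.M Crest.Agent.N337.A Crest.Agent.N337.Free Crest.Agent.N337.Top

variable {n u m i j K ms w L : ℕ} {κ Yw Yp e β : ℝ}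

/-- the Green bound at a distance `r` beyond the tier `k`. -/
theorem γd_sm {S : G1.Scales} {k A r : ℕ} (hu : 100 ≤ u) (hκ : Rb u 0 1 (G1.Cg κ)) (hk : 1 ≤ k)
    (hA : A ≤ Y u k) (hK : Rb u k 75 (S.K (S.mt - 1))) (hη : S.η (S.mt - 1) ≤ Y u k)
    (h1 : Y u (k + 1) ≤ r) (h2 : r ≤ Y u (k + 1000)) (hz : Sm u k 0 (C9.zm Yw K)) (he : Sm u k 0 e) :
    Sm u k 200 (C9.γd κ Yw e S A K r) := by
  have h3 : Pb u k 2 (Nat.log 2 r) := log_pb hu hk h2 le_rfl
  unfold C9.γd G1.Cc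
  generalize Nat.log 2 r = a at h3
  generalize S.K (S.mt - 1) = b at hK
  generalize S.η (S.mt - 1) = c at hη
  apply Sm.mono
  · s_bd
  · norm_num

/-- the Green bound through a cover of scale `m`, at the distance `x u m (i + 1)`. -/
theorem γd_le (h : Bg n u) (hκ : Rb u 0 1 (G1.Cg κ)) (hi : 15 ≤ i)
    (hz : Sm u (48 * m + 11 + i) 0 (C9.zm Yw K)) (he : Sm u (48 * m + 11 + i) 0 e) :
    Sm u (48 * m + 11 + i) 200 (C9.γd κ Yw e (gs u (m + 2)) (Y u 0) K (x u m (i + 1))) :=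
  γd_sm h.hu hκ (by omega) (Y_mono (by omega)) (((gh_gs u (m + 2)).K h m).lift (by omega))
    (Y_mono (show 48 * m + 11 + 15 ≤ _ by omega)) le_rfl (Y_mono (by omega)) hz he

/-- the Green bound without cover (scales below `m`), at a distance beyond the tier `k`. -/
theorem γd_le0 {k r : ℕ} (h : Bg n u) (hκ : Rb u 0 1 (G1.Cg κ)) (hk : 48 * m + 5 ≤ k)
    (h1 : Y u (k + 1) ≤ r) (h2 : r ≤ Y u (k + 1000)) (hz : Sm u k 0 (C9.zm Yw K)) (he : Sm u k 0 e) :
    Sm u k 200 (C9.γd κ Yw e (gs u (m + 1)) (Y u 0) K r) :=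
  γd_sm h.hu hκ (by omega) (Y_mono (by omega))
    ((((gh_gs u (m + 1)).K_le h m).lift (by omega)).mono (by norm_num))
    (((gh_gs u (m + 1)).η_le h m).trans (Y_mono hk)) h1 h2 hz he

variable [NeZero L] [NeZero n] {sy : List (Sl L n × Sl L n × ℝ)}

lemma grd_Zc (z : Tor 3 L) (sc rz : ℕ) (F : Finset (Sl L n)) : Ld.Grd z sc (M.Zc z sc rz F) :=
  fun _ hx _ e => by
    obtain ⟨c, h1, a, h2, h3⟩ := mem_Zc.1 hx
    exact mem_Zc.2 ⟨c, h1, a, h2, h3.trans e.symm⟩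

lemma RetA.mono {T : ℕ} [NeZero T] {Λ X α κ : Type} [Fintype Λ] [DecidableEq Λ] [Fintype X]
    [DecidableEq X] [SemilatticeSup α] [Preorder κ] {I : Ins T Λ X α κ} {G : Bs T Λ}
    {Sd : Finset (Fin T × Λ) → Prop} {y γ γ' : ℝ} {N m nc R r : ℕ}
    (h : RetA I G Sd y N m nc R r γ) (k : γ ≤ γ') : RetA I G Sd y N m nc R r γ' :=
  fun F s a b z F' c e => (h F s a b z F' c e).trans k

/-- **`Dlv.exc`** from the cell claims (A), `F2A` (B), the word (C), the ladder (E) and `stepH`. -/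
theorem dlv_exc (C : Ctx u ms β w sy) (z : Tor 3 L) (hj : j ≤ 3 * ms + 3) (h3 : (j + 1) % 3 = 2)
    (hm : (j + 1) / 3 = m) (hy : yl u (j + 1) ≤ Yp) (hY : Yp ≤ 1) (c : C.Cel z m Yp)
    {hp : C9.PtN C.Q.toLf (Bw β)} {j' : ℕ}
    (f : C9.F2A (C9.ppI (GT β w sy) C.Q z C.hT hp) (PP n u ms β z).Sd Yp 1 m ((ctm + 1) * ca)
      (Rr u m 8) (nx u m (Rr u m 8)) (eps u m))
    (g : C9.Gw C.W (GT β w sy) C.Q (gs u (m + 2)) Yp e 2 m ((ctm + 1) * ca) (Rr u m 9) K j')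
    (hz : C9.zm (Yt u ms) K ≤ sx u m 24) (he : e ≤ sx u m 24) :
    let V := (PP n u ms β z).lev (C.I z) (GT β w sy)
    V.LadIn (GT β w sy) j (V.Pre (j + 1)) (V.Post (j + 1)) (s u (tb j + 2)) →
    (GT β w sy).StepH (yw (V.y (j + 1))) (V.y j) (V.Pre (j + 1))
      ((C.I z).Cl ((j + 1) / 3) ((PP n u ms β z).tQ (j + 1)) ∅ 0) ((PP n u ms β z).e (j + 1) / 10) →
    V.LP (GT β w sy) j → (GT β w sy).Stg (yw (V.y (j + 1))) (V.y (j + 1)) (V.In (j + 1))
      (V.Pre (j + 1)) ((PP n u ms β z).σ (j + 1)) c1 10 ((PP n u ms β z).e (j + 1)) := by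
  subst hm
  set m := (j + 1) / 3 with hm
  have h := C.bg
  have hu := h.hu
  have y0 := yl_nn u (j + 1)
  rw [nx_Rr] at f
  have tb1 : tb j + 2 = 48 * m + 11 + 22 := by have := tb_eq j; omega
  have cap : ∀ i ≤ 30, Rr u m i ≤ Rr u m 30 := fun _ => Rr_mono u m
  have H : Hr (rt u) β u j (Bw β) (fun i => Rr u m (3 + i)) (eps u m) := by
    refine ⟨C.B2, C.B2, ?_, Rung.tI_lt_tP (by omega), ?_, Rr_mono u m (by omega),
      Rr_mono u m (by omega), Rr_mono u m (by omega), ?_, Rr_mono u m (by omega),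
      (Rr_le h (by omega)).trans ((Sx_le h m).trans (Y_mono (by omega))), s_anti (by omega)⟩
    · have := h.tm; have := h.a
      change (ctm + 1) * ca ≤ _
      tier! 0
    · have := Rung.tP_le (kd := ck0 + 27) (k := cK) (j := j + 1)
      rw [← ctm_eq] at this
      exact le_trans (Nat.add_le_add_left (by omega) _) this
    · have a1 := (Y_mono (u := u) (show 48 * m + 11 + 1 ≤ 48 * m + 11 + 12 by omega)).trans
        (le_Rr u m (3 + 3))
      have a2 : 1 ≤ cLam := by unfold cLam; omega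
      have a3 := nx_Rr u m (3 + 3)
      rw [nx, max_eq_left (le_Rr u m _)] at a3
      change Rr u m (3 + 3) + Y u (48 * m + 11 + 1) ≤ Rr u m (3 + 3 + 1)
      have a4 := Nat.mul_le_mul_right (Rr u m (3 + 3)) (Nat.add_le_add_right a2 1)
      rw [a3] at a4
      exact le_trans (by omega) a4
  have g' : C9.Gw C.W (GT β w sy) C.Q (gs u (m + 2)) Yp (sx u m 24) 2 m ((ctm + 1) * ca) (Rr u m 9)
      K j' := ⟨g.w, g.nu, g.sc, g.hL, g.he.trans he⟩
  have z0 : 0 ≤ C9.zm (Yt u ms) K := by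
    have := Yt_lt u ms
    exact div_nonneg (div_nonneg (by norm_num) (by linarith)) (Nat.cast_nonneg _)
  have hw : x u m 3 ≤ w + 1 :=
    (C.le_w (k := 48 * m + 11 + 3) (by clear * - hj hm; omega)).trans (Nat.le_succ w)
  have hA : Ld.AlvH (C.I z) ((PP n u ms β z).N (j + 1)) m (x u m 42) :=
    (exG_word C.wd.β0 C.wd.hs C.hT (exI h _ (H.hx (z := z) (l := lt u ms) hu h3))
      ((hw_le h H.hβ m).trans hw)).alv
  have ret : ∀ i, 20 ≤ i → i ≤ 22 → RetA (C.I z) (GT β w sy) (PP n u ms β z).Sd (yl u (j + 1))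
      ((PP n u ms β z).N (j + 1)) m ((ctm + 1) * ca) (Rr u m 8) (x u m (i + 1)) (sx u m i) :=
    fun i a1 a2 => by
      have a3 := γd_le (m := m) (Yw := Yt u ms) (K := K) (e := sx u m 24) (i := i) h h.Cg (by omega)
        (.of_le z0 hz (by omega)) (.s (by omega))
      have a4 : 4 * x u m 15 ≤ x u m (i + 1) := by tier! (48 * m + 11 + 15)
      have a5 : Sm u (48 * m + 11 + 42) 10 ((x u m 42 : ℕ) * eps u m) := by
        unfold eps; apply Sm.mono
        · s_bd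
        · norm_num
      have a6 : C9.γd (8 * n ^ 2) (Yt u ms) (sx u m 24) (gs u (m + 2)) (Y u 0) K (x u m (i + 1)) +
          (x u m 42 : ℕ) * eps u m ≤ sx u m i := by
        generalize (x u m 42 : ℕ) * eps u m = b at a5
        generalize C9.γd _ _ _ _ _ _ _ = a at a3
        sm! (48 * m + 11 + i)
      exact RetA.mono (C9.retA (hp := hp) (hT := C.hT) g' c.e0
        (show ck0 + 27 + 1 ≤ ctm by unfold ctm; omega) (Rr_mono u m (by norm_num)) hA f
        (one_le_Y _ _) a4 le_rfl a3.1 y0 hy) a6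
  intro V hL
  rw [tb1] at hL
  refine exc_lev (Yp := Yp) h C.wd.β0 C.wd.hs C.hT h3 H hw
    ⟨y0.trans hy, hY, ?_, ?_, ret 20 le_rfl (by omega), ret 22 (by omega) le_rfl⟩ hL
  · have := c.eU (R := Rr u m 3) (by rw [nx_Rr, nx_Rr]; exact cap _ (by norm_num)) y0 hy
      (C := fun s => M.Zc z (x u m 0) (rz u m (Rr u m (3 + 3))) s.cv)
      fun s k hk => (grd_Zc z _ _ _).dvd (Y_dvd (by omega))
    rwa [nx_Rr, nx_Rr, nx_Rr] at this
  · have := c.f1 _ 0 (Rr u m 7) y0 hy (by omega) (cap _ (by omega))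
    rwa [nx_Rr] at this

end Crest.Agent.N337.Par.Xc

namespace Crest.Agent.N337.M.Ctx

open Crest.Agent.N337.Free Crest.Agent.N337.Top Crest.Agent.N337.Par

variable {n u ms w L : ℕ} {β : ℝ} [NeZero L] [NeZero n] {sy : List (Sl L n × Sl L n × ℝ)}
  (C : Ctx u ms β w sy) (z : Tor 3 L)

/-- single points are not leaves. -/
lemma ptX : C9.PtN C.Q.toLf (Bw β) :=
  ⟨Dp_le_cE (j := 0) (by omega), two_le_Y C.hu 1, Nat.one_le_pow _ _ (Y_pos _ _),
    (ll_le C.bg).trans ((Y_mono (by omega)).trans C.B1)⟩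

/-- joint (B): `F2A` at all scales. -/
def XB : Prop := ∀ m ≤ ms + 1, ∀ Yp d R, 0 ≤ Yp → Yp ≤ Yt u ms → d ≤ 3 → R ≤ Rr u m 30 →
  C9.F2A (C9.ppI (GT β w sy) C.Q z C.hT C.ptX) (PP n u ms β z).Sd Yp d m ((ctm + 1) * ca) R
    (nx u m R) (Par.eps u m)

/-- joint (C), with cover: the word seen by G1 at the largest fugacity. -/
def XC : Prop := ∀ m ≤ ms + 1, ∃ K j, C9.Gw C.W (GT β w sy) C.Q (gs u (m + 2)) (Yt u ms)
  (sx u m 24) 2 m ((ctm + 1) * ca) (Rr u m 9) K j ∧ C9.zm (Yt u ms) K ≤ sx u m 24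

/-- **joint (F).** -/
theorem jf_of (hA : C.JA z) (hB : C.XB z) (hC : C.XC) : C.JF z := fun j hj h3 hL => by
  obtain ⟨K, i, g, hz⟩ := hC ((j + 1) / 3) (by omega)
  exact Xc.dlv_exc C z hj h3 rfl (yl_le (by omega)) (Yt_lt u ms).le
    (hA _ (by omega) _ (yl_le (by omega)) le_rfl)
    (hB _ (by omega) _ _ _ (le_trans (by norm_num) (half_le_Yt C.hu ms)) le_rfl (by omega)
      (Rr_mono u _ (by omega))) g hz le_rfl
    (hL.ladIn C.ok Tf_nn (by omega) (yl_mono u (Nat.le_succ j)))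

end Crest.Agent.N337.M.Ctx
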