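import Crest.Agent.N337.Par.Y
import Crest.Agent.N337.G1.Num
import Crest.Agent.N337.Gl.Tb

/-!
# Row 337 (helper9): the scales of G1 on the tiers, `Gl.Nu`, and the Green gains
-/

set_option autoImplicit false

namespace Crest.Agent.N337.Par

open Finset Crest.MathPhysics.SpinModel G1 Gl

/-- the scales of G1 lie on the tiers; `c` is an absolute constant. -/
structure TS (u c : ℕ) (P : Scales) : Prop where
  hu : 100 ≤ u
  pos : 1 ≤ P.mt
  σ0 : P.σ 0 = 0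
  c16 : 16 ≤ c
  t : tS ≤ c
  k : kS ≤ c
  a : ∀ m < P.mt, 3 ^ P.a m ≤ c
  cY : c ^ 29 ≤ Y u 0
  σ : ∀ m, m + 1 < P.mt → P.σ (m + 1) ≤ Y u (48 * m + 24)
  η0 : Y u 0 ≤ P.η 0 ∧ P.η 0 ≤ Y u 5
  η : ∀ m, m + 1 < P.mt → Y u (48 * m + 25) ≤ P.η (m + 1) ∧ P.η (m + 1) ≤ Y u (48 * m + 26)

variable {u c m L : ℕ} {P : Scales}

theorem TS.c_le (h : TS u c P) {j : ℕ} (hj : j ≤ 29) : c ^ j ≤ Y u 0 :=
  (Nat.pow_le_pow_right (by have := h.c16; omega) hj).trans h.cY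

theorem TS.sh (h : TS u c P) : P.Sh fun m => Nat.casesOn m c fun m => Y u (48 * m + 24) := by
  have hu := h.hu
  have h1 : c ≤ Y u 0 := by simpa using h.c_le (j := 1) (by norm_num)
  refine ⟨h.pos, h.σ0, h.c16, h.t, h.k, fun m hm => ?_, fun m hm => ?_, fun m hm => ?_,
    fun m hm => ?_, fun m hm => ?_⟩ <;> rcases m with _ | m <;> dsimp only
  · tier! 0
  · tier! (48 * m + 24)
  · exact h.a 0 hm
  · exact (h.a _ hm).trans (h1.trans (Y_mono (by omega)))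
  · rw [h.σ0]; omega
  · exact h.σ m hm
  · exact (h.c_le (by norm_num)).trans h.η0.1
  · exact le_trans (by tier! (48 * m + 24)) (h.η m hm).1
  · exact h.η0.2.trans (Y_mono (by omega))
  · exact (h.η m (by omega)).2.trans (Y_mono (by omega))

theorem TS.η_le (h : TS u c P) (hm : m < P.mt) : P.η m ≤ Y u (48 * m + 5) := by
  rcases m with _ | m
  exacts [h.η0.2, (h.η m hm).2.trans (Y_mono (by omega))]

/-- `Scales.Ok`. -/
theorem TS.ok (h : TS u c P) (hL : ∀ m < P.mt, 2 * P.η m < L) : P.Ok L := h.sh.ok hL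

theorem TS.ok' (h : TS u c P) (hL : Y u (48 * (P.mt - 1) + 6) ≤ L) : P.Ok L := h.ok fun m hm => by
  have hu := h.hu
  have := h.η_le hm
  exact lt_of_lt_of_le (by tier! (48 * (P.mt - 1) + 5)) hL

theorem TS.hA (h : TS u c P) : 11 * P.ρ 0 + 6 ≤ Y u 0 := h.sh.hA (h.c_le (by norm_num))

theorem TS.ρ_succ (h : TS u c P) (hm : m + 1 < P.mt) : Pb u (48 * m + 24) 3 (P.ρ (m + 1)) := by
  have := h.sh.box hm
  unfold Pb
  dsimp only at this
  omega

theorem TS.K_zero (h : TS u c P) : Rb u 0 1 (P.K 0) :=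
  .of_le (zero_le_one.trans (one_le_K P 0)) (h.sh.K_zero.trans (by exact_mod_cast h.cY)) le_rfl

theorem TS.K_succ (h : TS u c P) (hm : m + 1 < P.mt) : Rb u (48 * m + 24) 58 (P.K (m + 1)) :=
  ⟨zero_le_one.trans (one_le_K P _), h.sh.K_le hm⟩

/-- `K m` is polynomial in the tier `48 m`. -/
theorem TS.K_le (h : TS u c P) (hm : m < P.mt) : Rb u (48 * m) 58 (P.K m) := by
  rcases m with _ | m
  exacts [h.K_zero.mono (by norm_num), (h.K_succ hm).lift (by omega)]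

/-- `Gl.Nu` from the leaf tiers. -/
theorem TS.nu {T : ℕ} {W : Wd T} {F : I.Lf} {t x0 j : ℕ} (h : TS u c P) (ok : P.Ok L)
    (hl : 2 * t * F.l1 < F.l) (hm : 2 * t * F.n1 ≤ P.a 0) (hA : F.A = Y u 0)
    (hj : P.a 0 + 2 * (2 * t * F.j1 + x0) ≤ j) (hj' : j ≤ Y u 2) (hη : F.l * Y u 3 ≤ P.η 0)
    (h3 : F.l * Y u 3 ≤ F.r3) (hr : 8 * P.η 0 ≤ F.r0)
    (fine : 2 * (W.Bd.card + L ^ 3 * j + 1) ≤ W.w) : Nu W L F P t x0 j := by
  have hu := h.hu
  have h1 : 2 * (j * (2 * Y u 0 + 1)) + Y u 0 < Y u 3 := by tier! 2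
  have h2 : (F.l + 1) * (j * (2 * F.A + 1)) + F.A < F.l * Y u 3 := by
    rw [hA]
    obtain ⟨l, e⟩ : ∃ l, F.l = l + 1 := ⟨F.l - 1, by omega⟩
    rw [e]
    nlinarith [Nat.mul_le_mul_left l h1.le]
  exact ⟨ok, by omega, hm, hj, hr, ⟨hA ▸ h.hA, hA ▸ h.η0.1⟩, hl, by omega, by omega, fine⟩

/-! ### gains -/

theorem sqrt_le_s {r : ℝ} {i j : ℕ} (h : r ≤ s u i ^ (2 * j)) : √r ≤ s u i ^ j :=
  Real.sqrt_le_iff.2 ⟨pow_nonneg (s_pos _ _).le _, by rwa [← pow_mul, mul_comm]⟩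

/-- `r (1 + log N) ^ 2 / d` is small. -/
theorem Rb.lg {k e i j N d : ℕ} {r : ℝ} (hu : 100 ≤ u) (h : Rb u k e r)
    (he : 2 * (e + 1 + j) ≤ 1000000) (hi : i ≤ k) (hd : Y u (k + 1) ≤ d) (hN : N ≤ d) :
    r * (1 + (Nat.log 2 N : ℝ)) ^ 2 / d ≤ s u i ^ j := by
  have d1 : 1 ≤ d := (one_le_Y _ _).trans hd
  have h1 : (1 + (Nat.log 2 N : ℝ)) ^ 2 ≤ 7 * √d :=
    le_trans (by gcongr) (log_sq d1)
  have h2 := sqrt_gain (c := 7 * r) (e := r * (1 + (Nat.log 2 N : ℝ)) ^ 2) (g := Y u i ^ j) d1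
    (Nat.one_le_pow _ _ (Y_pos _ _)) ((mul_le_mul_of_nonneg_left h1 h.1).trans_eq (by ring))
    (le_trans (((((Rb.num hu (r := 7) (by norm_num)).mul h).mul
      (Rb.cast ((Pb.tier (u := u) hi).pow (j := j)))).pow (j := 2)).up (by omega) k.lt_succ_self)
      (by exact_mod_cast hd))
  rwa [Nat.cast_pow, one_div, ← inv_pow] at h2

theorem rb_s {i j : ℕ} {r : ℝ} (hr : Rb u i 1 r) : r * s u i ^ (j + 1) ≤ s u i ^ j := by
  rw [pow_succ', ← mul_assoc]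
  refine mul_le_of_le_one_left (pow_nonneg (s_pos _ _).le _) ?_
  have := mul_le_mul_of_nonneg_right hr.2 (s_pos u i).le
  rwa [pow_one, mul_comm (Y u i : ℝ), s_mul] at this

section clean
variable {A m1 d k i j : ℕ}

theorem Cc_rb {e : ℕ} (hu : 100 ≤ u) (hA : A ≤ Y u k) (hK : Rb u k e (P.K (m1 - 1))) :
    Rb u k (e + 4) (Cc P A m1 1) := by
  have : Cc P A m1 1 = 16 * (A : ℝ) + 6000000 * P.K (m1 - 1) := by simp [Cc]; ring
  rw [this]
  exact (((Rb.num hu (by norm_num)).mul (Rb.cast (Pb.of_le hA le_rfl))).add hu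
    ((Rb.num hu (by norm_num)).mul hK)).mono (by omega)

/-- `Cc η / d` (`η = 1` for `G1s`). -/
theorem Cc_gain {e η N : ℕ} (hu : 100 ≤ u) (hA : A ≤ Y u k) (hK : Rb u k e (P.K (m1 - 1)))
    (hη : η ≤ Y u k) (he : 2 * (e + 6 + j) ≤ 1000000) (hi : i ≤ k) (hd : Y u (k + 1) ≤ d)
    (hN : N ≤ d) : Cc P A m1 N * η / d ≤ s u i ^ j := by
  refine le_trans ?_ (((Cc_rb hu hA hK).mul (Rb.cast (Pb.of_le hη le_rfl))).lg hu (by omega) hi hd hN)
  have h1 : (1 : ℝ) ≤ (1 + (Nat.log 2 N : ℝ)) ^ 2 := one_le_pow₀ (le_add_of_nonneg_right (by positivity))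
  have h2 : Cc P A m1 N ≤ Cc P A m1 1 * (1 + (Nat.log 2 N : ℝ)) ^ 2 := by
    have := mul_le_mul_of_nonneg_left h1 (Nat.cast_nonneg (α := ℝ) A)
    simp only [Cc, Nat.log_one_right, Nat.cast_zero, add_zero, one_pow, mul_one]
    nlinarith
  rw [mul_right_comm]
  gcongr

end clean

section tube
variable {L : ℕ} [NeZero L] {α κ : Type} [SemilatticeSup α] [Preorder κ]
  {S : Rg.Sys (Tor 3 L) α κ} {G : Tr.Eg} {k k' : ℕ → ℕ} {A lo d i j : ℕ}

/-- the tube lies on the tiers. -/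
structure TQ (u : ℕ) (S : Rg.Sys (Tor 3 L) α κ) (G : Tr.Eg) (P : Scales) (k k' : ℕ → ℕ) :
    Prop where
  mt : P.mt = G.mt + 1
  Q : Tb.QQ S G ≤ Y u 0
  k : ∀ l ≤ G.mt, Y u (48 * l + 17) ≤ 2 ^ k l
  k' : ∀ l < G.mt, Y u (48 * l + 28) ≤ 2 ^ k' l

theorem tau_nn : 0 ≤ Tb.tau S G P k k' lo G.mt :=
  mul_nonneg (by positivity) (add_nonneg (Tb.cw_nn _ _) (sum_nonneg fun _ _ => Tb.cw_nn _ _))

theorem TS.tau_le (h : TS u c P) (H : TQ u S G P k k') (hlo : lo ≤ G.mt) (hj : j ≤ 400000) :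
    Tb.tau S G P k k' lo G.mt ≤ s u (48 * lo + 16) ^ j := by
  have hu := h.hu
  have key : ∀ {r μ a b e : ℕ}, Rb u a 58 (P.K (μ - 1)) → Y u (a + 1) ≤ r → e ≤ 400100 → b ≤ a →
      Tb.cw P r μ ≤ s u b ^ e := fun {r μ a b e} h1 h2 h3 h4 => sqrt_le_s (by
    have := h1.dv (j := 2 * e) (d := 2 * r + 1) (by omega) a.lt_succ_self h4 (h2.trans (by omega))
    exact_mod_cast this)
  have h1 := key (μ := lo + 1) (e := j + 3) ((h.K_le (by rw [H.mt]; omega)).lift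
    (show 48 * lo ≤ 48 * lo + 16 by omega)) (H.k lo hlo) (by omega) le_rfl
  have h2 := (sum_le_sum fun l hl => (key (μ := l + 2) (e := 1) ((h.K_succ (by
    rw [H.mt]; have := (mem_Ico.1 hl).2; omega)).lift (show _ ≤ 48 * l + 27 by omega))
    (H.k' l (mem_Ico.1 hl).2) (by omega) le_rfl).trans_eq (pow_one _)).trans
    (sum_s hu (t := fun l => 48 * l + 27) (fun l => by omega) lo G.mt)
  have h3 : 2 * s u (48 * lo + 27) ≤ s u (48 * lo + 16) ^ (j + 3) :=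
    (Rb.num (k := 48 * lo + 16) hu (by norm_num)).sm (by omega) (by omega) le_rfl
  have h4 := rb_s (j := j + 2) (Rb.num (k := 48 * lo + 16) hu (r := 2) (by norm_num))
  have h5 := rb_s (j := j + 1) (Rb.cast (Pb.of_le (k := 48 * lo + 16) H.Q (by omega)))
  have h6 := rb_s (j := j) (Rb.num (k := 48 * lo + 16) hu (r := 600) (by norm_num))
  unfold Tb.tau
  rw [mul_assoc]
  refine le_trans (mul_le_mul_of_nonneg_left ((mul_le_mul_of_nonneg_left ?_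
    (Nat.cast_nonneg _)).trans h5) (by norm_num)) h6
  linarith

theorem TS.tau_one (h : TS u c P) (H : TQ u S G P k k') (hlo : lo ≤ G.mt) :
    Tb.tau S G P k k' lo G.mt ^ 2 ≤ 1 :=
  pow_le_one₀ tau_nn (by simpa using h.tau_le (j := 0) H hlo (by norm_num))

/-- the constant of one window. -/
theorem TS.cT_one (h : TS u c P) (H : TQ u S G P k k') (hA : A ≤ Y u 0) :
    Rb u 0 8 (cT S G P k k' A 0 1) := by
  have hu := h.hu
  have h1 := h.K_zero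
  have h2 : Rb u 0 0 (Tb.tau S G P k k' 0 G.mt ^ 2) :=
    ⟨sq_nonneg _, by simpa using h.tau_one H (Nat.zero_le _)⟩
  have : cT S G P k k' A 0 1 = 16 * (A : ℝ) + 2000000000 * (P.K 0 + Tb.tau S G P k k' 0 G.mt ^ 2) := by
    simp [cT]; ring
  rw [this]
  exact (((Rb.num hu (by norm_num)).mul (Rb.cast (Pb.of_le hA le_rfl))).add hu
    ((Rb.num hu (by norm_num)).mul (h1.add hu h2))).mono (by omega)

/-- `cT η / d`, `N η ≤ d` (`η = 1`, `N = d = M` for `shortT`). -/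
theorem TS.cT_gain {a e η N : ℕ} (h : TS u c P) (H : TQ u S G P k k') (hlo : lo ≤ G.mt)
    (hA : A ≤ Y u a) (hK : Rb u a e (P.K lo)) (hη : η ≤ Y u a) (he : e ≤ 1000) (hj : j ≤ 300000)
    (hi : i ≤ a) (hi' : i ≤ 48 * lo + 16) (hd : Y u (a + 1) ≤ d) (hN : N ≤ d) (hN' : N * η ≤ d) :
    cT S G P k k' A lo N * η / d ≤ s u i ^ j := by
  have hu := h.hu
  have d0 : (0 : ℝ) < d := by exact_mod_cast (Y_pos _ _).trans_le hd
  have h1 := Cc_gain (P := P) (m1 := lo + 1) (j := j + 2) hu hA hK hη (by omega) hi hd hN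
  have h2 : Tb.tau S G P k k' lo G.mt ^ 2 ≤ s u i ^ (j + 2) :=
    (mul_le_of_le_one_right tau_nn ((h.tau_le (j := 0) H hlo (by norm_num)).trans_eq
      (pow_zero _))).trans' (sq _).le |>.trans ((h.tau_le H hlo (by omega)).trans
      (pow_le_pow_left₀ (s_pos _ _).le (s_anti hi') _))
  have h3 : (N : ℝ) * η / d ≤ 1 := (div_le_one d0).2 (by exact_mod_cast hN')
  have h4 := rb_s (j := j + 1) (Rb.num (k := i) hu (r := 2000000000) (by norm_num))
  have h5 := rb_s (j := j) (Rb.num (k := i) hu (r := 2) (by norm_num))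
  have h6 : cT S G P k k' A lo N * η / d ≤ 400 * (Cc P A (lo + 1) N * η / d) +
      2000000000 * (Tb.tau S G P k k' lo G.mt ^ 2 * (N * η / d)) := by
    have : 0 ≤ (A : ℝ) * η / d := by positivity
    have : 0 ≤ P.K lo * (1 + (Nat.log 2 N : ℝ)) ^ 2 * η / d := by have := hK.1; positivity
    simp only [cT, Cc, Nat.add_sub_cancel, add_mul, add_div, mul_add, mul_assoc, mul_div_assoc] at *
    nlinarith
  have h7 := mul_le_mul h2 h3 (by positivity) (pow_nonneg (s_pos _ _).le _)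
  have h8 := pow_nonneg (s_pos u i).le (j + 2)
  linarith

/-- **far pairs at level `m + 1`.** -/
theorem TS.gF_succ (h : TS u c P) (H : TQ u S G P k k') (hm : m + 1 ≤ G.mt) (hA : A ≤ Y u 0)
    (hd : Y u (48 * m + 27) ≤ d) (hj : j ≤ 300000) :
    gF S G P k k' A (m + 1) d ≤ s u (48 * m + 26) ^ j :=
  have hm' : m + 1 < P.mt := by rw [H.mt]; omega
  h.cT_gain H hm (hA.trans (Y_mono (Nat.zero_le _))) ((h.K_succ hm').lift (by omega)) (h.η m hm').2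
    (by norm_num) hj le_rfl (by omega) hd (Nat.div_le_self _ _)
    ((Nat.mul_le_mul_left _ (by omega)).trans (Nat.div_mul_le_self d (4 * P.η (m + 1))))

/-- **far pairs at level `0`**, `5 ≤ i ≤ 16`. -/
theorem TS.gF_zero (h : TS u c P) (H : TQ u S G P k k') (hA : A ≤ Y u 0) (hi : 5 ≤ i) (hi' : i ≤ 16)
    (hd : Y u (i + 1) ≤ d) (hj : j ≤ 300000) : gF S G P k k' A 0 d ≤ s u i ^ j :=
  h.cT_gain H (Nat.zero_le _) (hA.trans (Y_mono (Nat.zero_le _))) (h.K_zero.lift (Nat.zero_le _))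
    (h.η0.2.trans (Y_mono hi)) (by norm_num) hj le_rfl (by omega) hd (Nat.div_le_self _ _)
    ((Nat.mul_le_mul_left _ (by omega)).trans (Nat.div_mul_le_self d (4 * P.η 0)))

/-- the escape term of `shortT`. -/
theorem TS.cT_M {M : ℕ} (h : TS u c P) (H : TQ u S G P k k') (hA : A ≤ Y u 0) (hi' : i ≤ 16)
    (hM : Y u (i + 1) ≤ M) (hj : j ≤ 300000) : cT S G P k k' A 0 M / M ≤ s u i ^ j := by
  simpa using h.cT_gain (η := 1) H (Nat.zero_le _) (hA.trans (Y_mono (Nat.zero_le _)))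
    (h.K_zero.lift (Nat.zero_le _)) (one_le_Y _ _) (by norm_num) hj le_rfl (by omega) hM le_rfl
    (by omega)

/-- the window term of `lagT`, `shortT`. -/
theorem TS.cT_N {N : ℕ} (h : TS u c P) (H : TQ u S G P k k') (hA : A ≤ Y u 0)
    (hN : Y u (i + 1) ≤ N) (hj : j ≤ 300000) : cT S G P k k' A 0 1 / N ≤ s u i ^ j :=
  ((h.cT_one H hA).lift (Nat.zero_le i)).dv (by omega) i.lt_succ_self le_rfl hN

end tube

/-- the final form of a Green bound. -/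
theorem Cg_small {κ μ a a' e : ℝ} {i j : ℕ} (hu : 100 ≤ u) (hκ : Rb u 0 1 (Cg κ))
    (hμ : μ ≤ s u i ^ (j + 2)) (ha : a ≤ s u i ^ (j + 2)) (ha' : a' ≤ s u i ^ (j + 2))
    (he : e ≤ s u i ^ (j + 2)) : Cg κ * (μ + (a + a') + e) ≤ s u i ^ j := by
  have h4 := rb_s (j := j + 1) (Rb.num (k := i) hu (r := 4) (by norm_num))
  exact (mul_le_mul_of_nonneg_left (by linarith) hκ.1).trans (rb_s (hκ.lift (Nat.zero_le i)))

theorem Cg_small' {κ μ a e : ℝ} {i j : ℕ} (hu : 100 ≤ u) (hκ : Rb u 0 1 (Cg κ))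
    (hμ : μ ≤ s u i ^ (j + 2)) (ha : a ≤ s u i ^ (j + 2)) (he : e ≤ s u i ^ (j + 2)) :
    Cg κ * (μ + a + e) ≤ s u i ^ j := by
  simpa using Cg_small (a' := 0) hu hκ hμ ha (pow_nonneg (s_pos _ _).le _) he

end Crest.Agent.N337.Par
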