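import Crest.Agent.N337.Par.Y
import Crest.Agent.N337.G4.Inst

/-!
# Row 337 (helper42): the numbers of G4 on the tiers (`x l i = Y u (48 l + 11 + i)`)
-/

set_option autoImplicit false
set_option linter.unusedSectionVars false

namespace Crest.Agent.N337.Par

open Finset Crest.Agent.N337.Free Crest.Agent.N337.Rg Crest.Agent.N337.Tr G4

/-- prices. -/
noncomputable def pz4 (u : ℕ) : Rs.Pz where
  k0 := 6 * Y u 4
  η := s u 60 / 2
  cF := (Y u 4 : ℝ) ^ 2 * s u 6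
  dd l := Y u (48 * l + 15)
  γ l := s u (48 * l + 6)
  ε l := s u (48 * l + 60)

/-- fronts. -/
def gp4 (u N c : ℕ) : Rs.Gp where
  N := N
  c := c
  Rm l := Y u (48 * l + 25)
  dc l := Y u (48 * l + 26)
  W l := Y u (48 * l + 30)
  sg l := Y u (48 * l + 22)
  un l := Y u (48 * l + 21)
  A l := Y u (48 * l + 20)
  fr := Y u 11

/-- paths. -/
def np4 (u mt vol : ℕ) (v lc Sc : ℕ → ℕ) (Kr : ℕ → ℝ) : Sp.Np where
  K l := 6 * Y u (48 * l + 6) * if l < mt then Y u (48 * l + 11) else 3 * vol * Y u (48 * l + 6)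
  ρ _ := 1
  σ l := Y u (48 * l + 13)
  Δ l := if l = 0 then 1 else Y u (48 * (l - 1) + 12)
  v := v
  f l := Y u (48 * l + 14)
  Nn l := if l < mt then Y u (48 * l + 27) else vol
  lc := lc
  Sc := Sc
  Hc l := Y u (48 * l + 31)
  r0 := Y u 11
  Kr := Kr

variable {L : ℕ} {α κ : Type} [SemilatticeSup α] [Preorder κ]

/-- what the numbers need of the internal rung system and of the routes. -/
structure H4 (u : ℕ) (S : Sys (Tor 3 L) α κ) (G : Eg) (N c : ℕ) : Prop where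
  hu : 100 ≤ u
  d : ∀ x y, S.d x y = tdist x y
  a1 : 2 * D ^ 48 ≤ S.a1 + 1 ∧ 2 * (S.a1 + 1) ≤ Y u 0
  ρ : ∀ l, S.ρ l = Y u (48 * l + 11)
  sep : ∀ l < G.mt, Y u (48 * l + 16) ≤ S.sep l ∧ S.sep l ≤ G.σ l
  c : G.c ≤ c ∧ 1 ≤ G.c ∧ G.c ≤ Y u 0
  q : N + S.a1 ≤ qf S G
  A : ∀ l < G.mt, G.A l ≤ Y u (48 * l + 20)
  σ : ∀ l < G.mt, Pb u (48 * l + 19) 10 (G.σ l)
  W : ∀ l < G.mt, Y u (48 * l + 26) ≤ G.W l
  Rs : ∀ l < G.mt, Y u (48 * l + 20) ≤ G.Rs l ∧ G.Rs l ≤ Y u (48 * l + 29)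
  rr : ∀ l < G.mt, Y u 11 ≤ G.rr l
  hL : ∀ l < G.mt, 2 * (2 * G.Rs l + G.W l) < L
  mt : 1 ≤ G.mt

variable {u N c : ℕ} {S : Sys (Tor 3 L) α κ} {G : Eg}

lemma loc_le4 (hu : 100 ≤ u) (h : ∀ l, S.ρ l = Y u (48 * l + 11)) (l : ℕ) :
    S.loc l ≤ Y u (48 * l + 12) := by
  induction l with
  | zero => exact (h 0).trans_le (Y_mono (by omega))
  | succ l ih => rw [Sys.loc, h]; tier! (48 * (l + 1) + 11)

/-- one step of a tree recursion. -/
lemma rec_le {k j e a : ℕ} {r : ℝ} (h : Rb u k e r) (he : 2 * e ≤ 1000000) (ha : 2 * D ^ j ≤ a) :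
    (r * s u (k + 1)) ^ a ≤ s u (k + 1 + j) := by
  have s0 := s_pos u (k + 1)
  have h0 : 0 ≤ r * s u (k + 1) := mul_nonneg h.1 s0.le
  have h1 : r ^ 2 * s u (k + 1) ≤ 1 := by
    simpa using (h.pow (j := 2)).sm (j := 0) (i := 0) (by omega) k.lt_succ_self (Nat.zero_le _)
  have h2 : (r * s u (k + 1)) ^ 2 ≤ s u (k + 1) := by nlinarith
  have h3 : r * s u (k + 1) ≤ 1 := by nlinarith [s_le_one u (k + 1)]
  refine (pow_le_pow_of_le_one h0 h3 ha).trans ?_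
  rw [pow_mul]
  exact pow_small (by positivity) h2 le_rfl

lemma rec4 (hu : 100 ≤ u) (a1 : 2 * D ^ 48 ≤ S.a1 + 1) (hρ : ∀ l, S.ρ l = Y u (48 * l + 11)) (k : ℕ) :
    ((2 * S.ρ (k + 1) + 1 : ℕ) ^ 3 * s u (48 * k + 60) : ℝ) ^ (S.a1 + 1) ≤ s u (48 * (k + 1) + 60) := by
  rw [hρ]
  exact rec_le (k := 48 * k + 59) (j := 48) (by r_bd) (by norm_num) a1

/-- the trees (internal or external system). -/
theorem nt4 {m : ℕ} (hu : 100 ≤ u) (hd : ∀ x y, S.d x y = tdist x y)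
    (a1 : 2 * D ^ 48 ≤ S.a1 + 1 ∧ 2 * (S.a1 + 1) ≤ Y u 0) (hρ : ∀ l, S.ρ l = Y u (48 * l + 11))
    (hs : ∀ l < m, Y u (48 * l + 16) ≤ S.sep l) : Rs.NT S (pz4 u) m := by
  have a2 := a1.2
  refine ⟨hd, ?_, ⟨by have := s_pos u 60; simp only [pz4]; positivity, by simp [pz4, mul_div_cancel₀]⟩,
    mul_pos (pow_pos (Yr_pos _ _) _) (s_pos _ _), fun k => ⟨(s_pos _ _).le, ?_⟩, fun k => (s_pos _ _).le,
    fun k _ => rec4 hu a1.1 hρ k, fun k hk => ⟨one_le_Y _ _, le_trans ?_ (hs k hk)⟩⟩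
  · have := a1.1
    have := one_le_Dp 48
    omega
  · simp only [pz4]
    rw [one_div, inv_pow, ← div_eq_mul_inv, le_div_iff₀ (by positivity)]
    have e : ((S.a1 + 1 : ℕ) : ℝ) ^ (k + 1) * (((6 * Y u 4 : ℕ) : ℝ) * (2 * s u (48 * k + 6))) *
        2 ^ (k + 1) = (((2 * (S.a1 + 1)) ^ (k + 1) * 12 * Y u 4 : ℕ) : ℝ) * s u (48 * k + 6) := by
      push_cast; rw [mul_pow]; ring
    rw [e]
    rcases k with _ | k
    · refine mul_le_mul_of_nonneg_right ?_ (s_pos _ _).le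
      have : (2 * (S.a1 + 1)) ^ (0 + 1) * 12 ≤ Y u 4 := by tier! 0
      exact_mod_cast (Nat.mul_le_mul_right _ this).trans_eq (sq _).symm
    · have b := pow_pow_le a2 (lt_Dp (k + 1 + 1)).le
      refine le_trans (b := s u 6) (by rtier! (k + 6)) (le_mul_of_one_le_left (s_pos _ _).le ?_)
      exact one_le_pow₀ (by exact_mod_cast one_le_Y u 4)
  · have := loc_le4 hu hρ k
    simp only [pz4]
    tier! (48 * k + 15)

theorem H4.nt (h : H4 u S G N c) : Rs.NT S (pz4 u) G.mt :=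
  nt4 h.hu h.d h.a1 h.ρ fun l hl => (h.sep l hl).1

theorem H4.ng (h : H4 u S G N c) : Rs.NG S G (gp4 u N c) := by
  have hu := h.hu
  have hc := h.c.2.2
  refine ⟨⟨h.c.1, h.c.2.1⟩, h.q, fun l hl => ?_, fun l hl => ?_, fun l hl => ?_, fun l i hl hi => ?_,
    fun l hl => (h.ρ 0).trans_le (h.rr l hl), h.hL, Y_mono (by omega), h.mt⟩ <;>
    have h1 := loc_le4 hu h.ρ l <;> simp only [gp4]
  · have h2 := h.σ l hl
    exact ⟨h.A l hl, by tier! (48 * l + 19), (h.Rs l hl).1, by tier! (48 * l + 20)⟩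
  · have h2 := h.σ l hl
    exact ⟨(h.sep l hl).2, by tier! (48 * l + 19), le_trans (by tier! (48 * l + 25)) (h.W l hl)⟩
  · have h2 := (h.Rs l hl).2
    exact ⟨by tier! (48 * l + 29), h.ρ _ ▸ h2.trans (Y_mono (by omega))⟩
  · have h2 := (h.Rs l (by omega)).2
    tier! (48 * l + 29)

theorem H4.sum (h : H4 u S G N c) (l : ℕ) : ∑ i ∈ Ico l G.mt,
    ((2 * (gp4 u N c).A i + 1 : ℕ) ^ 3 * (pz4 u).ε i +
      ((2 * S.ρ (i + 1) + 1 : ℕ) ^ 3 * (pz4 u).ε i) ^ (S.a1 + 1)) ≤ (pz4 u).γ l / 2 := by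
  have hu := h.hu
  have h1 := sum_s hu (t := fun i => 48 * i + 59) (fun i => by omega) l G.mt
  have h2 : 8 * s u (48 * l + 59) ≤ s u (48 * l + 6) := by rtier! (48 * l + 6)
  refine (sum_le_sum (g := fun i => 2 * s u (48 * i + 59)) fun i _ => ?_).trans ?_
  · have h3 := (rec4 hu h.a1.1 h.ρ i).trans (s_anti (show 48 * i + 59 ≤ _ by omega))
    have h4 : ((2 * Y u (48 * i + 20) + 1 : ℕ) : ℝ) ^ 3 * s u (48 * i + 60) ≤ s u (48 * i + 59) := by
      rtier! (48 * i + 59)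
    simp only [pz4, gp4]
    linarith
  · rw [← mul_sum]
    simp only [pz4]
    linarith

theorem np4_ok {n vol : ℕ} {v lc Sc : ℕ → ℕ} {Kr : ℕ → ℝ} (hu : 100 ≤ u)
    (hf : (D ^ 20 + 1).factorial ≤ Y u 0) (hn : n ≤ Y u 0) (hN : N ≤ Y u 0)
    (hc : (2 * c + 2) ^ N ≤ Y u 0) (hv : ∀ l < G.mt, v l ≤ Y u (48 * l + 12))
    (hlc : ∀ l < G.mt, lc l ≤ Y u (48 * l + 13)) (hS : ∀ l < G.mt, Sc l ≤ Y u (48 * l + 24))
    (hK : ∀ l < G.mt, Kr l ≤ Y u (48 * l + 13)) :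
    Sp.NP G (gp4 u N c) (pz4 u) (np4 u G.mt vol v lc Sc Kr) n vol := by
  refine ⟨fun l => ⟨s_pos _ _, (s_le_one _ _).trans (by norm_num)⟩,
    fun a b hab => s_anti (by omega), le_rfl, fun l hl => ?_, fun l hl => ⟨?_, ?_⟩, fun l hl => ?_,
    by simp [np4], fun l hl => ?_, fun l hl => ?_, fun l hl => ⟨?_, ?_⟩, fun l hl => ?_,
    fun l hl => ?_, fun l hl => ?_⟩ <;> simp only [np4, gp4, pz4]
  · have : (if l = 0 then 1 else Y u (48 * (l - 1) + 12)) ≤ Y u (48 * l + 11) := by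
      split_ifs; exacts [one_le_Y _ _, Y_mono (by omega)]
    rw [if_pos hl, if_neg l.succ_ne_zero, Nat.add_sub_cancel]
    tier! (48 * l + 11)
  · have h1 := self_le_Y hu l
    refine le_trans (b := 1 + (l + 1) * Y u (48 * l + 12)) (Nat.add_le_add_left
      ((sum_le_card_nsmul _ _ (Y u (48 * l + 12)) fun t ht => ?_).trans (by simp)) _) ?_
    · rw [if_neg t.succ_ne_zero]
      exact Y_mono (by have := mem_range.1 ht; omega)
    · tier! (48 * l + 12)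
  · tier! (48 * l + 21)
  · have y0 := Yr_pos u (48 * l + 6)
    have e : ∀ a : ℕ, s u (48 * l + 6) * ((6 * Y u (48 * l + 6) * a : ℕ) : ℝ) / 6 = a := fun a => by
      rw [s]; push_cast; field_simp
    rw [e, s, inv_mul_eq_div, le_div_iff₀ y0]
    split_ifs
    · refine le_trans ?_ (Y_le_exp (k := 48 * l + 11) hf)
      rtier! (48 * l + 27)
    · exact le_trans (by push_cast; linarith) (Real.add_one_le_exp _)
  · have h1 : 40 * Y u (48 * l + 13) + Y u (48 * l + 11) ≤ Y u (48 * l + 14) := by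
      tier! (48 * l + 13)
    have h2 : (40 * Y u (48 * l + 13) + Y u (48 * l + 11) : ℝ) ≤ Y u (48 * l + 14) := by
      exact_mod_cast h1
    rw [if_pos hl]
    refine le_trans (mul_le_mul_of_nonneg_left ((Real.exp_le_exp.2 (by linarith [hK l hl])).trans
      (exp_neg_le (k := 48 * l + 11) hf)) (Nat.cast_nonneg _)) ?_
    rtier! (48 * l + 27)
  · have h1 := hv l hl
    have h2 := hlc l hl
    rw [if_pos hl]
    tier! (48 * l + 25)
  · rw [one_mul]; exact Y_mono (by omega)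
  · have h1 := hv l hl
    have h2 := hlc l hl
    rw [one_mul]
    tier! (48 * l + 14)
  · have h1 := hS l hl
    tier! (48 * l + 24)
  · have h1 := hS l hl
    tier! (48 * l + 25)
  · tier! (48 * l + 30)

end Crest.Agent.N337.Par
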