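import Crest.Agent.N337.Par.Sm
import Crest.Agent.N337.Par.G1s
import Crest.Agent.N337.M.LadP
import Crest.Agent.N337.C9.Fin

/-!
# Row 337 (helper7): gains of the key estimate and Green bounds on the tiers
-/

set_option autoImplicit false

namespace Crest.Agent.N337.Par.Tk

open Crest.Agent.N337.M Crest.Agent.N337.C9 Crest.Agent.N337.Free

variable {n u i j k b : ℕ}

lemma rb_c3 (hu : 100 ≤ u) (k : ℕ) : Rb u k 1 c3 := .num hu (by norm_num [c3, c1])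

/-- **the numbers of the key estimate**: `k` = base tier of the medium, `b` = tier of `N`. -/
theorem tkN' (hu : 100 ≤ u) (h1 : 1 ≤ k) (h2 : k + 2 ≤ b) (h3 : b ≤ k + 1000)
    {Y' e κ ε0 q : ℝ} {N nD Bn n1 n2 k0 Km : ℕ} (N1 : 1 ≤ N) (hN : N ≤ Y u b)
    (hD : nD ≤ Y u (b + 1)) (e0 : 0 < e) (he : e ≤ s u (b + 2)) (ε00 : 0 ≤ ε0)
    (hε : ε0 ≤ s u (b + 2)) (hB : Pb u (k + 2) 100 Bn) (hn1 : Pb u (k + 2) 100 n1)
    (hn2 : Pb u (k + 4) 100 n2) (hk0 : 2 ^ k0 = Y u (k + 5)) (hK : Km ≤ Y u (k + 1000))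
    (q0 : 0 < q) (hq : Sm u (k + 2) 1000 q) (κ0 : 0 ≤ κ) (hκ : κ ≤ s u (k + 2))
    (long : Y' ^ Km ≤ s u (b + 2)) :
    TkN (Y u (k + 6)) Y' e (s u (k + 2)) κ ε0 (s u (b + 1)) q (3 * s u (k + 6)) (s u (b + 2))
      N nD Bn n1 n2 k0 Km := by
  have a1 := Sm.of_le (k := b + 1) e0.le he (by omega)
  have a2 := Sm.of_le (k := b + 1) ε00 hε (by omega)
  have l1 := log_pb (k := k + 2) hu (by omega) hK (by omega)
  have l2 := log_pb (k := k + 2) hu (by omega) hN (by omega)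
  have c := rb_c3 hu 0
  refine ⟨N1, e0, Yr_pos _ _, κ0, ε00, s_pos _ _, q0, s_pos _ _, s_le_one _ _, ?_, ?_, ?_, long,
    ?_, hκ, ?_, ?_, ?_⟩
  · rintro rfl
    have := two_le_Y hu (k + 5)
    omega
  · sm! (b + 1)
  · rw [mul_assoc, s_mul, mul_one]
  · exact le_trans (by sm! (k + 1)) (show (1 : ℝ) / 10 ^ 30 ≤ _ by norm_num)
  · have e1 : (2 : ℝ) ^ k0 = Y u (k + 5) := by exact_mod_cast hk0
    have b1 : Sm u (k + 2) 0 (s u (k + 6) * Y u (k + 5)) :=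
      (Sm.mul' (k := k + 5) (by r_bd) (by s_bd)).down (by norm_num) (by omega)
    have b2 : Sm u (k + 2) 0 (24 * n2 / Y u (k + 5)) :=
      (Sm.divY (k := k + 4) (by r_bd) (by omega)).down (by norm_num) (by omega)
    rw [TK.κB, e1, show ∀ a : ℝ, a * (3 * s u (k + 6)) * Y u (k + 5) =
      a * 3 * (s u (k + 6) * Y u (k + 5)) from fun _ => by ring]
    sm! (k + 2)
  · have b1 : Sm u b 0 (√(s u (b + 2))) := Sm.sqrt (e := 0) (by s_bd) (by norm_num)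
    sm! b
  · have b1 : Sm u b 0 (√(33 * e)) := Sm.sqrt (by s_bd) (by norm_num)
    have b2 : Pb u b 100 Bn := hB.trans (Nat.pow_le_pow_left (Y_mono h2) _)
    have b3 : Pb u b 100 n1 := hn1.trans (Nat.pow_le_pow_left (Y_mono h2) _)
    have b4 : Pb u b 2 (Nat.log 2 Km) := l1.trans (Nat.pow_le_pow_left (Y_mono h2) _)
    rw [TK.cB, eT]
    sm! b

/-- **the cross Gram gain**: `a` = tier of the cells, `c` = tier of the zones. -/
theorem κc_le {a c m0 B Km nZ n3 τ : ℕ} {q q2 δ : ℝ} (hu : 100 ≤ u) (h1 : 1 ≤ a) (h2 : a < c)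
    (hi : i ≤ a) (hm : Pb u a 100 m0) (hB : B ≤ Y u (a + 999)) (hK : Km ≤ Y u (a + 999))
    (hZ : Pb u c 100 nZ) (h3 : Pb u c 100 n3) (hτ : Pb u c 100 τ) (hq : Sm u a 1000 q)
    (hq2 : Sm u c 1000 q2) (hδ : Sm u c 1000 δ) : Cr.κc m0 B Km nZ n3 τ q q2 δ ≤ s u i ^ 2 := by
  have l1 := log_pb hu h1 hK (by omega)
  have hm' : m0 ≤ Y u (a + 999) := hm.up (by norm_num) (by omega)
  have l2 := log_pb hu h1 (show 2 * Km * B * m0 ≤ Y u (a + 1000) by tier! (a + 999)) le_rfl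
  have v : Rb u a 105 (Cr.V0 m0 B Km) := by
    rw [Cr.V0]
    generalize Nat.log 2 (2 * Km * B * m0) = l at l2
    exact Rb.mono (by r_bd) (by norm_num)
  have b1 : Sm u a 0 (6 * q2 * (nZ * τ * n3)) := Sm.down (k' := c) (by s_bd) (by norm_num) h2
  have b2 : Sm u a 0 (δ * (2 * Cr.V0 m0 B Km ^ 2 + 2 + 3 * (nZ * τ * n3))) :=
    Sm.down (k' := c) (by s_bd) (by norm_num) h2
  rw [Cr.κc]
  sm! a

/-! ### Green bounds -/

/-- the largest number with `Sm u k 100`. -/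
noncomputable def gm (u k : ℕ) : ℝ := (Y u k : ℝ) ^ 100 * s u (k + 1)

lemma gm_pos (u k : ℕ) : 0 < gm u k := mul_pos (pow_pos (Yr_pos _ _) _) (s_pos _ _)
lemma sm_gm (u k : ℕ) : Sm u k 100 (gm u k) := ⟨(gm_pos u k).le, le_rfl⟩
lemma gm_le {k' : ℕ} (h : i ≤ k') : gm u k' ≤ s u i ^ 1000 := (sm_gm u k').le (by norm_num) h
lemma gm_anti {k' : ℕ} (h : k < k') : gm u k' ≤ gm u k :=
  (((sm_gm u k').down (by norm_num) h).mono (by norm_num)).2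

lemma pb_Vn (h : Bg n u) {e r : ℕ} (hr : Pb u k e r) (he : e ≤ 30) : Pb u k 100 (Vn n r) := by
  have hu := h.hu
  have hn := h.hn
  have := hr.mono he
  rw [Vn]
  exact Pb.mono (by p_bd) (by norm_num)

/-- the top scale of G1 is below the tier `k`. -/
def Sk (u k : ℕ) (S : G1.Scales) : Prop :=
  Rb u k 75 (S.K (S.mt - 1)) ∧ S.η (S.mt - 1) ≤ Y u k

lemma sk {S : G1.Scales} {l : ℕ} (h : Bg n u) (H : GH u i S) (hm : S.mt ≤ l + 2)
    (hk : 48 * l + 31 ≤ k) : Sk u k S := by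
  have := H.i20
  unfold Sk
  obtain e | ⟨a, e⟩ : S.mt - 1 = 0 ∨ ∃ a, S.mt - 1 = a + 1 := by cases S.mt - 1 <;> simp
  · rw [e]
    exact ⟨((H.K0 h).mono (by norm_num)).lift (by omega), (H.η_le h 0).trans (Y_mono (by omega))⟩
  · rw [e]
    exact ⟨(H.K h a).lift (by omega), (H.η a).2.trans (Y_mono (by omega))⟩

lemma sk0 {S : G1.Scales} (h : Bg n u) (H : GH u i S) (hm : S.mt = 1) (hk : 5 ≤ k) :
    Sk u k S := by
  unfold Sk
  rw [hm]
  exact ⟨((H.K0 h).mono (by norm_num)).lift (by omega), (H.η_le h 0).trans (Y_mono (by omega))⟩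

variable {S : G1.Scales} {κ Yw e : ℝ} {A K r : ℕ}

lemma Sk.mono {k' : ℕ} (h : Sk u k S) (hk : k ≤ k') : Sk u k' S :=
  ⟨h.1.lift hk, h.2.trans (Y_mono hk)⟩

lemma Sk.Cc (hu : 100 ≤ u) (h1 : 1 ≤ k) (h : Sk u k S) (hA : A ≤ Y u k)
    (hr : r ≤ Y u (k + 1000)) : Rb u k 90 (G1.Cc S A S.mt r) := by
  have l := log_pb hu h1 hr le_rfl
  have := h.1
  rw [G1.Cc]
  generalize Nat.log 2 r = a at l
  exact Rb.mono (by r_bd) (by norm_num)

/-- **Green bound at distance `r`.** -/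
theorem γd_le (hu : 100 ≤ u) (h1 : 1 ≤ k) (h : Sk u k S) (hA : A ≤ Y u k)
    (hκ : Rb u 0 1 (G1.Cg κ)) (hz : zm Yw K ≤ s u (k + 1)) (he : e ≤ s u (k + 1))
    (r1 : Y u (k + 1) ≤ r) (hr : r ≤ Y u (k + 1000)) : γd κ Yw e S A K r ≤ gm u k := by
  have c := h.Cc hu h1 hA hr
  have := h.2
  refine le_trans (mul_le_mul_of_nonneg_left (add_le_add (add_le_add hz le_rfl) he) hκ.1) ?_
  exact (Sm.mono (by s_bd) (by norm_num)).2

/-- **Green bound at lag `Nb (l + 2) D`.** -/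
theorem γt_le {Nb : ℕ} (hu : 100 ≤ u) (h1 : 1 ≤ k) (h : Sk u k S) (hm : S.mt = 1) (hA : A ≤ Y u k)
    (hκ : Rb u 0 1 (G1.Cg κ)) (hz : zm Yw K ≤ s u (k + 1)) (he : e ≤ s u (k + 1))
    (r1 : Y u (k + 1) ≤ r) (hr : r ≤ Y u (k + 1000)) (hN : Y u (k + 1) ≤ Nb) :
    γt κ Yw e S A K r Nb ≤ gm u k := by
  have c := h.Cc hu h1 hA hr
  have c' := h.Cc (r := 1) hu h1 hA (one_le_Y _ _)
  have := h.2
  rw [hm] at c c' this
  refine le_trans (mul_le_mul_of_nonneg_left (add_le_add (add_le_add hz le_rfl) he) hκ.1) ?_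
  exact (Sm.mono (by s_bd) (by norm_num)).2

end Crest.Agent.N337.Par.Tk
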