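import Crest.Agent.N337.M.LadI
import Crest.Agent.N337.M.CelI
import Crest.Agent.N337.Par.ExcF
import Crest.Agent.N337.Rg.Vis

/-!
# Row 337 (helper62): the ladder and the boxes on the tiers
-/

set_option autoImplicit false
set_option linter.unusedSectionVars false

namespace Crest.Agent.N337.Par.Lad

open Finset Crest.Agent.N337.Free Crest.Agent.N337.Gas Crest.Agent.N337.A Crest.Agent.N337.Top
  Crest.Agent.N337.M Crest.Agent.N337.Ld

/-- tier of the reset probability. -/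
def ti (j : ℕ) : ℕ := 48 * ((j + 1) / 3) - 12 + 1

/-- the parameters of the ladder of level `j + 1`. -/
noncomputable def ldQ (u j : ℕ) : LdQ where
  k := cK
  nD := Y u (48 * ((j + 1) / 3) + 53)
  nB := Y u (48 * (j / 3) + 53)
  nA := Y u (tb j + 1)
  rA := Y u (tb j)
  R0 := Rr u (j / 3) 0
  R1 := Rr u (j / 3) 1
  R2 := Rr u (j / 3) 2
  R3 := Rr u (j / 3) 3
  Nn l := (Y u (ti j) : ℝ) ^ (cK + 1) / (Y u (ti j) : ℝ) ^ l
  ε := eps u ((j + 1) / 3)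
  εn := s u (48 * ((j + 1) / 3) + 11) ^ 1000
  εb := eps u (j / 3)
  π0 := s u (tb j + 2)
  π := s u (ti j) ^ 2
  δ := 1 / Y u (ti j)

variable {L n : ℕ} [NeZero L] [NeZero n] {u ms w j Dw l : ℕ} {β : ℝ} {z : Tor 3 L}

omit [NeZero n] in
lemma locN_le (h : Bg n u) (m : ℕ) : locN (num h Dw 12) m ≤ Y u (48 * m + 12) := by
  have hu := h.hu
  have : ∀ m, locN (num h Dw 12) m ≤ 2 * x u m 0 := fun m => by
    induction m with
    | zero => exact Nat.le_mul_of_pos_left _ two_pos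
    | succ m ih =>
      have h1 : 2 * x u m 0 ≤ x u (m + 1) 0 := by tier! (48 * m + 11)
      change x u (m + 1) 0 + _ ≤ _
      omega
  exact (this m).trans (by tier! (48 * m + 11))

lemma sm_eps (u m : ℕ) : Sm u (48 * m + 59) 0 (eps u m) := Sm.s (by omega)

omit [NeZero n] in
theorem ldI (h : Bg n u) (hj : j ≠ 0) :
    LdI (lev n β u (rt u) z l) (num h Dw 12) n (ldQ u j) j := by
  have hu := h.hu
  have hn := h.hn
  have hK := h.K
  have htm := h.tm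
  have ha := h.a
  have e := tb_eq j
  obtain ⟨t, ht⟩ : ∃ t, t = (lev n β u (rt u) z l).tB (j + 1) 27 (ldQ u j).k := ⟨_, rfl⟩
  have t1 : t + 10 ≤ ctm := by rw [ht, ctm_eq]; exact Rung.tB_le (j := j)
  have t2 : t ≤ Y u 0 := by omega
  have s1 := sm_eps u ((j + 1) / 3)
  have l1 := locN_le (Dw := Dw) h ((j + 1) / 3)
  have a1 : Sm u (48 * ((j + 1) / 3) + 59) 5
      (3 * (Y u (48 * ((j + 1) / 3) + 53) : ℝ) * eps u ((j + 1) / 3)) :=
    Sm.mono (by s_bd) (by norm_num)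
  refine ⟨Rung.ldN_Y (c := 70) (i' := 0) hu le_rfl (by unfold ti; omega) hK cK_eq.ge (pow_pos (s_pos _ _) _).le
      le_rfl (Y_mono (by unfold ti; omega)) (a1.le1 (by norm_num) (by omega)), Rung.tQ_le,
    show ck0 + 27 + 3 ≤ ctm by unfold ctm; omega,
    ht ▸ (show t + 2 ≤ ctm by omega), ?_, (s_pos _ _).le, (pow_pos (s_pos _ _) _).le,
    fun hm => ⟨Y_mono (by omega), ?_⟩, fun m hm => ht ▸ ⟨?_, ?_, ?_⟩, fun h3 => ht ▸ ?_,
    fun h3 => ⟨Y_mono (by omega), (Rung.tB_eq (j := j) (by omega)).le⟩⟩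
  · change Y u (48 * ((j + 1) / 3) + 52) * _ ≤ Y u (48 * ((j + 1) / 3) + 53)
    tier! (48 * ((j + 1) / 3) + 52)
  · have a2 : Sm u (tb j + 1) 5 ((Y u (tb j + 1) : ℝ) * s u (tb j + 2)) :=
      Sm.mono (by s_bd) (by norm_num)
    change 3 * (Y u (48 * ((j + 1) / 3) + 53) : ℝ) * eps u ((j + 1) / 3) +
      (Y u (tb j + 1) : ℝ) * s u (tb j + 2) ≤ s u (ti j) ^ 2
    unfold ti
    sm! 1
  · have b1 := (rad_le h Dw 12 le_rfl (m := m) (t := t) (by omega)).trans (Sx_le h m)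
    have b2 := locN_le (Dw := Dw) h m
    change _ ≤ Y u (tb j)
    tier! (48 * m + 24)
  · change 9 * t * x u m 20 ≤ 2 * x u (m + 1) 0
    exact le_trans (by tier! (48 * m + 31)) (Nat.le_mul_of_pos_left _ two_pos)
  · have a2 : Sm u (tb j + 1) 9 (27 * ((t : ℝ) * ca) * (Y u (tb j + 1) : ℝ) * s u (tb j + 2)) :=
      Sm.mono (by s_bd) (by norm_num)
    have a3 : Sm u (48 * ((j + 1) / 3) + 59) 5
        (4 * (Y u (48 * ((j + 1) / 3) + 53) : ℝ) * eps u ((j + 1) / 3)) :=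
      Sm.mono (by s_bd) (by norm_num)
    have a4 : Sm u (48 * m + 58) 0 (s u (48 * ((j + 1) / 3) + 11) ^ 1000) :=
      .of_le (pow_pos (s_pos _ _) _).le
        (pow_le_of_le_one (s_pos _ _).le (s_le_one _ _) (by norm_num)) (by omega)
    change 4 * (Y u (48 * ((j + 1) / 3) + 53) : ℝ) * eps u ((j + 1) / 3) +
      81 * s u (48 * ((j + 1) / 3) + 11) ^ 1000 +
      27 * ((t : ℝ) * ca) * (Y u (tb j + 1) : ℝ) * s u (tb j + 2) ≤ s u (ti j) ^ 2
    unfold ti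
    sm! (48 * m + 37)
  · have b2 := locN_le (Dw := Dw) h (j / 3)
    have s2 := sm_eps u (j / 3)
    have a2 : Sm u (48 * (j / 3) + 59) 9 ((Y u (48 * (j / 3) + 52) : ℝ) *
        (3 * (Y u (48 * (j / 3) + 53) : ℝ) * eps u (j / 3))) := Sm.mono (by s_bd) (by norm_num)
    refine ⟨?_, ?_, ?_, ?_, ?_, Nat.mul_le_mul_right _ (show t + 1 ≤ ctm + 1 by omega), Rung.le_tI,
      Nat.mul_le_mul_right _ (Nat.pow_le_pow_right (by omega) (by omega)), Rr_mono _ _ (by omega),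
      Rr_mono _ _ (by omega), Rr_mono _ _ (by omega), le_rfl, Y_mono (by omega), ?_, ?_⟩
    · change n * (2 * Y u (48 * ((j + 1) / 3) + 3) + 1) ^ 3 ≤ Y u (48 * (j / 3) + 52)
      tier! (48 * (j / 3) + 51)
    · change Y u (48 * ((j + 1) / 3) + 3) + _ + 1 + 3 * t * x u (j / 3) 20 ≤ x u (j / 3 + 1) 0
      tier! (48 * (j / 3) + 51)
    · change (2 * (Y u (48 * ((j + 1) / 3) + 3) + _ + 1) + 1) ^ 3 ≤ Y u (48 * (j / 3) + 53)
      tier! (48 * (j / 3) + 51)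
    · change Y u (48 * (j / 3) + 52) * _ ≤ Y u (48 * (j / 3) + 53)
      tier! (48 * (j / 3) + 52)
    · have b3 := (Rr_le h (m := j / 3) (i := 3) (by omega)).trans (Sx_le h _)
      change Rr u (j / 3) 3 + _ ≤ Y u (tb j)
      generalize Rr u (j / 3) 3 = a at b3 ⊢
      tier! (48 * (j / 3) + 24)
    · have a3 : Sm u (48 * ((j + 1) / 3) + 59) 9 ((Y u (48 * ((j + 1) / 3) + 52) : ℝ) *
          (3 * (Y u (48 * ((j + 1) / 3) + 53) : ℝ) * eps u ((j + 1) / 3))) :=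
        Sm.mono (by s_bd) (by norm_num)
      have a4 : Sm u (tb j + 1) 9 ((((ctm + 1) * ca : ℕ) : ℝ) * (Y u (tb j + 1) : ℝ) *
          s u (tb j + 2)) := Sm.mono (by s_bd) (by norm_num)
      refine le_trans (?_ : (Y u (48 * (j / 3) + 52) : ℝ) *
        (3 * (Y u (48 * (j / 3) + 53) : ℝ) * eps u (j / 3)) + ((Y u (48 * ((j + 1) / 3) + 52) : ℝ) *
          (3 * (Y u (48 * ((j + 1) / 3) + 53) : ℝ) * eps u ((j + 1) / 3)) +
          (((ctm + 1) * ca : ℕ) : ℝ) * (Y u (tb j + 1) : ℝ) * s u (tb j + 2)) ≤ 1 / 10 ^ 30)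
        (by norm_num)
      sm! 1
    · refine le_trans (?_ : 4 * (Y u (48 * (j / 3) + 52) : ℝ) * ((Y u (48 * (j / 3) + 52) : ℝ) *
        (3 * (Y u (48 * (j / 3) + 53) : ℝ) * eps u (j / 3))) ≤ 1 / 10 ^ 30) (by norm_num)
      sm! (48 * (j / 3) + 59)

variable {sy : List (Sl L n × Sl L n × ℝ)} (C : Ctx u ms β w sy) (z : Tor 3 L)

/-- anchors: sharp speed. -/
theorem ancL (hj : j ≠ 0) : Anc (C.I z) (GT β w sy) (PP n u ms β z).Sd 2 ((j + 1) / 3)
    (Y u (tb j)) (Y u (tb j + 1)) := by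
  have h := C.bg
  have hu := h.hu
  have hn := h.hn
  have hB := C.B2
  have htm := h.tm
  have e := tb_eq j
  refine (Rg.anc (G := GT β w sy) (P := C.Q) (z0 := z) (τ := ctm) C.wd.nn C.hT
    ⟨ll_pos u, by change ck0 + 27 + 2 ≤ ctm; unfold ctm; omega, le_rfl,
      hρ h _ 12 le_rfl (Nat.le_add_right _ _), hJ h _ 12 le_rfl (Nat.le_add_right _ _)⟩ _ _).mono
    (fun _ h => h) le_rfl ?_
  have a1 := lw_le' h (M.Dw w sy) (le_refl 12) (τ := ctm) (Nat.le_add_right _ _) ((j + 1) / 3)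
  change Bw β * (n * (2 * (Y u (tb j) + 1 + (2 * ctm * Y u 1 + C.Q.lw ctm ((j + 1) / 3))) + 1) ^ 3) ≤ _
  generalize C.Q.lw ctm ((j + 1) / 3) = a at a1
  generalize Bw β = B at hB
  tier! (tb j)

/-- **F4** for the top colour of level `j + 1`. -/
theorem f4L (hj : j ≠ 0) {hp : C9.PtN C.Q.toLf (Bw β)} {K j' : ℕ} {e : ℝ}
    (f : C9.F2A (C9.ppI (GT β w sy) C.Q z C.hT hp) (PP n u ms β z).Sd (yl u (j + 1)) 1 ((j + 1) / 3)
      0 0 0 (eps u ((j + 1) / 3)))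
    (g : C9.Gw C.W (GT β w sy) C.Q (gs u ((j + 1) / 3 - 1 + 2)) (yl u (j + 1)) e 2 ((j + 1) / 3) 0 0 K j')
    (hz : C9.zm (Yt u ms) K ≤ s u (tb j + 3)) (he : e ≤ s u (tb j + 3))
    {W : Lp (TT β w sy) (Sl L n) → ℝ} (hW : (C.V z).AdmW j W) :
    F4 (C.I z) (GT β w sy) ((PP n u ms β z).Sn (j + 1)) (yl u (j + 1))
      ((PP n u ms β z).mu (C.I z) (GT β w sy) j W) 1 ((j + 1) / 3) (s u (tb j + 2)) := by
  have h := C.bg
  have hu := h.hu
  have hn := h.hn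
  have et := tb_eq j
  obtain ⟨m, hm⟩ : ∃ m, m = (j + 1) / 3 - 1 := ⟨_, rfl⟩
  obtain ⟨i, hi⟩ : ∃ i, tb j + 2 = 48 * m + 11 + i := ⟨tb j + 2 - (48 * m + 11), by omega⟩
  rw [← hm] at g
  have z0 : 0 ≤ C9.zm (Yt u ms) K := by
    have := Yt_lt u ms
    exact div_nonneg (div_nonneg (by norm_num) (by linarith)) (Nat.cast_nonneg _)
  have a3 := Xc.γd_le (m := m) (Yw := Yt u ms) (K := K) (e := s u (tb j + 3)) (i := i) h h.Cg
    (by omega) (.of_le z0 hz (by omega)) (.s (by omega))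
  have a4 : 4 * x u m 15 ≤ x u m (i + 1) := by tier! (48 * m + 11 + 15)
  have a5 : Sm u (48 * ((j + 1) / 3) + 59) 10
      ((Y u (48 * ((j + 1) / 3) + 53) : ℕ) * eps u ((j + 1) / 3)) := by
    have := sm_eps u ((j + 1) / 3)
    exact Sm.mono (by s_bd) (by norm_num)
  have a6 : Sm u (tb j + 5) 50 (3 / Tf u j * C9.Vn n (x u m (i + 1))) := by
    rw [Tf_ne hj, div_mul_eq_mul_div, C9.Vn]
    exact Sm.mono (by s_bd) (by norm_num)
  refine C9.f4_far (hp := hp) (hT := C.hT) ⟨g.w, g.nu, g.sc, g.hL, g.he.trans he⟩ (s_pos _ _).le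
    (show ck0 + 27 + 1 ≤ ctm by unfold ctm; omega)
    ((I.alvH _ _ _ z _ _).mono le_rfl (nD_le h le_rfl z _)) f (one_le_Y _ _) a4 le_rfl a3.1
    (M.Tf_pos u hj) ?_ hW
  change C9.γd (8 * n ^ 2) (Yt u ms) _ (gs u (m + 2)) (Y u 0) K (x u m (i + 1)) +
    (Y u (48 * ((j + 1) / 3) + 53) : ℕ) * eps u ((j + 1) / 3) + _ ≤ _
  generalize 3 / Tf u j * C9.Vn n (x u m (i + 1)) = c at a6
  generalize (Y u (48 * ((j + 1) / 3) + 53) : ℕ) * eps u ((j + 1) / 3) = b at a5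
  generalize C9.γd _ _ _ _ _ _ _ = a at a3
  rw [hi]
  sm! (48 * m + 11 + i)

theorem ldC (hj : j ≠ 0) (hj' : j ≤ 3 * ms + 3) (hA : C.JA z) (hN : C.JC z)
    (f4 : ∀ W, (C.V z).AdmW j W → F4 (C.I z) (GT β w sy) ((PP n u ms β z).Sn (j + 1))
      (yl u (j + 1)) ((PP n u ms β z).mu (C.I z) (GT β w sy) j W) 1 ((j + 1) / 3) (s u (tb j + 2))) :
    (PP n u ms β z).LdC (C.I z) (GT β w sy) (ldQ u j) j := by
  have yy := yl_mono u (Nat.le_succ j)
  have y1 : yl u (j + 1) ≤ Yt u ms := yl_le (by omega)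
  have c := fun m (h1 : 3 * m ≤ j + 1) => hA m (by omega) _ (yl_mono u h1) y1
  have c' := fun m (h1 : (j + 1) / 3 = m + 1) => hN m (by omega) _
    (yl_mono u (show 3 * m + 3 ≤ j + 1 by omega)) y1
  refine ⟨fun W hW => ((c _ (by omega)).eK (Ctx.nx2 u _) (yl_nn _ _) yy
      (fun g => ⟨(hW g).1, (hW g).2.1⟩) fun h => Ctx.thin hW (by omega) (by omega)).zero, f4,
    ancL C z hj, fun m h => ?_, fun m h => ?_, fun m h W hW => ?_, fun h W hW => ?_⟩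
  · have := (c' m h).n1 _ (yl_nn _ _) yy
    rwa [sx, ← h] at this
  · have := (c' m h).n2
    rwa [sx, ← h] at this
  · have := (c' m h).n3 _ _ (yl_nn _ _) yy
      (Ctx.thin hW (by omega) (by omega))
    rwa [sx, ← h] at this
  · have := (c (j / 3) (by omega)).eK (R := Rr u (j / 3) 0)
      (by rw [nx_Rr, nx_Rr]; exact Rr_mono _ _ (by norm_num)) (yl_nn _ _) yy
      (fun g => ⟨(hW g).1, (hW g).2.1⟩) fun h => Ctx.thin hW (by omega) (by omega)
    rwa [nx_Rr, nx_Rr, nx_Rr] at this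

/-- the word seen by G1 at the scale of the ladder of level `j + 1`. -/
def JG (j : ℕ) : Prop := ∃ K j' e, C9.Gw C.W (GT β w sy) C.Q (gs u ((j + 1) / 3 - 1 + 2)) (Yt u ms) e
  2 ((j + 1) / 3) 0 0 K j' ∧ C9.zm (Yt u ms) K ≤ s u (tb j + 3) ∧ e ≤ s u (tb j + 3)

/-- **the second half of `LadD`** on the final objects. -/
theorem ladH2 (hj : j ≠ 0) (hj' : j ≤ 3 * ms + 3) (hA : C.JA z) (hB : C.JB z) (hN : C.JC z)
    (hG : JG C j) : (PP n u ms β z).LadH2 (C.I z) (GT β w sy) j := by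
  obtain ⟨K, j', e, g, h1, h2⟩ := hG
  have y1 : yl u (j + 1) ≤ Yt u ms := yl_le (by omega)
  exact (ldC C z hj hj' hA hN fun W hW => f4L C z hj
    (hB _ (by omega) _ 1 0 (yl_nn _ _) y1 (by omega) (Nat.zero_le _)).zero
    (g.mono (yl_nn _ _) y1 le_rfl le_rfl le_rfl) h1 h2 hW).ladH2 (fun _ _ => rfl) (ldI C.bg hj)

end Crest.Agent.N337.Par.Lad
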