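import Crest.Agent.N337.Par.Y
import Crest.Agent.N337.G4.LDefs

/-!
# Row 337 (helper76): the costs of the leaves at `θ = 2` on the tiers
-/

set_option autoImplicit false

namespace Crest.Agent.N337.Par

open Crest.Agent.N337.G4.Le

variable {u t n B w : ℕ} {F : I.Lf} {N : Ln} {θ g cF : ℝ}

lemma rb_e (hu : 100 ≤ u) (k : ℕ) : Rb u k 1 (Real.exp 1) :=
  .num hu ⟨(Real.exp_pos 1).le, by linarith [Real.exp_one_lt_d9]⟩

lemma sq_le_half (hu : 100 ≤ u) (k : ℕ) : s u k ^ 2 ≤ s u k / 4 := by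
  nlinarith [s_le_num hu k, s_pos u k]

/-- the tiers of the leaf numbers (`t` = tier of the costs). -/
structure TL (u t : ℕ) (F : I.Lf) (N : Ln) (n B : ℕ) (g cF : ℝ) : Prop where
  hu : 100 ≤ u
  ht : 11 ≤ t
  fac : (D ^ (t + 1) + 1).factorial ≤ Y u 0
  n : n ≤ Y u 0
  B : B ≤ Y u 11
  n1 : D ^ (t - 4) ≤ F.n1 + 1 ∧ F.n1 ≤ Y u 0
  sm : 2 ^ (F.sm + 1) ≤ Y u 0
  A : F.A ≤ Y u 2
  f : Y u 0 ≤ N.f ∧ N.f ≤ Y u 2
  m : N.m ≤ Y u 2
  j : N.j ≤ Y u 2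
  k : N.k = Y u 4
  τ : N.τ ≤ Y u 5 ∧ F.l / N.τ ≤ F.sm * N.k
  r0 : F.r0 ≤ Y u 3 ^ 2 * Y u 4 ^ 10
  g : 0 ≤ g ∧ g ≤ 2 * s u 6
  cF : 0 ≤ cF ∧ cF ≤ Y u 5 * s u 6
  o : 0 ≤ N.o ∧ N.o ≤ Y u 3 * s u 4 ^ 9

namespace TL
variable (h : TL u t F N n B g cF)
include h

lemma r5 : F.r0 ≤ Y u 5 := h.r0.trans (by have := h.hu; tier! 4)

/-- **the coin family.** -/
theorem cC_le (hθ : Real.exp (56 * θ * (w + 1 + N.m)) ≤ Y u 1) : cC F N n B w θ ≤ s u t ^ 2 := by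
  have hu := h.hu
  have := h.ht
  have := h.n
  have := h.B
  have := h.r5
  have h1 : Rb u 1 1 (Real.exp (56 * θ * (w + 1 + N.m))) := .of_le (Real.exp_pos _).le hθ le_rfl
  have h2 : Real.exp (-(N.f : ℝ)) ≤ s u (0 + (t + 1)) :=
    (Real.exp_le_exp.2 (neg_le_neg (Nat.cast_le.2 h.f.1))).trans (exp_neg_le h.fac)
  rw [cC, sub_eq_add_neg, Real.exp_add, ← mul_assoc, zero_add] at *
  refine (mul_le_mul_of_nonneg_left h2 (by positivity)).trans ?_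
  rtier! t

/-- price of a point when only long lags occur. -/
lemma lam {a : ℕ} (ha : a ≤ Y u 5) : ∃ C, Rb u 5 9 C ∧
    2 * Real.exp 1 * (a * g + cF) ≤ C * s u 6 := by
  have hu := h.hu
  have := rb_e hu 5
  refine ⟨2 * Real.exp 1 * (a * 2 + Y u 5), Rb.mono (e := 1 + 1 + (max (1 + 1) 1 + 1)) (by r_bd)
    (by norm_num), ?_⟩
  rw [mul_assoc _ (_ + _)]
  refine mul_le_mul_of_nonneg_left ?_ (by positivity)
  have := mul_le_mul_of_nonneg_left h.g.2 (Nat.cast_nonneg (α := ℝ) a)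
  linarith [h.cF.2]

omit h in
lemma cW_mono {x y : ℝ} (h0 : 0 ≤ x) (hx : x ≤ y) : cW F N n x ≤ cW F N n y := by
  unfold cW; gcongr

/-- **one window.** -/
theorem cW0_le : cW F N n (2 * Real.exp 1 * (6 * g + cF)) ≤ s u 5 ^ 2 := by
  have hu := h.hu
  obtain ⟨C, h1, h2⟩ := h.lam (a := 6) (le_trans (by norm_num) (num_le hu 5))
  have := h.n; have := h.A; have := h.f.2; have := h.m; have := h.j; have := h.r5
  have := h.g.1; have := h.cF.1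
  refine (cW_mono (by positivity) (by simpa using h2)).trans ?_
  have h3 : ((n * (2 * (F.A + (N.f + N.m)) + 1) ^ 3 : ℕ) : ℝ) * C * s u 6 ≤ s u 5 := by rtier! 5
  have h4 := pow_le_of_le_one (mul_nonneg (mul_nonneg (Nat.cast_nonneg _) h1.1) (s_pos u 6).le)
    (h3.trans (s_le_one _ _)) (n := 6) (by norm_num)
  have h5 : (N.j * (n * (2 * (2 * F.A + (N.f + N.m)) + 1) ^ 3 : ℕ) * C + (2 * F.r0 + 1) ^ 3 *
      ((n * (2 * (F.A + (N.f + N.m)) + 1) ^ 3 : ℕ) * C)) * s u 6 ≤ s u 5 ^ 2 := by rtier! 5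
  rw [cW, ← mul_assoc ((_ : ℕ) : ℝ) C]
  have h6 := mul_le_mul_of_nonneg_left h4 (by positivity : (0 : ℝ) ≤ (2 * F.r0 + 1) ^ 3)
  linarith

/-- the budget of the additional bad event. -/
theorem bad_le (hθ : Real.exp (56 * θ * (w + 1 + N.m)) ≤ Y u 1) :
    cC F N n B w θ + 2 * cW F N n (2 * Real.exp 1 * (6 * g + cF)) ≤ s u 5 := by
  have h1 := h.cC_le hθ
  have h2 := h.cW0_le
  have h3 := sq_le_half h.hu 5
  have h4 := sq_le_half h.hu t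
  have h5 : s u t ≤ s u 5 := s_anti (by have := h.ht; omega)
  linarith [s_pos u 5]

/-- a new cluster in one of the spaced windows. -/
theorem cW3_le : cW F N n (2 * Real.exp 1 * ((6 * N.k : ℕ) * (g + N.o) + cF)) ≤ s u 3 ^ 2 := by
  have hu := h.hu
  obtain ⟨C, h1, h2⟩ := h.lam (a := 6 * N.k) (by rw [h.k]; tier! 4)
  have := h.n; have := h.A; have := h.f.2; have := h.m; have := h.j
  have := h.g.1; have := h.cF.1; have := h.o.1
  have he := rb_e hu 3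
  have s4 := s_pos u 4
  have s1 := s_le_one u 4
  have h3 : C * s u 6 ≤ s u 4 ^ 8 := by rtier! 5
  have h4 : (N.k : ℝ) * N.o ≤ Y u 3 * s u 4 ^ 8 := by
    refine (mul_le_mul_of_nonneg_left h.o.2 (Nat.cast_nonneg _)).trans (le_of_eq ?_)
    rw [h.k, pow_succ]
    linear_combination (Y u 3 * s u 4 ^ 8 : ℝ) * s_mul u 4
  obtain ⟨K, hK, h5⟩ : ∃ K, Rb u 3 9 K ∧
      2 * Real.exp 1 * ((6 * N.k : ℕ) * (g + N.o) + cF) ≤ K * s u 4 ^ 8 := by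
    refine ⟨1 + 12 * Real.exp 1 * Y u 3, Rb.mono (e := max 1 (1 + 1 + 1) + 1) (by r_bd)
      (by norm_num), ?_⟩
    have := mul_le_mul_of_nonneg_left h4 (Real.exp_pos 1).le
    push_cast at h2 ⊢
    linarith
  refine (cW_mono (by positivity) h5).trans ?_
  have h6 : (2 * (F.r0 : ℝ) + 1) * s u 4 ^ 10 ≤ 2 * Y u 3 ^ 2 + 1 := by
    have a1 : (F.r0 : ℝ) ≤ Y u 3 ^ 2 * Y u 4 ^ 10 := by exact_mod_cast h.r0
    have a2 : (Y u 4 : ℝ) ^ 10 * s u 4 ^ 10 = 1 := by rw [← mul_pow, mul_comm, s_mul, one_pow]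
    have a3 := mul_le_mul_of_nonneg_right a1 (pow_pos s4 10).le
    rw [mul_assoc, a2] at a3
    linarith [pow_le_one₀ s4.le s1 (n := 10)]
  have h7 : (N.j * (n * (2 * (2 * F.A + (N.f + N.m)) + 1) ^ 3 : ℕ) * K + (2 * (Y u 3 : ℝ) ^ 2 + 1) ^ 3 *
      ((n * (2 * (F.A + (N.f + N.m)) + 1) ^ 3 : ℕ) * K) ^ 6) * s u 4 ≤ s u 3 ^ 2 := by rtier! 3
  refine le_trans ?_ h7
  rw [cW, add_mul]
  refine add_le_add ?_ ?_
  · rw [mul_assoc _ K]
    have := hK.1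
    gcongr
    exact pow_le_of_le_one s4.le s1 (by norm_num)
  · generalize ((n * (2 * (F.A + (N.f + N.m)) + 1) ^ 3 : ℕ) : ℝ) = c
    calc _ = ((2 * (F.r0 : ℝ) + 1) * s u 4 ^ 10) ^ 3 * (c * K) ^ 6 * s u 4 ^ 18 := by ring
      _ ≤ _ := by
        gcongr
        exact pow_le_of_le_one s4.le s1 (by norm_num)

/-- **the point families.** -/
theorem cP_le : cP F N n B g cF ≤ s u t := by
  have hu := h.hu
  have ht := h.ht
  have := h.n; have := h.B; have := h.r5; have := h.n1.2; have := h.τ.1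
  have := h.g.1; have := h.cF.1; have := h.o.1
  have hsm : F.sm ≤ Y u 0 := (Nat.lt_two_pow_self.le.trans (Nat.pow_le_pow_right two_pos
    (Nat.le_succ _))).trans h.sm
  obtain ⟨C, h1, h2⟩ := h.lam (a := F.n1 + 1) (by tier! 0)
  have h3 : ((n * (4 * F.r0 + 1) ^ 3 : ℕ) : ℝ) * C * s u 6 ≤ s u 5 := by rtier! 5
  have h4 := pow_small (k := 5) (by positivity) ((mul_le_mul_of_nonneg_left h2
    (Nat.cast_nonneg (n * (4 * F.r0 + 1) ^ 3))).trans ((mul_assoc _ _ _).symm.trans_le h3)) h.n1.1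
  rw [show 5 + (t - 4) = t + 1 by omega] at h4
  have h5 : (B : ℝ) * s u (t + 1) ≤ s u t ^ 2 := by rtier! t
  have h6 : ((2 ^ (F.sm + 1) : ℕ) : ℝ) * s u 3 ≤ 1 :=
    ((Rb.cast (Pb.of_le h.sm (Nat.zero_le 2))).sm1 (by norm_num) (by norm_num) le_rfl).trans
      (s_le_one _ _)
  have h7 := h.cW3_le
  have h8 : 0 ≤ cW F N n (2 * Real.exp 1 * ((6 * N.k : ℕ) * (g + N.o) + cF)) := by
    unfold cW; positivity
  rw [cP]
  generalize cW F N n (2 * Real.exp 1 * ((6 * N.k : ℕ) * (g + N.o) + cF)) = x at *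
  have h9 := pow_small (k := 3) (j := t - 2) (N := N.k) (x := (2 ^ (F.sm + 1) : ℕ) * x)
    (by positivity) (by nlinarith [s_pos u 3, Nat.cast_nonneg (α := ℝ) (2 ^ (F.sm + 1))])
    (h.k ▸ (Nat.pow_le_pow_right D_pos (by omega)).trans ((Nat.le_succ _).trans
      ((Nat.self_le_factorial _).trans (h.fac.trans (Y_mono (Nat.zero_le _))))))
  rw [show 3 + (t - 2) = t + 1 by omega, mul_pow, ← Nat.cast_pow, ← pow_mul] at h9
  have h10 : ((F.sm * B * N.τ : ℕ) : ℝ) * s u (t + 1) ≤ s u t ^ 2 := by rtier! t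
  have h11 : ((2 ^ (F.l / N.τ + 1) : ℕ) : ℝ) ≤ (2 ^ ((F.sm + 1) * N.k) : ℕ) := by
    refine Nat.cast_le.2 (Nat.pow_le_pow_right two_pos ?_)
    have := h.τ.2
    have := h.k ▸ one_le_Y u 4
    rw [add_one_mul]; omega
  have h12 := mul_le_mul_of_nonneg_left ((mul_le_mul_of_nonneg_right h11
    (pow_nonneg h8 N.k)).trans h9) (Nat.cast_nonneg (F.sm * B * N.τ))
  have h13 := mul_le_mul_of_nonneg_left h4 (Nat.cast_nonneg B)
  rw [Nat.cast_mul (F.sm * B * N.τ), mul_assoc ((F.sm * B * N.τ : ℕ) : ℝ)]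
  linarith [sq_le_half hu t, s_pos u t]

end TL

/-! ### the concrete numbers -/

/-- the leaf numbers of G4 (`l` = windows per unit). -/
noncomputable def ln4 (u l : ℕ) : Ln where
  m := Y u 2
  j := Y u 2
  f := Y u 0
  d := l * Y u 2 ^ 2
  τ := Y u 4 ^ 9
  k := Y u 4
  Lg := Y u 9
  o := Y u 3 * s u 4 ^ 9

/-- what is needed of the base cell numbers. -/
structure HL (u : ℕ) (F : I.Lf) (n B : ℕ) : Prop where
  hu : 100 ≤ u
  fac : (D ^ 62 + 1).factorial ≤ Y u 0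
  n : n ≤ Y u 0
  B : Y u 10 ≤ B ∧ B ≤ Y u 11
  n1 : D ^ 57 ≤ F.n1 + 1 ∧ F.n1 ≤ Y u 0
  sm : 1 ≤ F.sm ∧ 2 ^ (F.sm + 1) ≤ Y u 0
  A : F.A ≤ Y u 1
  j1 : Y u 1 ≤ F.j1
  l1 : F.l1 = Y u 4 ^ 10
  l : F.l = F.sm * F.l1
  dl : F.l * Y u 2 ^ 3 ≤ F.dl
  r0 : F.r0 ≤ Y u 3 ^ 2 * Y u 4 ^ 10

namespace HL
variable (h : HL u F n B)
include h

lemma sm_le : F.sm ≤ Y u 0 :=
  (Nat.lt_two_pow_self.le.trans (Nat.pow_le_pow_right two_pos (Nat.le_succ _))).trans h.sm.2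

lemma l_pos : 1 ≤ F.l := by
  rw [h.l, h.l1]; exact Nat.mul_pos h.sm.1 (pow_pos (Y_pos _ _) _)

lemma l_le : F.l ≤ Y u 5 := by
  have := h.hu; have := h.sm_le
  rw [h.l, h.l1]; tier! 4

theorem tl : TL u 61 F (ln4 u F.l) n B (2 * s u 6) ((Y u 4 : ℝ) ^ 2 * s u 6) := by
  have hu := h.hu
  have := s_pos u 6
  have := s_pos u 4
  refine ⟨hu, by norm_num, h.fac, h.n, h.B.2, h.n1, h.sm.2, h.A.trans (Y_mono (by norm_num)),
    ⟨le_rfl, Y_mono (by norm_num)⟩, le_rfl, le_rfl, rfl, ⟨by show Y u 4 ^ 9 ≤ _; tier! 4, ?_⟩,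
    h.r0, ⟨by positivity, le_rfl⟩, ⟨by positivity, mul_le_mul_of_nonneg_right (by rtier! 4)
      (by positivity)⟩, by show 0 ≤ (Y u 3 : ℝ) * _; positivity, le_rfl⟩
  show F.l / Y u 4 ^ 9 ≤ F.sm * Y u 4
  exact Nat.div_le_of_le_mul (le_of_eq (by rw [h.l, h.l1]; ring))

theorem ok {L T : ℕ} [NeZero L] [NeZero T] {ex ey : Fin T → Tor 3 L × Fin n} {p0 : Fin T → ℝ}
    {Es ρ0 : ℕ} (hW : RR.Word ex ey p0 Es w B θ) (hθ : 50 * θ ≤ 1) (hB : G4.Fs.Blk ex ey p0)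
    (hD : F.D = w * Es) (hρ : Y u 6 ≤ ρ0) : Ok ex ey F (ln4 u F.l) p0 Es w B θ ρ0 := by
  have hu := h.hu
  have := h.n; have := h.n1.2; have := h.A; have := h.l_le; have := h.tl.r5
  have h1 : F.A + (Y u 0 + Y u 2) + 1 + F.l * Y u 2 ^ 2 ≤ F.dl := by
    have a1 : F.A + Y u 0 + 1 ≤ Y u 2 := by tier! 1
    have a2 := h.l_pos
    have a3 := num_le hu 2
    refine le_trans ?_ h.dl
    generalize Y u 2 = y at *
    have a4 : 2 * y ≤ F.l * y ^ 2 := by nlinarith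
    have a5 : F.l * y ^ 2 * 2 ≤ F.l * y ^ 2 * y := Nat.mul_le_mul_left _ (by omega)
    rw [pow_succ y 2, ← mul_assoc]
    omega
  have h2 := F.hA
  have h3 := Nat.mul_le_mul_right F.dl h.sm.1
  exact ⟨hW, hθ, hB, hD, by show Y u 0 + Y u 2 + 1 ≤ _; omega,
    le_trans (by show 2 * (F.n1 * (Y u 0 + n ^ 2)) ≤ Y u 1; tier! 0) h.j1,
    by show F.A + (Y u 0 + Y u 2) + F.l * Y u 2 ^ 2 ≤ _; omega,
    ⟨pow_pos (Y_pos _ _) _, le_of_eq (by rw [h.l1]; rfl)⟩,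
    le_trans (by show Y u 9 + F.l ≤ Y u 10; tier! 9) h.B.1, le_trans (by tier! 5) hρ, h.tl.o.1⟩

omit h in
lemma eta_ge (hu : 100 ≤ u) : s u 61 ≤ (s u 60 / 2) ^ 2 := by
  have : (4 : ℝ) * s u 61 ≤ s u 60 ^ 2 := by rtier! 60
  linarith

variable (hθ : Real.exp (56 * θ * (w + 1 + Y u 2)) ≤ Y u 1)
include hθ

theorem cC_le : cC F (ln4 u F.l) n B w θ ≤ (s u 60 / 2) ^ 2 :=
  (h.tl.cC_le hθ).trans ((pow_le_of_le_one (s_pos _ _).le (s_le_one _ _) two_ne_zero).trans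
    (eta_ge h.hu))

omit hθ in
theorem cP_le : cP F (ln4 u F.l) n B (2 * s u 6) ((Y u 4 : ℝ) ^ 2 * s u 6) ≤ (s u 60 / 2) ^ 2 :=
  h.tl.cP_le.trans (eta_ge h.hu)

/-- the additional bad event takes half of the offset. -/
theorem bad_le : cC F (ln4 u F.l) n B w θ + 2 * cW F (ln4 u F.l) n (2 * Real.exp 1 *
    (6 * (2 * s u 6) + (Y u 4 : ℝ) ^ 2 * s u 6)) ≤ (ln4 u F.l).o / 2 := by
  have hu := h.hu
  have h1 : (2 : ℝ) * s u 5 ≤ s u 4 ^ 9 := by rtier! 4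
  have h2 := le_mul_of_one_le_left (pow_pos (s_pos u 4) 9).le
    (show (1 : ℝ) ≤ Y u 3 by exact_mod_cast one_le_Y u 3)
  have h3 := h.tl.bad_le hθ
  show _ ≤ (Y u 3 : ℝ) * s u 4 ^ 9 / 2
  linarith

end HL

/-- the exponential rate of the coin family is a constant. -/
lemma exp_rate {c : ℝ} {m : ℕ} (h1 : θ * (w + 1) ≤ c) (h2 : θ * m ≤ 1)
    (h3 : Real.exp (56 * (c + 1)) ≤ Y u 1) : Real.exp (56 * θ * (w + 1 + m)) ≤ Y u 1 :=
  (Real.exp_le_exp.2 (by linarith)).trans h3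

end Crest.Agent.N337.Par
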