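import Crest.Agent.N337.M.LadU
import Crest.Agent.N337.M.Cel
import Crest.Agent.N337.C9.Fin
import Crest.Agent.N337.Par.LevD
import Crest.Agent.N337.Par.Sm
import Crest.Agent.N337.Par.G1s
import Crest.Agent.N337.Par.Rung

/-!
# Row 337 (helper78): the ladder of level one on the tiers
-/

set_option autoImplicit false
set_option linter.unusedSectionVars false

namespace Crest.Agent.N337.Par

open Finset Crest.Agent.N337.Free Crest.Agent.N337.M Crest.Agent.N337.C9 Crest.Agent.N337.Ld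

variable {n u k K B Dw : ℕ} {κ Yw e Yp : ℝ}

namespace One

lemma Cc_rb (h : Bg n u) (hk : 1 ≤ k) {r k' : ℕ} (hr : r ≤ Y u k') (hk' : k' ≤ k + 1000) :
    Rb u k 50 (G1.Cc (gs u 1) (Y u 0) 1 r) := by
  have hu := h.hu
  have h1 : Rb u 0 29 ((gs u 1).K (1 - 1)) := (gh_gs u 1).K0 h
  have h2 := log_pb hu hk hr hk'
  unfold G1.Cc
  exact Rb.mono (by r_bd) (by norm_num)

lemma γt_le (h : Bg n u) (hk : 4 ≤ k ∧ k ≤ 7) (hC : Rb u 0 1 (G1.Cg κ)) (hz : zm Yw K ≤ s u 8)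
    (he : e ≤ s u 8) : γt κ Yw e (gs u 1) (Y u 0) K (Y u (k + 1)) (Y u (k + 1)) ≤ s u k := by
  have hu := h.hu
  have h1 := Cc_rb h (k := 4) (by omega) (one_le_Y u 0) (by omega)
  have h2 := Cc_rb h (k := 4) (by omega) (le_refl (Y u (k + 1))) (by omega)
  have h3 : Rb u 4 14 ((gs u 1).η 0 : ℕ) := Rb.cast (pb_η0 h)
  refine le_trans (mul_le_mul_of_nonneg_left (add_le_add (add_le_add hz le_rfl) he) hC.1) ?_
  sm! k

lemma γd_le (h : Bg n u) (hC : Rb u 0 1 (G1.Cg κ)) (hz : zm Yw K ≤ s u 8) (he : e ≤ s u 8) :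
    γd κ Yw e (gs u 1) (Y u 0) K (Y u 5) ≤ s u 4 := by
  have hu := h.hu
  have h2 : Rb u 4 50 (G1.Cc (gs u 1) (Y u 0) (gs u 1).mt (Y u 5)) :=
    Cc_rb h (by omega) le_rfl (by omega)
  have h3 : Rb u 4 14 ((gs u 1).η ((gs u 1).mt - 1) : ℕ) := Rb.cast (pb_η0 h)
  refine le_trans (mul_le_mul_of_nonneg_left (add_le_add (add_le_add hz le_rfl) he) hC.1) ?_
  sm! 4

lemma η_le (h : Bg n u) (hk : 5 ≤ k) : 4 * (gs u 1).η 0 ≤ Y u k := by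
  have hu := h.hu
  have h3 : Pb u 4 14 ((gs u 1).η 0) := pb_η0 h
  tier! 4

lemma lag (h : Bg n u) (hB : Y u 10 ≤ B) : Y u 8 * ((num h Dw 12).l + 2) < B := by
  have hu := h.hu
  have h1 : (num h Dw 12).l ≤ Y u 5 := ll_le h
  exact lt_of_lt_of_le (by tier! 8) hB

lemma κc_le (h : Bg n u) (hB : B ≤ Y u 11) :
    Cr.κc (Vn n (Y u 2 + 1)) B (Y u 37 ^ 2) ((Y u 6 + 1) * Vn n (Y u 5 + Y u 2 + 1))
      (Vn n (Y u 5 + Y u 2 + 1)) (Y u 6 + 1) (3 * (s u 4 + (Y u 53 : ℕ) * eps u 0))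
      (3 * (s u 7 + (Y u 53 : ℕ) * eps u 0)) 0 ≤ (1 / 100) ^ 2 := by
  have hu := h.hu
  have hn := h.hn
  have a1 : Pb u 2 20 (Vn n (Y u 2 + 1)) := Pb.mono (by unfold Vn; p_bd) (by norm_num)
  have a2 : Pb u 5 20 (Vn n (Y u 5 + Y u 2 + 1)) := Pb.mono (by unfold Vn; p_bd) (by norm_num)
  have a1' : Vn n (Y u 2 + 1) ≤ Y u 3 := a1.up (by norm_num) (by omega)
  have a2' : Vn n (Y u 5 + Y u 2 + 1) ≤ Y u 6 := a2.up (by norm_num) (by omega)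
  have a3 := log_pb (k := 2) (k' := 38) (a := Y u 37 ^ 2) hu (by omega) (by tier! 37) (by omega)
  have a4 := log_pb (k := 2) (k' := 38) (a := 2 * Y u 37 ^ 2 * B * Vn n (Y u 2 + 1)) hu (by omega)
    (by tier! 37) (by omega)
  have a5 : Sm u 7 0 ((Y u 53 : ℕ) * eps u 0) :=
    Sm.down (k' := 53) (by unfold eps; s_bd) (by norm_num) (by omega)
  have a6 : Rb u 2 30 (Cr.V0 (Vn n (Y u 2 + 1)) B (Y u 37 ^ 2)) :=
    Rb.mono (by unfold Cr.V0; r_bd) (by norm_num)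
  have a7 : Rb u 2 4 ((Nat.log 2 (Y u 37 ^ 2) : ℝ) + 1) := Rb.mono (by r_bd) (by norm_num)
  unfold Cr.κc
  generalize Cr.V0 _ _ _ = V at a6
  generalize (Nat.log 2 (Y u 37 ^ 2) : ℝ) + 1 = lg at a7
  generalize ((Y u 53 : ℕ) : ℝ) * eps u 0 = a at a5
  generalize Vn n (Y u 5 + Y u 2 + 1) = b at a2'
  have b1 : lg ^ 2 * (3 * (s u 4 + a) * (192 * V ^ 2 + 780)) ≤ 1 / 10 ^ 30 := by sm! 3
  have b2 : lg ^ 2 * (6 * (3 * (s u 7 + a)) * ((((Y u 6 + 1) * b : ℕ) : ℝ) * (Y u 6 + 1 : ℕ) * b)) ≤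
    1 / 10 ^ 30 := by sm! 6
  rw [zero_mul, add_zero, mul_add]
  linarith

theorem t1m (h : Bg n u) (hB : Y u 10 ≤ B ∧ B ≤ Y u 11) (hC : Rb u 0 1 (G1.Cg κ))
    (hz : zm Yw K ≤ s u 8) (he : e ≤ s u 8) :
    T1M (num h Dw 12) (gs u 1) n B κ Yw e 3 (eps u 0) ctm (Y u 53) (Y u 37 ^ 2) K (Y u 2) (Y u 5)
      (Y u 5) (Y u 8) (Y u 6) (Y u 5) (Y u 8) (s u 4) (s u 7) (1 / 100) := by
  have hu := h.hu
  have h1 : Pb u 5 1 (num h Dw 12).l := .of_le (ll_le h) le_rfl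
  refine ⟨rfl, ?_, one_le_Y _ _, ⟨η_le h le_rfl, η_le h le_rfl, η_le h (by omega)⟩,
    ⟨one_le_Y _ _, by tier! 5, lt_of_lt_of_le (by tier! 6) hB.1⟩, ⟨one_le_Y _ _, lag h hB.1⟩,
    ⟨γd_le h hC hz he, γt_le h (k := 4) (by omega) hC hz he⟩, γt_le h (k := 7) (by omega) hC hz he,
    s_pos _ _, s_anti (by omega), κc_le h hB.2⟩
  have h3 : ∀ c, c ≤ Y u 0 → 2 * c * Y u 1 ≤ Y u 2 := fun c _ => by tier! 1
  rw [vw, zero_mul, add_zero, I.Num.lw, add_zero]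
  exact h3 _ h.tm

lemma y_le (u : ℕ) : Real.exp (-1 / (Y u 37 : ℕ)) ≤ Real.exp (-1 / (Y u 38 : ℕ)) := by
  rw [neg_div, neg_div]
  exact Real.exp_le_exp.2 (neg_le_neg (one_div_le_one_div_of_le (Yr_pos _ _)
    (Nat.cast_le.2 (Y_mono (by omega)))))

lemma L1 (hu : 100 ≤ u) (hY : Real.exp (-1 / (Y u 38 : ℕ)) ≤ Yp) : 1 ≤ 3 * Yp ^ (Y u 37 ^ 2) := by
  have h1 : ((Y u 37 ^ 2 : ℕ) : ℝ) ≤ Y u 38 := Nat.cast_le.2 (by tier! 37)
  have h2 : Real.exp (-1) ≤ Yp ^ (Y u 37 ^ 2) := by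
    refine le_trans ?_ (pow_le_pow_left₀ (Real.exp_pos _).le hY _)
    rw [← Real.exp_nat_mul, Real.exp_le_exp, mul_div_assoc', le_div_iff₀ (Yr_pos _ _)]
    linarith
  have h3 := Real.exp_one_lt_d9
  have h4 : Real.exp (-1) * Real.exp 1 = 1 := by rw [← Real.exp_add]; simp
  nlinarith [Real.exp_pos (-1)]

lemma long (hu : 100 ≤ u) : Real.exp (-1 / (Y u 37 : ℕ)) ^ (Y u 37 ^ 2) ≤ s u 54 := by
  have := Yr_pos u 37
  rw [← Real.exp_nat_mul, show ((Y u 37 ^ 2 : ℕ) : ℝ) * (-1 / (Y u 37 : ℕ)) = -(Y u 37 : ℕ) by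
    push_cast; field_simp]
  exact exp_Y_le hu (by omega) (by omega)

end One

open One

variable {L T : ℕ} [NeZero L] [NeZero T] {G : Bs T (Tor 3 L × Fin n)} {z0 : Tor 3 L}
  {P : M.Par (Tor 3 L × Fin n)} {W : Gl.Wd T} {j : ℕ}

/-- **the inputs of the ladder of level one.** -/
theorem ladO (h : Bg n u) (hB : Y u 10 ≤ B ∧ B ≤ Y u 11) (hT : T = B * (num h Dw 12).D)
    (hp : PtN (num h Dw 12).toLf B) (hN : P.N 1 = Y u 52) (T1 : P.Tf 1 = Y u 37)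
    (tP : P.tB 1 27 cK + 2 ≤ ctm) (tQ : P.tQ 1 ≤ P.tP 1 + 27)
    {Gr : Finset (Tor 3 L × Fin n) → Prop} {δ : ℝ} {nc cap : ℕ} {nx : ℕ → ℕ}
    (c : Cel (I.ins G.ex G.ey (num h Dw 12) z0) G P.Sd Gr 0 (Real.exp (-1 / (Y u 37 : ℕ))) δ (eps u 0)
      nc cap nx) (hR : nx (nx 0) ≤ cap)
    (f1 : F2A (ppI G (num h Dw 12) z0 hT hp) P.Sd (Real.exp (-1 / (Y u 37 : ℕ))) 1 0 0 0 0 (eps u 0))
    (f2 : F2A (ppI G (num h Dw 12) z0 hT hp) P.Sd Yp 1 0 0 0 0 (eps u 0))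
    (g : Gw W G (num h Dw 12) (gs u 1) Yp e 2 0 0 0 K j) (hY : Real.exp (-1 / (Y u 38 : ℕ)) ≤ Yp)
    (hC : Rb u 0 1 (G1.Cg W.κ)) (hz : zm W.Y K ≤ s u 8) (he : e ≤ s u 8) :
    P.LadO (I.ins G.ex G.ey (num h Dw 12) z0) G (untI n (num h Dw 12) z0 hT) 27 cK (Y u 53)
      (ll u * (n * (2 * (2 * r0 u + 1) + 1) ^ 3)) (Y u 37 ^ 2)
      (fun l => (Y u 5 : ℝ) ^ (cK + 1) / (Y u 5 : ℝ) ^ l) (eps u 0)
      (s u 7 + (Y u 53 : ℕ) * eps u 0) (s u 5 ^ 2) (1 / Y u 5) (1 / 100) 0 (s u 54) := by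
  have hu := h.hu
  have hn := h.hn
  have y0 : (P.lev (I.ins G.ex G.ey (num h Dw 12) z0) G).y 0 = 0 := if_pos rfl
  have y1 : (P.lev (I.ins G.ex G.ey (num h Dw 12) z0) G).y 1 = Real.exp (-1 / (Y u 37 : ℕ)) := by
    rw [← T1]; rfl
  have e0 : 0 ≤ eps u 0 := (s_pos _ _).le
  have al : AlvH (I.ins G.ex G.ey (num h Dw 12) z0) (P.N 1) 0 (Y u 53) := by
    rw [hN]; exact (I.alvH _ _ _ _ _ 0).mono le_rfl (nD_le h le_rfl z0 0)
  have a5 : Sm u 7 0 ((Y u 53 : ℕ) * eps u 0) :=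
    Sm.down (k' := 53) (by unfold eps; s_bd) (by norm_num) (by omega)
  have tm : (num h Dw 12).k0 + 27 + 14 ≤ ctm := by change ck0 + 27 + 14 ≤ _; unfold ctm; omega
  have hnn : ∀ r, tdist (G.ex r).1 (G.ey r).1 ≤ 1 := g.w.wd.nn
  refine ⟨⟨fun V hV => ?_, add_nonneg (s_pos _ _).le a5.1, fun V hV => ?_, al,
    ⟨show (num h Dw 12).k0 + 27 + 0 + 1 ≤ ctm by omega, tP, le_rfl, le_rfl, le_rfl⟩⟩,
    anc_untI G hnn _ z0 hT (ll_pos u) (hJ h Dw 12 le_rfl (τ := ctm) (by omega)) _ 2, ?_,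
    Rung.ldN_Y (c := 49) (i' := 7) hu le_rfl (by omega) h.K
      (cK_eq ▸ Nat.pow_le_pow_right D_pos (by omega)) (by positivity) le_rfl
      (by have := hB.2; tier! 53) ?_, tQ,
    gram_one g ⟨⟨ll_pos u, tm.trans' (by omega), by omega, hρ h Dw 12 le_rfl (by omega),
      hJ h Dw 12 le_rfl (by omega)⟩, L1 hu hY, e0, show _ ≤ ctm by omega,
      show P.tB 1 27 cK + 1 ≤ ctm by omega, le_rfl, (pow_pos (Y_pos _ _) _).ne'⟩
      (t1m h hB hC hz he) al f2 fun _ a => a,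
    by norm_num, s_pos _ _, s_le_one _ _, hN ▸ one_le_Y _ _, y1 ▸ long hu, ?_⟩
  · unfold Par.Ek Par.mu
    have hD := fun g => And.intro (hV g).1 (hV g).2.1
    rw [zero_add, y1] at hD ⊢
    exact (c.eK hR (Lev.y_nn _) (y0 ▸ (Real.exp_pos _).le) hD fun k => (k rfl).elim).zero
  · rw [zero_add, y1]
    exact f4_one (g.mono (Real.exp_pos _).le ((y_le u).trans hY) le_rfl le_rfl le_rfl) e0
      (show _ ≤ ctm by omega) al f1 rfl (η_le h (by omega)) ⟨one_le_Y _ _, lag h hB.1⟩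
      (γt_le h (k := 7) (by omega) hC hz he) (s_pos _ _).le le_rfl
      (mk_mem fun g => ⟨(hV g).1, (hV g).2.1⟩)
  · have b1 := ll_le h
    have b2 := r0_le h
    rw [mul_assoc]
    sm! 5
  · rw [mul_assoc]
    sm! 7
  · have b1 : Sm u 52 0 (√(s u 54)) := Sm.sqrt (Sm.s (by omega)) (by norm_num)
    have b2 : 10 * ((Y u 52 : ℕ) : ℝ) * √(s u 54) ≤ 1 / 10 ^ 30 := by sm! 52
    rw [hN]
    linarith

end Crest.Agent.N337.Par
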