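import Crest.Agent.N337.Par.G1s
import Crest.Agent.N337.Par.G4
import Crest.Agent.N337.Par.Leaf
import Crest.Agent.N337.Par.Eng
import Crest.Agent.N337.Gl.Ht

/-!
# Row 337 (helper76): the Green gains of G4 on the tiers (`far`, `lag`, `short` of `Qu.QN`)
-/

set_option autoImplicit false
set_option linter.unusedSectionVars false

namespace Crest.Agent.N337.Par

open Finset Crest.Agent.N337.Rg Crest.Agent.N337.Tr G1 Gl G4.Le

variable {L : ℕ} [NeZero L] {α κ : Type} [SemilatticeSup α] [Preorder κ] {n u i B Dw w : ℕ}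

/-- the leaf numbers of the table. -/
theorem hl4 (h : Bg n u) (hB : Y u 10 ≤ B ∧ B ≤ Y u 11) : HL u (lf h Dw) n B := by
  have hu := h.hu
  have h1 := h.sm
  refine ⟨hu, fac_le h (by norm_num), h.hn, hB, ⟨(Dp_le_cE (by norm_num)).trans (Nat.le_succ _), h.E⟩,
    ⟨by show 1 ≤ csm; unfold csm; omega, h.p2⟩, Y_mono (Nat.zero_le 1), le_rfl, rfl, rfl, le_rfl, ?_⟩
  show csm * Y u 4 ^ 10 * Y u 3 ≤ _
  rw [mul_right_comm, sq]
  exact Nat.mul_le_mul_right _ (Nat.mul_le_mul_right _ (h1.trans (Y_mono (by norm_num))))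

/-- the tube on the tiers. -/
structure TG (u : ℕ) (S : Sys (Tor 3 L) α κ) (G : Eg) (k k' : ℕ → ℕ) : Prop where
  Q : Tb.QQ S G ≤ Y u 1
  k : ∀ l ≤ G.mt, Y u (48 * l + 17) ≤ 2 ^ k l
  k' : ∀ l < G.mt, Y u (48 * l + 28) ≤ 2 ^ k' l

variable {S : Sys (Tor 3 L) α κ} {G : Eg} {P : Scales} {k k' : ℕ → ℕ} {l : ℕ} {c er θ : ℝ}

lemma cw_le4 {a e r μ : ℕ} (h : Rb u a e (P.K (μ - 1))) (he : e + 2 ≤ 1000000)
    (hr : Y u (a + 1) ≤ r) : Tb.cw P r μ ≤ s u a := by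
  refine Real.sqrt_le_iff.2 ⟨(s_pos _ _).le, ?_⟩
  have := h.dv (d := 2 * r + 1) he (Nat.lt_add_one a) le_rfl (by omega)
  rwa [Nat.cast_add, Nat.cast_mul, Nat.cast_one, Nat.cast_two] at this

lemma log_rb4 (hu : 100 ≤ u) {a d : ℕ} (ha : 1 ≤ a) (hd : d ≤ Y u (a + 1000)) :
    Rb u a 2 (Nat.log 2 d : ℝ) :=
  .cast ((Nat.log_mono_right hd).trans (log_Y u _ ▸ En.lg_le hu ha le_rfl))

namespace TG
variable (h : Bg n u) (H : GH u i P) (hi : i ≤ 16) (T : TG u S G k k')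
include h H hi T

/-- **the cost of the tube.** -/
theorem tau_le (hl : l ≤ G.mt) :
    0 ≤ Tb.tau S G P k k' l G.mt ∧ Tb.tau S G P k k' l G.mt ≤ s u (48 * l + 15) := by
  have hu := h.hu
  have hQ := T.Q
  have h1 : Tb.cw P (2 ^ k l) (l + 1) ≤ s u (48 * l + 16) :=
    cw_le4 ((H.K_le h l).lift (by omega)) (by norm_num) (T.k l hl)
  have h2 : ∑ j ∈ Ico l G.mt, Tb.cw P (2 ^ k' j) (j + 2) ≤ 2 * s u (48 * l + 27) :=
    (sum_le_sum fun j hj => cw_le4 ((H.K h j).lift (by omega)) (by norm_num)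
      (T.k' j (mem_Ico.1 hj).2)).trans (sum_s hu (t := fun j => 48 * j + 27) (fun j => by omega) _ _)
  have h3 : s u (48 * l + 27) ≤ s u (48 * l + 16) := s_anti (by omega)
  have h4 : 600 * (Tb.QQ S G : ℝ) * 3 * s u (48 * l + 16) ≤ s u (48 * l + 15) := by
    rtier! (48 * l + 15)
  refine ⟨mul_nonneg (by positivity) (add_nonneg (Tb.cw_nn _ _) (sum_nonneg fun _ _ => Tb.cw_nn _ _)),
    le_trans ?_ h4⟩
  rw [mul_assoc _ 3]
  exact mul_le_mul_of_nonneg_left (by linarith) (by positivity)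

lemma tau_sq (hl : l ≤ G.mt) : 10 ^ 9 * Tb.tau S G P k k' l G.mt ^ 2 ≤ s u (48 * l + 15) := by
  obtain ⟨h1, h2⟩ := T.tau_le h H hi hl
  have h3 := pow_le_pow_left₀ h1 h2 2
  nlinarith [s_le_num h.hu (48 * l + 15), s_pos u (48 * l + 15)]

/-- **the gain at the distance `d`.** -/
theorem gF_le {A a d : ℕ} (hl : l ≤ G.mt) (hA : A ≤ Y u 0) (ha : 48 * l + 5 ≤ a)
    (hd : Y u (a + 1) ≤ d ∧ d ≤ Y u (a + 1000)) :
    gF S G P k k' A l d ≤ s u a ^ 2 + s u (48 * l + 15) := by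
  have hu := h.hu
  have h1 := H.K_le h l
  have h2 := H.η_le h l
  have h3 := log_rb4 hu (by omega) hd.2
  exact (Gl.gF_le A l d).trans (add_le_add (Rb.dv (k := a) (by r_bd) (by norm_num) a.lt_succ_self
    le_rfl hd.1) (T.tau_sq h H hi hl))

/-- the capacity constant at level `0`. -/
theorem cT_le {A M : ℕ} (hA : A ≤ Y u 0) (hM : M ≤ Y u 100) :
    ∃ C, Rb u 1 20 C ∧ cT S G P k k' A 0 M ≤ C + M * (2 * s u 15) := by
  have hu := h.hu
  have h1 := H.K0 h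
  have h2 : Rb u 1 1 (P.K 0) := .of_le h1.1 (h1.up (by norm_num) one_pos) le_rfl
  have h3 := log_rb4 hu le_rfl (hM.trans (Y_mono (by norm_num)))
  have h4 := mul_le_mul_of_nonneg_left (T.tau_sq h H hi (Nat.zero_le _)) (Nat.cast_nonneg M)
  refine ⟨16 * A + 2 * 10 ^ 9 * (P.K 0 * (1 + (Nat.log 2 M : ℝ)) ^ 2), Rb.mono (by r_bd)
    (by norm_num), ?_⟩
  rw [cT]
  rw [mul_zero, zero_add] at h4
  linarith

lemma cT1 {A : ℕ} (hA : A ≤ Y u 0) : Rb u 2 1 (cT S G P k k' A 0 1) := by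
  have hu := h.hu
  obtain ⟨C, h1, h2⟩ := T.cT_le h H hi (M := 1) hA (one_le_Y _ _)
  exact .of_le (cT_nn _ _ _) (h2.trans (by rtier! 1)) le_rfl

variable (hc : Rb u 0 1 c) (he : er ≤ s u (48 * G.mt + 7))
include hc he

/-- **far pairs.** -/
theorem far4 : ∀ l ≤ G.mt, 2 * ((pz4 u).dd l + (lf h Dw).A) ≤ 2 ^ k l ∧
    4 * P.η l ≤ (pz4 u).dd l ∧ 2 * (c * (gF S G P k k' (lf h Dw).A l ((pz4 u).dd l) + er)) ≤
      (pz4 u).γ l / 2 := fun l hl => by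
  have hu := h.hu
  have h1 := H.η_le h l
  have h2 := T.gF_le h H hi (A := Y u 0) (a := 48 * l + 14) (d := Y u (48 * l + 15)) hl le_rfl
    (by omega) ⟨le_rfl, Y_mono (by omega)⟩
  have h3 : s u (48 * G.mt + 7) ≤ s u (48 * l + 7) := s_anti (by omega)
  have h4 : s u (48 * l + 15) ≤ s u (48 * l + 7) := s_anti (by omega)
  have h5 : s u (48 * l + 14) ^ 2 ≤ s u (48 * l + 7) :=
    (pow_le_of_le_one (s_pos _ _).le (s_le_one _ _) two_ne_zero).trans (s_anti (by omega))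
  have h6 : 12 * c * s u (48 * l + 7) ≤ s u (48 * l + 6) := by rtier! (48 * l + 6)
  have h7 := mul_le_mul_of_nonneg_left (show gF S G P k k' (Y u 0) l (Y u (48 * l + 15)) + er ≤
    3 * s u (48 * l + 7) by linarith) hc.1
  simp only [pz4, lf]
  exact ⟨le_trans (by tier! (48 * l + 15)) (T.k l hl), by tier! (48 * l + 5), by linarith⟩

/-- **long lags** (`dL = Y 15`, `Nb = Y 8`). -/
theorem lag4 : 2 * (Y u 15 + P.η 0 + (lf h Dw).A) ≤ 2 ^ k 0 ∧ 4 * P.η 0 ≤ Y u 15 ∧ 1 ≤ Y u 8 ∧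
    Y u 8 * ((lf h Dw).l + 2) ≤ (ln4 u (ll u)).Lg ∧ 2 * (c * (cT S G P k k' (lf h Dw).A 0 1 /
      (Y u 8 : ℕ) + gF S G P k k' (lf h Dw).A 0 (Y u 15) + er)) ≤ (pz4 u).γ 0 / 2 := by
  have hu := h.hu
  have h0 := ll_le h
  have h1 : P.η 0 ≤ Y u 5 := H.η_le h 0
  have h2 := T.gF_le h H hi (A := Y u 0) (a := 14) (d := Y u 15) (Nat.zero_le _) le_rfl
    (by omega) ⟨le_rfl, Y_mono (by omega)⟩
  have h3 : s u (48 * G.mt + 7) ≤ s u 7 := s_anti (by omega)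
  have h4 : s u (48 * 0 + 15) ≤ s u 7 := s_anti (by omega)
  have h5 : s u 14 ^ 2 ≤ s u 7 :=
    (pow_le_of_le_one (s_pos _ _).le (s_le_one _ _) two_ne_zero).trans (s_anti (by omega))
  have h6 : 16 * c * s u 7 ≤ s u 6 := by rtier! 6
  have h8 := ((T.cT1 h H hi (A := Y u 0) le_rfl).lift (k := 7) (by norm_num)).dv (j := 1) (i := 7)
    (k' := 8) (by norm_num) (by norm_num) le_rfl le_rfl
  have h7 := mul_le_mul_of_nonneg_left (show cT S G P k k' (Y u 0) 0 1 / (Y u 8 : ℕ) +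
    gF S G P k k' (Y u 0) 0 (Y u 15) + er ≤ 4 * s u 7 by linarith) hc.1
  simp only [pz4, lf, ln4, mul_zero, zero_add]
  exact ⟨le_trans (by tier! 15) (T.k 0 (Nat.zero_le _)), by tier! 5, one_le_Y _ _, by tier! 8,
    by linarith⟩

/-- **short lags** (`M = l`, `j = Y 2`). -/
theorem short4 (hB : Y u 10 ≤ B ∧ B ≤ Y u 11)
    (hθ : Real.exp (56 * θ * (w + 1 + Y u 2)) ≤ Y u 1) :
    2 * ((ln4 u (ll u)).d + (lf h Dw).A) ≤ 2 ^ k 0 ∧ 1 ≤ ll u ∧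
    2 * (ll u + (lf h Dw).l) * ((Y u 2 + 1) * (2 * (lf h Dw).A + 1)) ≤ (ln4 u (ll u)).d ∧
    2 * (c * (2 * cT S G P k k' (lf h Dw).A 0 1 / (ln4 u (ll u)).τ +
      cT S G P k k' (lf h Dw).A 0 (ll u) / (ll u : ℕ) + er)) +
      (cC (lf h Dw) (ln4 u (ll u)) n B w θ + 2 * cW (lf h Dw) (ln4 u (ll u)) n
        (2 * Real.exp 1 * (6 * (2 * (pz4 u).γ 0) + (pz4 u).cF))) ≤
      (pz4 u).γ 0 / 2 + (ln4 u (ll u)).o := by
  have hu := h.hu
  have h0 := ll_le h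
  have hl := ll_pos u
  have hb : cC (lf h Dw) (ln4 u (ll u)) n B w θ + 2 * cW (lf h Dw) (ln4 u (ll u)) n
      (2 * Real.exp 1 * (6 * (2 * (pz4 u).γ 0) + (pz4 u).cF)) ≤ (Y u 3 : ℝ) * s u 4 ^ 9 / 2 :=
    (hl4 h hB).bad_le hθ
  refine ⟨le_trans (by show 2 * (ll u * Y u 2 ^ 2 + Y u 0) ≤ _; tier! 5) (T.k 0 (Nat.zero_le _)),
    hl, ?_, le_trans (add_le_add le_rfl hb) ?_⟩
  · have a1 : 8 * (2 * Y u 0 + 1) ≤ Y u 2 := by tier! 0
    have a2 := Nat.mul_le_mul (show Y u 2 + 1 ≤ 2 * Y u 2 by have := one_le_Y u 2; omega) a1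
    have a3 := Nat.mul_le_mul_left (ll u) a2
    show 2 * (ll u + ll u) * ((Y u 2 + 1) * (2 * Y u 0 + 1)) ≤ ll u * Y u 2 ^ 2
    nlinarith
  · have h1 := T.cT1 h H hi (A := Y u 0) le_rfl
    obtain ⟨C, h2, h3⟩ := T.cT_le h H hi (A := Y u 0) (M := ll u) le_rfl
      (h0.trans (Y_mono (by norm_num)))
    have l0 : (0 : ℝ) < ll u := by exact_mod_cast hl
    have l1 : ((Y u 4 : ℝ) ^ 9) ≤ ll u := by
      exact_mod_cast (Nat.pow_le_pow_right (Y_pos u 4) (by norm_num : 9 ≤ 10)).trans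
        (Nat.le_mul_of_pos_left _ (by unfold csm; omega))
    have e : ∀ r : ℝ, r / (Y u 4 : ℝ) ^ 9 = r * s u 4 ^ 9 := fun r => by
      rw [s, inv_pow, div_eq_mul_inv]
    have h4 : cT S G P k k' (Y u 0) 0 (ll u) / (ll u : ℕ) ≤ C * s u 4 ^ 9 + 2 * s u 15 := by
      refine (div_le_div_of_nonneg_right h3 l0.le).trans ?_
      rw [add_div, mul_div_cancel_left₀ _ l0.ne', ← e]
      exact add_le_add (div_le_div_of_nonneg_left h2.1 (pow_pos (Yr_pos _ _) _) l1) le_rfl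
    have h5 : 4 * c * (2 * cT S G P k k' (Y u 0) 0 1 + C) ≤ Y u 3 := by rtier! 2
    have h6 := mul_le_mul_of_nonneg_right h5 (pow_pos (s_pos u 4) 9).le
    have h7 : 12 * c * s u 7 ≤ s u 6 := by rtier! 6
    have h8 : s u (48 * G.mt + 7) ≤ s u 7 := s_anti (by omega)
    have h9 : s u 15 ≤ s u 7 := s_anti (by omega)
    have h10 := mul_le_mul_of_nonneg_left (show cT S G P k k' (Y u 0) 0 (ll u) / (ll u : ℕ) + er ≤
      C * s u 4 ^ 9 + 3 * s u 7 by linarith) hc.1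
    simp only [pz4, lf, ln4, mul_zero, zero_add, Nat.cast_pow, e]
    linarith

end TG

end Crest.Agent.N337.Par
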